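import Vale.Agent.P167.H852.Q.Y5e
import Vale.Agent.P167.H601.LG.Sep

/-!
# P167, general `q`, block Q-TWO: the special points of the three families are separated
-/

namespace Vale.Agent.P167.H852.Q

open Finset Filter Topology
open Vale.Agent.P167.E6 (IsPolygon Encloses)
open Vale.Agent.P167.H542.Q (BD)
open Vale.Agent.P167.H871 (Bd)
open Vale.Agent.P167.H601.LG (SepL sepL_enl)
open Vale.Agent.P167.H760.Q (BaseQ JunQ pb q_pos)

/-- The two forms of the enlarged polygon. -/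
theorem PN_pe {l : ℕ} {p : ZMod l → ℤ × ℤ} (hp : IsPolygon p) (n m : ℕ) :
    Enl.PN p n m = CL.pe p n m := by
  rw [CL.pe_eq, Enl.pdir_step hp, add_sub_cancel_left]
  rfl

variable {S : CA.Dat} {θ β : ℝ}

/-- **The special points are separated.** -/
theorem sepE_of (X : BD S θ β) {s : ℕ → ℕ} (hb : BaseQ X s)
    (hk : (∀ᶠ n in X.L, X.k n = 0) ∨ (∀ᶠ n in X.L, X.k n = X.N n) ∨
      ∃ (ia : ℕ) (C₀ : ℝ), 0 < ia ∧ ia < S.l ∧ JunQ X ia C₀) : SepE X := by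
  have htp0 := S.tp0
  have htp1 := S.tp1
  have hc : 0 < min S.tp (1 - S.tp) / 4 := by
    have : 0 < min S.tp (1 - S.tp) := lt_min htp0 (by linarith)
    positivity
  have hc1 : min S.tp (1 - S.tp) / 4 ≤ S.tp / 4 := by
    have := min_le_left S.tp (1 - S.tp)
    linarith
  have hc2 : min S.tp (1 - S.tp) / 4 ≤ (1 - S.tp) / 4 := by
    have := min_le_right S.tp (1 - S.tp)
    linarith
  refine ⟨min S.tp (1 - S.tp) / 4, hc, ?_⟩
  obtain ⟨hs1, hb⟩ := hb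
  have hlarge : ∀ A : ℝ, ∀ᶠ n : ℕ in X.L, A ≤ n := fun A => X.le
    ((eventually_ge_atTop ⌈A⌉₊).mono fun n hn => (Nat.le_ceil A).trans (by exact_mod_cast hn))
  -- the junction
  have hk' : ∃ C₀ : ℝ, ∀ᶠ n in X.L, X.k n = 0 ∨ X.k n = X.N n ∨
      ∃ ia : ℕ, 0 < ia ∧ ia < S.l ∧ |(X.k n : ℝ) - ia * n| ≤ C₀ := by
    rcases hk with h | h | ⟨ia, C₀, h1, h2, h3⟩
    · exact ⟨0, h.mono fun n hn => Or.inl hn⟩
    · exact ⟨0, h.mono fun n hn => Or.inr (Or.inl hn)⟩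
    · exact ⟨C₀, h3.mono fun n hn => Or.inr (Or.inr ⟨ia, h1, h2, hn⟩)⟩
  obtain ⟨C₀, hk'⟩ := hk'
  filter_upwards [X.poly, X.enc, hb, hk', hlarge ((|C₀| + 8) / (S.tp / 4)),
    hlarge ((|C₀| + 8) / ((1 - S.tp) / 4)), hlarge 1] with n a1 a2 a3 a4 a5 a6 a7 τ hτ
  have hn' : (0 : ℝ) < n := by linarith
  have hn : 0 < n := by exact_mod_cast hn'
  rw [div_le_iff₀ (by linarith)] at a5 a6
  have hC0 := abs_nonneg C₀
  have hC1 := le_abs_self C₀
  have ht1 : ((s n : ℕ) : ℝ) ≤ 1 := by exact_mod_cast hs1 n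
  have ht0 : (0 : ℝ) ≤ (s n : ℕ) := Nat.cast_nonneg _
  obtain ⟨t₀, ht₀⟩ : ∃ t₀, t₀ = ⌊S.tp * n⌋₊ + s n := ⟨_, rfl⟩
  rw [← ht₀] at a3
  have hb1 : (⌊S.tp * n⌋₊ : ℝ) ≤ S.tp * n := Nat.floor_le (by positivity)
  have hb2 : S.tp * n < ⌊S.tp * n⌋₊ + 1 := Nat.lt_floor_add_one _
  have ht2 : (t₀ : ℝ) ≤ S.tp * n + 1 := by
    rw [ht₀]; push_cast; linarith
  have ht3 : S.tp * n - 1 ≤ (t₀ : ℝ) := by
    rw [ht₀]; push_cast; linarith
  have htn : t₀ < n := by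
    have : (t₀ : ℝ) < n := by nlinarith
    exact_mod_cast this
  obtain ⟨L, hL⟩ : ∃ L, L = ⌊min S.tp (1 - S.tp) / 4 * (n : ℝ)⌋₊ := ⟨_, rfl⟩
  rw [← hL]
  have hL1 : (L : ℝ) ≤ S.tp / 4 * n := by
    rw [hL]
    exact (Nat.floor_le (by positivity)).trans (mul_le_mul_of_nonneg_right hc1 hn'.le)
  have hL2 : (L : ℝ) ≤ (1 - S.tp) / 4 * n := by
    rw [hL]
    exact (Nat.floor_le (by positivity)).trans (mul_le_mul_of_nonneg_right hc2 hn'.le)
  obtain ⟨hN, hpos⟩ := q_pos S hn a1 a2 htn a3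
  have hs : ∀ j : ℕ, X.q n (j : ZMod (X.N n)) = Enl.PN S.p n (j + t₀) + 0 := fun j => by
    rw [hpos, add_zero, PN_pe S.poly, add_comm]
  refine sepL_enl S.poly hn (by rw [hN, mul_comm]) ?_ hs hτ (Or.inr ⟨?_, ?_⟩) ?_
  · have : (L : ℝ) ≤ n := by nlinarith
    exact_mod_cast this
  · have : (L : ℝ) ≤ t₀ := by linarith
    exact_mod_cast this
  · have : (t₀ : ℝ) + L ≤ n := by linarith
    exact_mod_cast this
  · rcases a4 with h | h | ⟨ia, h1, h2, h3⟩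
    · exact Or.inl h
    · exact Or.inr (Or.inl h)
    · right; right
      rw [abs_le] at h3
      have h4 : ia * n ≤ X.k n + t₀ := by
        have : (ia : ℝ) * n ≤ X.k n + t₀ := by linarith
        exact_mod_cast this
      obtain ⟨σ, hσ⟩ := Nat.exists_eq_add_of_le h4
      have hσ' : (X.k n : ℝ) + t₀ = ia * n + σ := by exact_mod_cast hσ
      refine ⟨ia, σ, h1, h2, ?_, ?_, hσ⟩
      · have : (L : ℝ) ≤ σ := by linarith
        exact_mod_cast this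
      · have : (σ : ℝ) + L ≤ n := by linarith
        exact_mod_cast this

end Vale.Agent.P167.H852.Q
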