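import Vale.Agent.P167.H852.Q.Mom
import Vale.Agent.P167.H760.Q.Arc

/-!
# P167, general `q`: the classes of the families in question

`Cls X`: the base is in the middle of a side with the direction `0`, `4 ∣ n`; free with an even base,
wired with an odd base, or Dobrushin with the junction in the middle of a side with the direction `0`.
-/

namespace Vale.Agent.P167.H852.Q

open Filter Vale.Agent.P167.FK
open Vale.Agent.P167.H542.Q (BD)

variable {S : CA.Dat} {θ β : ℝ}

/-- Free with an even base (`b = false`), wired with an odd base (`b = true`). -/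
structure FwC (X : BD S θ β) (b : Bool) : Prop where
  k : ∀ᶠ n in X.L, X.k n = if b = true then 0 else X.N n
  par : ∀ᶠ n in X.L, (Even ((X.q n 0).1 + (X.q n 0).2) ↔ b = false)

/-- Dobrushin, the junction is in the middle of the side number `ia`, its direction is `0`. -/
structure DbC (X : BD S θ β) (ia : ℕ) : Prop where
  i0 : 0 < ia
  i1 : ia < S.l
  dir : S.p (ia + 1) = S.p ia + (1, 0)
  b : ∀ᶠ n in X.L, X.q n 0 = S.b n
  k : ∀ᶠ n in X.L, X.k n = ia * n

/-- **The families in question.** -/
structure Cls (X : BD S θ β) : Prop where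
  tp : S.tp = 1 / 2
  r : S.r = 0
  four : X.L ≤ 𝓟 {n | 4 ∣ n}
  ty : (∃ b, FwC X b) ∨ ∃ ia, DbC X ia

end Vale.Agent.P167.H852.Q
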