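import Vale.Agent.P167.H760.Q.Maj
import Vale.Agent.P167.H601.LG.Loc
import Vale.Agent.P167.H975.LkB
import Vale.Agent.P167.H562.Q.SM4

/-!
# P167, general `q`, block Q-LAM: literal form of the two inputs of the image majorants

`TPs`: product over the special points (base, junction, corners) of the products `TX` of the weights of
the pieces in the box of radius `r`. `MomT`: exponential moments, weighted by `|TPs|`, of the number
of the large pieces (it does not read a box around a point `z`). `LamT`: the mean value of `|TPs|` is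
bounded by the ratio `lam` of the partition functions.
-/

namespace Vale.Agent.P167.H852.Q

open Finset Filter Vale.Agent.P167.BR Vale.Agent.P167.FK
open Vale.Agent.P167.H718 (Dob lam)
open Vale.Agent.P167.H871 (Bd)
open Vale.Agent.P167.H542.Q (BD)
open Vale.Agent.P167.H562.MAJ (bigs)
open Vale.Agent.P167.H601.LG (Spe wJ)
open Vale.Agent.P167.H975 (TX)

open Classical in
/-- The product of the local factors at the special points. -/
noncomputable def TPs {N : ℕ} (θ β : ℝ) (q : ZMod N → ℤ × ℤ) (D : Finset (ℤ × ℤ)) (k : ℕ) (τ : ℕ → ℤ)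
    (r : ℤ) (ω : Cfg) : ℝ :=
  ∏ j ∈ (range N).filter (Spe τ k), TX (wJ θ β q D k τ) D (q (j : ZMod N)) r ω

variable {S : CA.Dat} {θ β : ℝ}

/-- **Moments of the number of the large pieces**, weighted by the local factors. -/
def MomT (X : BD S θ β) : Prop :=
  ∃ ρ₁ : ℝ, 0 < ρ₁ ∧ ∀ ρ : ℝ, 0 < ρ → ρ ≤ ρ₁ → ∀ κ s : ℝ, 0 < κ → 0 ≤ s →
    ∃ c C : ℝ, 0 < c ∧ 0 < C ∧ ∀ᶠ n : ℕ in X.L, ∀ (a : Fin 4) (τ : ℕ → ℤ),
    Bd (S.D n : Set (ℤ × ℤ)) (X.N n) (fun i => X.q n (i : ZMod (X.N n))) τ 1 →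
    ∀ z : ℤ × ℤ, ∃ N : Cfg → ℕ,
      (∀ ω ω' : Cfg, (∀ v : ℤ × ℤ, c * n < nm (v - z) → ω v = ω' v) → N ω = N ω') ∧
      (∀ ω, (bigs ((S.D n).image (· + E6.dir a)) ((S.D n).image (· + E6.dir a)) (κ * n) ω).card ≤
        N ω) ∧
      ∀ η : Cfg, Dob η ((S.D n).image (· + E6.dir a)) (fun i => X.q n i + E6.dir a) (X.k n) →
        Ex (2 * Real.cos θ) ((S.D n).image (· + E6.dir a)) η (fun ω =>
          |TPs θ β (fun i => X.q n i + E6.dir a) ((S.D n).image (· + E6.dir a)) (X.k n) τ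
            ⌊ρ * n⌋ ω| * Real.exp (s * (N ω : ℝ))) ≤
        C * Ex (2 * Real.cos θ) ((S.D n).image (· + E6.dir a)) η (fun ω =>
          |TPs θ β (fun i => X.q n i + E6.dir a) ((S.D n).image (· + E6.dir a)) (X.k n) τ
            ⌊ρ * n⌋ ω|)

/-- **The mean value of the local factors.** -/
def LamT (X : BD S θ β) : Prop :=
  ∃ ρ₁ : ℝ, 0 < ρ₁ ∧ ∀ ρ : ℝ, 0 < ρ → ρ ≤ ρ₁ → ∃ C : ℝ, 0 < C ∧ ∀ᶠ n : ℕ in X.L,
    ∀ (a : Fin 4) (τ : ℕ → ℤ),
    Bd (S.D n : Set (ℤ × ℤ)) (X.N n) (fun i => X.q n (i : ZMod (X.N n))) τ 1 → ∀ η : Cfg,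
    Dob η ((S.D n).image (· + E6.dir a)) (fun i => X.q n i + E6.dir a) (X.k n) →
    Ex (2 * Real.cos θ) ((S.D n).image (· + E6.dir a)) η (fun ω =>
        |TPs θ β (fun i => X.q n i + E6.dir a) ((S.D n).image (· + E6.dir a)) (X.k n) τ
          ⌊ρ * n⌋ ω|) ≤ C * lam θ β (X.q n) (S.D n) (X.k n) (E6.dir a)

end Vale.Agent.P167.H852.Q
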