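import Vale.Agent.P167.H852.Q.Y3

/-!
# P167, general `q`, block Q-TWO: majorants of the natural functionals: `majN`
-/

namespace Vale.Agent.P167.H852.Q

open Finset Filter Topology Relation Vale.Agent.P167.BR Vale.Agent.P167.FK
open Vale.Agent.P167.E6 (IsPolygon Encloses)
open Vale.Agent.P167.H562.SML
open Vale.Agent.P167.H562.MAJ (Sm near_site fsum_eq mem_fat_iff)
open Vale.Agent.P167.H562.QM (MajA YQ YQ_mom YQ_pos Nr oneC_sub)
open Vale.Agent.P167.H436 (ero)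
open Vale.Agent.P167.H542.Q (BD cB cB_pos)
open Vale.Agent.P167.H365.NQ (XW TW)
open Vale.Agent.P167.H718 (Dob wn wn')
open Vale.Agent.P167.H760.Q (MajY Fp MajN)
open Vale.Agent.P167.CA (cms)

variable {S : CA.Dat} {θ β : ℝ} {f : ℂ → ℝ}

section

variable {κ κ0 Mf R1 : ℝ} {n N : ℕ} {Z : Finset (ℤ × ℤ)} {k : ℤ} {q : ZMod N → ℤ × ℤ} {m : ℕ}

theorem Zn.sum0 (H : Zn S f κ κ0 Mf R1 n Z k) : ∑ᶠ z, cms f (1 / (n : ℝ)) z = 0 := by
  rw [fsum_eq (F := sites (S.D n)) fun z hz => sites_mono H.sub (H.supp z hz)]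
  exact H.tot

theorem Zn.nrk (H : Zn S f κ κ0 Mf R1 n Z k) {v : ℤ × ℤ} (hv : Nr (fat Z 1) (κ * n) v) :
    ∃ u ∈ Z, (nm (v - u) : ℝ) ≤ κ * n + 1 := by
  obtain ⟨u, hu, h⟩ := hv
  obtain ⟨u', hu', h'⟩ := mem_fat_iff hu
  refine ⟨u', hu', ?_⟩
  have := nm_tri v u u'
  linarith

/-- The bound of the charge. -/
theorem Zn.bd1 (H : Zn S f κ κ0 Mf R1 n Z k) (z : ℤ × ℤ) :
    |cms f (1 / (n : ℝ)) z| ≤ (Mf + 1) / (n : ℝ) ^ 2 := by
  refine (H.bd z).trans ?_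
  have : (0 : ℝ) ≤ (n : ℝ) ^ 2 := by positivity
  exact div_le_div_of_nonneg_right (by linarith) this

theorem Zn.rads (H : Zn S f κ κ0 Mf R1 n Z k) {z : ℤ × ℤ} (hz : cms f (1 / (n : ℝ)) z ≠ 0) :
    (nm (z - 0) : ℝ) ≤ (R1 + 1) * n := by
  obtain ⟨u, hu, h⟩ := near_site (H.supp z hz)
  have h1 : (nm (z - u) : ℝ) ≤ 1 := by exact_mod_cast h
  have h2 := H.rad u (H.sub hu)
  have h3 := nm_tri z u 0
  have h4 := H.n1
  rw [sub_zero, sub_zero] at h3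
  rw [sub_zero]
  linarith

theorem Zn.nbh (H : Zn S f κ κ0 Mf R1 n Z k) {z : ℤ × ℤ} (hz : cms f (1 / (n : ℝ)) z ≠ 0)
    {v : ℤ × ℤ} (hv : (nm (v - z) : ℝ) ≤ 33 * κ * n) : v ∈ S.D n := by
  obtain ⟨u, hu, h⟩ := near_site (H.supp z hz)
  have h1 : (nm (z - u) : ℝ) ≤ 1 := by exact_mod_cast h
  refine H.near u hu v ?_
  have h2 := nm_tri v z u
  have h3 := H.κn
  have h4 := H.κ0n
  have h5 := H.k2
  linarith

end

/-- **Majorants of the natural functionals.** -/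
theorem majN (h0 : 0 < θ) (h1 : θ ≤ Real.pi / 3) (hβ : Real.cos (θ / 2 + β) = Real.sin θ)
    (hRSW : RSW (2 * Real.cos θ)) (X : BD S θ β) (hf : S.FF f) : MajN X f := by
  classical
  intro δ hδ
  have hQ1 : 1 ≤ 2 * Real.cos θ := BD.one_le h0 h1
  have hQ0 : 0 < 2 * Real.cos θ := by linarith
  obtain ⟨ht0, ht2⟩ := H562.QM.tan_bd h0 h1
  obtain ⟨κ0, Mf, R1, hκ0, hMf0, hR1, hZn⟩ := exists_zn hf
  obtain ⟨κ, hκ, hκ1, hκ2⟩ : ∃ κ : ℝ, 0 < κ ∧ κ ≤ κ0 / 80 ∧ κ ≤ 1 / (2 * (Mf + 1)) :=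
    ⟨min (κ0 / 80) (1 / (2 * (Mf + 1))), by positivity, min_le_left _ _, min_le_right _ _⟩
  obtain ⟨M, hM2, hM⟩ : ∃ M : ℝ, 2 ≤ M ∧ (cB θ)⁻¹ ≤ M := ⟨max 2 _, le_max_left _ _, le_max_right _ _⟩
  obtain ⟨al, Ca, hal, hCa, hArm, -⟩ := FKA.arm_fk hQ1 hRSW
  obtain ⟨P, hP⟩ := H519.exists_lim hQ1 hal hArm
  obtain ⟨ε, C, ρ0, hε, hC, hρ0, H⟩ := YQ_mom hQ1 hRSW hP κ (R1 + 1) (Mf + 1) 1 M 0 hκ
    (by linarith) (by linarith) zero_le_one (by linarith)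
  refine ⟨κ0 / 8, 3 * M * C, by positivity, by positivity, ?_⟩
  have hev : ∀ᶠ n : ℕ in atTop, max ρ0 (1 / δ) ≤ (n : ℝ) :=
    tendsto_natCast_atTop_atTop.eventually_ge_atTop _
  filter_upwards [X.poly, X.enc, (hZn κ0 hκ0 le_rfl κ hκ hκ1 hκ2).filter_mono X.le,
    hev.filter_mono X.le] with n hq hD hZ hn z hz R hR η hη
  obtain ⟨Z, hZe⟩ : ∃ Z, Z = ero S.Q n ⌊κ0 * (n : ℝ)⌋ := ⟨_, rfl⟩
  rw [← hZe] at hZ
  have hnδ : 1 ≤ δ * n := by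
    have : 1 / δ ≤ n := (le_max_right _ _).trans hn
    rw [div_le_iff₀ hδ] at this
    linarith
  obtain ⟨N, hN1, hN2, hN3⟩ := H n ((le_max_left _ _).trans hn) 0 (fat Z 1)
    (fun v hv => hZ.rad' hv) (fun i => i.elim0)
  have hP := hZ.ptw (m := X.k n) hMf0 h0 h1 hβ hq hD hM2 hM
  have hY0 : ∀ ω, 0 < YQ M (Real.tan θ) N (cms f (1 / (n : ℝ))) (κ * n) ω :=
    fun ω => YQ_pos (by linarith) _ _ _ _ _
  have hT1 : ∀ ω, TIn (S.D n) (wn θ β (X.q n) (S.D n) (X.k n) (cms f (1 / (n : ℝ))))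
      (fun _ => False) ω = 1 := fun ω => by
    unfold TIn
    simp
  refine ⟨fun ω => 3 * M * YQ M (Real.tan θ) N (cms f (1 / (n : ℝ))) (κ * n) ω, ?_, ?_, ?_, ?_⟩
  · -- the window
    intro ω ω' hw
    have e1 : N ω = N ω' := hN1 ω ω' fun v hv _ => hw v (hZ.win hz hnδ hR (by
      obtain ⟨u, hu, h⟩ := hZ.nrk hv
      exact ⟨u, hu, by have := hZ.κn; linarith⟩))
    have e2 : Sm (cms f (1 / (n : ℝ))) (κ * n) ω = Sm (cms f (1 / (n : ℝ))) (κ * n) ω' :=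
      Sm_congr hZ.supp fun v hv => hw v (hZ.win hz hnδ hR hv)
    show 3 * M * YQ M (Real.tan θ) N (cms f (1 / (n : ℝ))) (κ * n) ω =
      3 * M * YQ M (Real.tan θ) N (cms f (1 / (n : ℝ))) (κ * n) ω'
    unfold YQ
    rw [e1, e2]
  · intro ω
    refine (hP.XW_le (fun ω => card_bigs (hN2 ω)) ω).trans ?_
    rw [hT1, one_mul]
    have := hY0 ω
    exact le_mul_of_one_le_left this.le (by linarith)
  · intro ω A hA _
    have h2 := hP.TW_le (fun ω => card_bigs (hN2 ω)) hA (fun h => h)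
    rwa [hT1, one_mul] at h2
  · -- the moment
    rw [FKA.Ex_mul_left]
    refine mul_le_mul_of_nonneg_left ?_ (by linarith)
    have h2 := hN3 (S.D n) η hη.good (fun y a _ hy => oneC_sub fun v hv => by
        obtain ⟨u, hu, h⟩ := hZ.nrk (hy v hv)
        refine hZ.near u hu v ?_
        have h3 := hZ.κn
        have h4 := hZ.κ0n
        have h5 := hZ.k2
        linarith) (cms f (1 / (n : ℝ))) hZ.bd1 (fun z hz => hZ.rads hz)
      (fun z hz v hv => hZ.nbh hz hv)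
      (fun _ => 1) (fun _ => zero_le_one) (fun _ _ _ => rfl) (Real.tan θ) 1 ht0 ht2 zero_le_one
      le_rfl
    rw [hZ.sum0, mul_zero, zero_mul, neg_zero, Real.exp_zero, mul_one, FKA.Ex_const hQ0,
      mul_one] at h2
    simpa only [one_mul, Real.rpow_one] using h2

end Vale.Agent.P167.H852.Q
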