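import Vale.Agent.P167.H852.Q.Y5e

/-!
# P167, general `q`, block Q-TWO: majorants of the parity images: `majI_of`
-/

namespace Vale.Agent.P167.H852.Q

open Finset Filter Topology Relation Vale.Agent.P167.BR Vale.Agent.P167.FK
open Vale.Agent.P167.E6 (IsPolygon Encloses face)
open Vale.Agent.P167.H562.MAJ (Sm)
open Vale.Agent.P167.H562.QM (MajA)
open Vale.Agent.P167.H436 (ero)
open Vale.Agent.P167.H542.Q (BD cB cB_pos)
open Vale.Agent.P167.H718 (Dob wn wn' imC lam lam_pos poly_add encl_add bd_add)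
open Vale.Agent.P167.H871 (Bd)
open Vale.Agent.P167.H601.LG (Spe wJ GeoN SepL nm_of_Bq geoN_enl)
open Vale.Agent.P167.H760.Q (MajY Fp MajI BaseQ JunQ)
open Vale.Agent.P167.CA (cms)

variable {S : CA.Dat} {θ β : ℝ} {f : ℂ → ℝ}

/-- The numeric conditions at one scale. -/
theorem num_ok {κ κ0 ρ δ cs n : ℝ} {k : ℤ} (hκn : 4 ≤ κ * n) (hκ0 : 80 * (κ * n) ≤ κ0 * n)
    (hk2 : κ0 * n < (k : ℝ) + 1) (hn : 0 < n) (r3 : ρ ≤ κ0 / 4) (r4 : ρ ≤ δ / 16) (r5 : ρ ≤ cs / 8)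
    (r6 : ρ ≤ 1 / 8) (k1 : κ ≤ ρ / 32) {r : ℤ} (hr : r = ⌊ρ * n⌋) :
    0 ≤ r ∧ 6 * (r : ℝ) < n ∧ 4 * (r : ℝ) < cs * n - 1 ∧ κ * n ≤ (r : ℝ) / 16 ∧
      (r : ℝ) + (κ * n + 1) + 1 ≤ k ∧ (r : ℝ) ≤ δ / 16 * n ∧ 2048 ≤ δ * n := by
  have a1 : κ * n ≤ ρ / 32 * n := mul_le_mul_of_nonneg_right k1 hn.le
  have a3 : ρ * n ≤ κ0 / 4 * n := mul_le_mul_of_nonneg_right r3 hn.le
  have a4 : ρ * n ≤ δ / 16 * n := mul_le_mul_of_nonneg_right r4 hn.le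
  have a5 : ρ * n ≤ cs / 8 * n := mul_le_mul_of_nonneg_right r5 hn.le
  have a6 : ρ * n ≤ 1 / 8 * n := mul_le_mul_of_nonneg_right r6 hn.le
  have b1 : (r : ℝ) ≤ ρ * n := by rw [hr]; exact Int.floor_le _
  have b2 : ρ * n < (r : ℝ) + 1 := by rw [hr]; exact Int.lt_floor_add_one _
  refine ⟨?_, by linarith, by linarith, by linarith, by linarith, by linarith, by linarith⟩
  rw [hr]
  exact Int.floor_nonneg.2 (by linarith)

/-- **Majorants of the parity images**, from the two inputs of the block Q-LAM. -/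
theorem majI_of (h0 : 0 < θ) (h1 : θ ≤ Real.pi / 3) (hβ : Real.cos (θ / 2 + β) = Real.sin θ)
    (hRSW : RSW (2 * Real.cos θ)) (X : BD S θ β) {s : ℕ → ℕ} (hb : BaseQ X s) {ia : ℕ} {C₀ : ℝ}
    (hk : JunQ X ia C₀) (hsep : SepE X) (hMm : MomT X) (hLm : LamT X) (hf : S.FF f) :
    MajI X f := by
  classical
  intro δ hδ
  have hQ1 : 1 ≤ 2 * Real.cos θ := BD.one_le h0 h1
  have hQ0 : 0 < 2 * Real.cos θ := by linarith
  obtain ⟨ht0, ht2⟩ := H562.QM.tan_bd h0 h1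
  obtain ⟨κ0, Mf, R1, hκ0, hMf0, hR1, hZn⟩ := exists_zn hf
  obtain ⟨ρ1, hρ1, hMm⟩ := hMm
  obtain ⟨ρ2, hρ2, hLm⟩ := hLm
  obtain ⟨cs, hcs, hsep⟩ := hsep
  obtain ⟨ρ, hρ, r1, r2, r3, r4, r5, r6⟩ : ∃ ρ : ℝ, 0 < ρ ∧ ρ ≤ ρ1 ∧ ρ ≤ ρ2 ∧ ρ ≤ κ0 / 4 ∧
      ρ ≤ δ / 16 ∧ ρ ≤ cs / 8 ∧ ρ ≤ 1 / 8 := by
    refine ⟨min ρ1 (min ρ2 (min (κ0 / 4) (min (δ / 16) (min (cs / 8) (1 / 8))))), by positivity,
      ?_, ?_, ?_, ?_, ?_, ?_⟩ <;> simp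
  obtain ⟨κ, hκ, k1, k2, k3⟩ : ∃ κ : ℝ, 0 < κ ∧ κ ≤ ρ / 32 ∧ κ ≤ κ0 / 80 ∧
      κ ≤ 1 / (2 * (Mf + 1)) :=
    ⟨min (ρ / 32) (min (κ0 / 80) (1 / (2 * (Mf + 1)))), by positivity, min_le_left _ _,
      (min_le_right _ _).trans (min_le_left _ _), (min_le_right _ _).trans (min_le_right _ _)⟩
  obtain ⟨M, hM2, hM⟩ : ∃ M : ℝ, 2 ≤ M ∧ (cB θ)⁻¹ ≤ M := ⟨max 2 _, le_max_left _ _, le_max_right _ _⟩
  obtain ⟨al, Ca, hal, hCa, hArm, -⟩ := FKA.arm_fk hQ1 hRSW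
  obtain ⟨P, hP⟩ := H519.exists_lim hQ1 hal hArm
  obtain ⟨C3, ρ0, hC3, hρ0, H3⟩ := sm_mom hQ1 hRSW hP κ (R1 + 1) Mf hκ (by linarith) hMf0
  obtain ⟨c1, C1, hc1, hC1, H1⟩ := hMm ρ hρ r1 κ (2 * Real.log M) hκ
    (mul_nonneg (by norm_num) (Real.log_nonneg (by linarith)))
  obtain ⟨C2, hC2, H2⟩ := hLm ρ hρ r2
  refine ⟨min c1 (min (κ0 / 8) (δ / 64)), 3 * M * (Real.sqrt C1 * Real.sqrt C3 * C2),
    by positivity, by positivity, ?_⟩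
  have hev : ∀ᶠ n : ℕ in X.L, ρ0 ≤ (n : ℝ) := X.le
    ((eventually_ge_atTop ⌈ρ0⌉₊).mono fun n hn => (Nat.le_ceil ρ0).trans (by exact_mod_cast hn))
  filter_upwards [X.poly, X.enc, (hZn κ0 hκ0 le_rfl κ hκ k2 k3).filter_mono X.le, hev,
    spe_far X hb hk hδ, hsep, H1, H2] with n hq hD hZ hn hsf hsp H1 H2 z hz R hR a τ hτ η hη
  obtain ⟨Z, hZe⟩ : ∃ Z, Z = ero S.Q n ⌊κ0 * (n : ℝ)⌋ := ⟨_, rfl⟩
  rw [← hZe] at hZ
  obtain ⟨k, hke⟩ : ∃ k, k = ⌊κ0 * (n : ℝ)⌋ := ⟨_, rfl⟩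
  rw [← hke] at hZ
  have hn' : (0 : ℝ) < n := by have := hZ.n1; linarith
  have hn0 : 0 < n := by exact_mod_cast hn'
  obtain ⟨r, hr⟩ : ∃ r, r = ⌊ρ * (n : ℝ)⌋ := ⟨_, rfl⟩
  rw [← hr] at H1 H2
  obtain ⟨u1, u2, u3, u4, u5, u6, u7⟩ := num_ok hZ.κn hZ.κ0n hZ.k2 hn' r3 r4 r5 r6 k1 hr
  have hR1' : (R : ℝ) ≤ c1 * n := hR.trans (mul_le_mul_of_nonneg_right (min_le_left _ _) hn'.le)
  have hR2 : (R : ℝ) ≤ κ0 / 8 * n := hR.trans (mul_le_mul_of_nonneg_right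
    ((min_le_right _ _).trans (min_le_left _ _)) hn'.le)
  have hR3 : (R : ℝ) ≤ δ / 64 * n := hR.trans (mul_le_mul_of_nonneg_right
    ((min_le_right _ _).trans (min_le_right _ _)) hn'.le)
  -- the translated domain
  have hqa := poly_add hq (E6.dir a)
  have hDa := encl_add hD (E6.dir a)
  have hBa := bd_add hτ (E6.dir a)
  have hG : GeoN n (X.N n) (fun i => X.q n i + E6.dir a) τ :=
    geoN_enl S.poly S.enc hn0 hqa hDa hBa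
  have hZa := hZ.zg.tr (nm_dir a)
  have hfar : ∀ j < X.N n, Spe τ (X.k n) j →
      δ / 4 * n - 1 < (nm ((fun i => X.q n i + E6.dir a) (j : ZMod (X.N n)) - z) : ℝ) := by
    intro j hj hs
    have h2 := hsf z hz τ hτ j hj hs
    have h3 := nm_tri (X.q n (j : ZMod (X.N n))) (X.q n (j : ZMod (X.N n)) + E6.dir a) z
    have h4 : (nm (X.q n (j : ZMod (X.N n)) - (X.q n (j : ZMod (X.N n)) + E6.dir a)) : ℝ) ≤ 1 := by
      rw [nm_sub_add]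
      exact_mod_cast nm_dir a
    show δ / 4 * n - 1 < (nm (X.q n (j : ZMod (X.N n)) + E6.dir a - z) : ℝ)
    linarith
  obtain ⟨Nc, hN1, hN2, hN3⟩ := H1 a τ hτ z
  have hsm := H3 n hn _ _ _ κ0 k hZa η hη.good
    (fun ω => |TPs θ β (fun i => X.q n i + E6.dir a) ((S.D n).image (· + E6.dir a)) (X.k n) τ r ω|)
    (fun ω => abs_nonneg _) (fun ω ω' hw => by
      congr 1
      refine TPs_congr fun j hj hs v hv hvD => hw v ?_
      rintro ⟨-, z', hz', h3⟩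
      obtain ⟨u, hu, h4⟩ := H562.MAJ.near_site (hZa.supp z' hz')
      have h4' : (nm (z' - u) : ℝ) ≤ 1 := by exact_mod_cast h4
      have h5 := hZa.far_q hqa hDa (r := r) (m := 33 * κ * n + 1) (by
        have e1 := hZ.κ0n
        have e2 := hZ.κn
        have e3 := hZ.k2
        have e4 : ρ * (n : ℝ) ≤ κ0 / 4 * n := mul_le_mul_of_nonneg_right r3 hn'.le
        have e5 : (r : ℝ) ≤ ρ * n := by rw [hr]; exact Int.floor_le _
        linarith) hu hv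
      have h6 := nm_tri v z' u
      linarith) (Real.tan θ) ht0 ht2
  have hmaj := hZa.majY (τ := τ) (m := X.k n) (z := z) (R := R) hMf0 h0 h1 hβ hqa hDa hG
    (hsp τ hτ) hM2 hM u1 (by exact_mod_cast u2) (by
      have e1 : cs * (n : ℝ) < ⌊cs * (n : ℝ)⌋₊ + 1 := Nat.lt_floor_add_one _
      have e2 : ((4 * r : ℤ) : ℝ) < ((⌊cs * (n : ℝ)⌋₊ : ℤ) : ℝ) := by push_cast; linarith
      exact_mod_cast e2) u4 u5
    (fun j hj hs => by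
      have e1 := hfar j hj hs
      have e2 : ((3 * R + r : ℤ) : ℝ) <
          (nm ((fun i => X.q n i + E6.dir a) (j : ZMod (X.N n)) - z) : ℝ) := by
        push_cast
        linarith
      exact_mod_cast e2)
    (fun j hj hs => by
      have e1 := hfar j hj hs
      have e2 : ((R + r : ℤ) : ℝ) <
          (nm ((fun i => X.q n i + E6.dir a) (j : ZMod (X.N n)) - z) : ℝ) := by
        push_cast
        linarith
      exact_mod_cast e2)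
    (fun v hv => hZ.win_im hz (by linarith) hR2 (nm_dir a) hv)
    (fun ω ω' hw => hN1 ω ω' fun v hv => hw v (by
      have : (R : ℝ) < nm (v - z) := lt_of_le_of_lt hR1' hv
      exact_mod_cast this)) hN2 hC1 hC3 (hN3 η hη) hsm (H2 a τ hτ η hη)
  have e : 3 * M * (Real.sqrt C1 * Real.sqrt C3 * (C2 * lam θ β (X.q n) (S.D n) (X.k n) (E6.dir a)))
      = 3 * M * (Real.sqrt C1 * Real.sqrt C3 * C2) * lam θ β (X.q n) (S.D n) (X.k n) (E6.dir a) := by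
    ring
  rw [e] at hmaj
  exact hmaj

end Vale.Agent.P167.H852.Q
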