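import Vale.Agent.P167.H852.Q.Y4
import Vale.Agent.P167.H852.Q.Y5f
import Vale.Agent.P167.H852.Q.Y5g
import Vale.Agent.P167.H760.Q.Asm

/-!
# P167, general `q`: the local Neumann input of a Dobrushin family

`twoAll_of`: the local input `TwoAll` from the two inputs `MomT`, `LamT` of the block Q-LAM.
-/

namespace Vale.Agent.P167.H852.Q

open Finset Filter Topology Vale.Agent.P167.FK
open Vale.Agent.P167.H542.Q (BD)
open Vale.Agent.P167.H760.Q (TwoAll BaseQ JunQ two_all')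

variable {S : CA.Dat} {θ β : ℝ}

/-- The position of the junction. -/
def JunK (X : BD S θ β) : Prop :=
  (∀ᶠ n in X.L, X.k n = 0) ∨ (∀ᶠ n in X.L, X.k n = X.N n) ∨
    ∃ (ia : ℕ) (C₀ : ℝ), 0 < ia ∧ ia < S.l ∧ JunQ X ia C₀

/-- The number of the sides. -/
theorem card_sides (X : BD S θ β) {s : ℕ → ℕ} (hb : BaseQ X s) :
    ∀ᶠ n : ℕ in X.L, X.N n = n * S.l := by
  have htp0 := S.tp0
  have htp1 := S.tp1
  have hlarge : ∀ A : ℝ, ∀ᶠ n : ℕ in X.L, A ≤ n := fun A => X.le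
    ((eventually_ge_atTop ⌈A⌉₊).mono fun n hn => (Nat.le_ceil A).trans (by exact_mod_cast hn))
  filter_upwards [X.poly, X.enc, hb.2, hlarge (2 / (1 - S.tp)), hlarge 1] with n a1 a2 a3 a4 a5
  have hn' : (0 : ℝ) < n := by linarith
  have hn : 0 < n := by exact_mod_cast hn'
  rw [div_le_iff₀ (by linarith)] at a4
  have ht1 : ((s n : ℕ) : ℝ) ≤ 1 := by exact_mod_cast hb.1 n
  have hb1 : (⌊S.tp * n⌋₊ : ℝ) ≤ S.tp * n := Nat.floor_le (by positivity)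
  refine (H760.Q.q_pos S hn a1 a2 (t₀ := ⌊S.tp * n⌋₊ + s n) ?_ a3).1
  have : ((⌊S.tp * n⌋₊ + s n : ℕ) : ℝ) < n := by push_cast; linarith
  exact_mod_cast this

theorem JunK.jun {X : BD S θ β} {s : ℕ → ℕ} (hb : BaseQ X s) (h : JunK X) :
    ∃ (ia : ℕ) (C₀ : ℝ), JunQ X ia C₀ := by
  rcases h with h | h | ⟨ia, C₀, -, -, h⟩
  · refine ⟨0, 0, h.mono fun n hn => ?_⟩
    rw [hn]
    simp
  · refine ⟨S.l, 0, ?_⟩
    filter_upwards [h, card_sides X hb] with n h1 h2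
    rw [h1, h2]
    push_cast
    rw [mul_comm, sub_self, abs_zero]
  · exact ⟨ia, C₀, h⟩

/-- **The local input of a Dobrushin family.** -/
theorem twoAll_of (X : BD S θ β) (h0 : 0 < θ) (h1 : θ ≤ Real.pi / 3)
    (hβ : Real.cos (θ / 2 + β) = Real.sin θ) (hRSW : RSW (2 * Real.cos θ)) {s : ℕ → ℕ}
    (hb : BaseQ X s) (hk : JunK X) (hM : MomT X) (hL : LamT X) {f : ℂ → ℝ} (hf : S.FF f) :
    TwoAll (2 * Real.cos θ) S X.L (fun n => (X.famB h0 h1 hβ).H n f) := by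
  obtain ⟨ia, C₀, hj⟩ := hk.jun hb
  exact two_all' X h0 h1 hβ hb hj hf (majN h0 h1 hβ hRSW X hf)
    (majI_of h0 h1 hβ hRSW X hb hj (sepE_of X hb hk) hM hL hf)

end Vale.Agent.P167.H852.Q
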