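import Vale.Agent.P167.H718.Par6

/-!
# P167, general `q`, block Q-TWO: the weights of a strand depend only on the colours of its sides, on
the side of the base point and on the mass (frame free part of the field `cro`)

`A` and `A'` are strands of two configurations with the same edges incident to squares of `D` at
distance more than `m` from `b`; all the sides near `b` have the same colour. Then the normalised
weights of `A` and `A'` agree.
-/

namespace Vale.Agent.P167.H852.Q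

open Finset
open Vale.Agent.P167.E6 (IsPolygon Encloses)
open Vale.Agent.P167.BR
open Vale.Agent.P167.H718
open Vale.Agent.P167.QX (wQ lo hi lo_xy hi_xy stag exists_xy)
open Vale.Agent.P167.H365 (sgA FarE FarA)

variable {D : Finset (ℤ × ℤ)} {ω ω' : Cfg} {A A' : Finset Ed} {θ β t : ℝ} {n k x y x' y' : ℕ}
  {q : ZMod n → ℤ × ℤ} {f : ℤ × ℤ → ℝ} {b : ℤ × ℤ} {m : ℤ} {ψ : ℕ → ℝ}

/-- The weight of a strand. -/
theorem wQ_xy (hq : IsPolygon q) (hD : Encloses q D) (hA : A ∈ pcs ω D) (hl : ¬ IsLp D A)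
    (h : IsXY q A x y) (ψ : ℕ → ℝ) (t : ℝ) :
    wQ θ q D ψ A t = 2 * Real.cos (θ / 2 - sgA D (q 0) A * (ψ y - ψ x) + t) := by
  classical
  have hne := h.ne
  unfold wQ
  rw [if_neg hl, sgA_xy hq hD hA h, lo_xy hq hD hA h, hi_xy hq hD hA h]
  rcases Nat.lt_or_ge y x with h1 | h1
  · rw [if_pos h1, max_eq_left h1.le, min_eq_right h1.le]
    congr 2
    ring
  · rw [if_neg (by omega), max_eq_right h1, min_eq_left h1]
    congr 2
    ring

theorem wQ'_xy (hq : IsPolygon q) (hD : Encloses q D) (hA : A ∈ pcs ω D) (hl : ¬ IsLp D A)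
    (h : IsXY q A x y) (ψ : ℕ → ℝ) (t : ℝ) :
    wQ' θ q D ψ A t = 2 * Real.sin (θ / 2 - sgA D (q 0) A * (ψ y - ψ x) + t) := by
  classical
  have hne := h.ne
  unfold wQ'
  rw [if_neg hl, sgA_xy hq hD hA h, lo_xy hq hD hA h, hi_xy hq hD hA h]
  rcases Nat.lt_or_ge y x with h1 | h1
  · rw [if_pos h1, max_eq_left h1.le, min_eq_right h1.le]
    congr 2
    ring
  · rw [if_neg (by omega), max_eq_right h1, min_eq_left h1]
    congr 2
    ring

/-- All the sides within distance `m` of `b` have the same colour. -/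
def Win (q : ZMod n → ℤ × ℤ) (D : Finset (ℤ × ℤ)) (k : ℕ) (b : ℤ × ℤ) (m : ℤ) : Prop :=
  ∀ z < n, ∀ z' < n, ¬ FarE D b m (be q (z : ZMod n)) → ¬ FarE D b m (be q (z' : ZMod n)) →
    (z < k ↔ z' < k)

theorem stag_congr {z z' : ℕ} (h1 : z < k ↔ z' < k)
    (h2 : Even ((q (z : ZMod n)).1 + (q (z : ZMod n)).2) ↔
      Even ((q (z' : ZMod n)).1 + (q (z' : ZMod n)).2)) :
    stag θ β q k z = stag θ β q k z' := by
  unfold stag
  by_cases h3 : z < k
  · rw [if_pos h3, if_pos (h1.1 h3)]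
    by_cases h4 : Even ((q (z : ZMod n)).1 + (q (z : ZMod n)).2)
    · rw [if_pos h4, if_pos (h2.1 h4)]
    · rw [if_neg h4, if_neg fun h => h4 (h2.2 h)]
  · rw [if_neg h3, if_neg fun h => h3 (h1.2 h)]
    by_cases h4 : Even ((q (z : ZMod n)).1 + (q (z : ZMod n)).2)
    · rw [if_pos h4, if_pos (h2.1 h4)]
    · rw [if_neg h4, if_neg fun h => h4 (h2.2 h)]

section

variable (hq : IsPolygon q) (hD : Encloses q D) (hA : A ∈ pcs ω D) (hA' : A' ∈ pcs ω' D)
  (h : IsXY q A x y) (h' : IsXY q A' x' y')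
  (hfar : ∀ e, FarE D b m e → (e ∈ A ↔ e ∈ A')) (hwin : Win q D k b m)
include hq hD hA hA' h h' hfar hwin

/-- The entries have the same colour. -/
theorem entry_col : x < k ↔ x' < k := by
  obtain ⟨hx, hy, hxA, hyA, hex, hey⟩ := id h
  obtain ⟨hx', hy', hxA', hyA', hex', hey'⟩ := id h'
  by_cases h1 : FarE D b m (be q (x : ZMod n))
  · rcases (h'.iff hq hD hA' hx).1 ((hfar _ h1).1 hxA) with h2 | h2
    · rw [h2]
    · rw [h2] at hex
      exact absurd hex hey'
  · by_cases h2 : FarE D b m (be q (x' : ZMod n))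
    · rcases (h.iff hq hD hA hx').1 ((hfar _ h2).2 hxA') with h3 | h3
      · rw [h3]
      · rw [h3] at hex'
        exact absurd hex' hey
    · exact hwin x hx x' hx' h1 h2

/-- The exits have the same colour. -/
theorem exit_col : y < k ↔ y' < k := by
  obtain ⟨hx, hy, hxA, hyA, hex, hey⟩ := id h
  obtain ⟨hx', hy', hxA', hyA', hex', hey'⟩ := id h'
  by_cases h1 : FarE D b m (be q (y : ZMod n))
  · rcases (h'.iff hq hD hA' hy).1 ((hfar _ h1).1 hyA) with h2 | h2
    · rw [h2] at hey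
      exact absurd hex' hey
    · rw [h2]
  · by_cases h2 : FarE D b m (be q (y' : ZMod n))
    · rcases (h.iff hq hD hA hy').1 ((hfar _ h2).2 hyA') with h3 | h3
      · rw [h3] at hey'
        exact absurd hex hey'
      · rw [h3]
    · exact hwin y hy y' hy' h1 h2

end

/-- **The weights of the piece of the only crossing.** -/
theorem cro_eq (hq : IsPolygon q) (hD : Encloses q D) (hA : A ∈ pcs ω D) (hA' : A' ∈ pcs ω' D)
    (hl : ¬ IsLp D A) (hl' : ¬ IsLp D A') (hfar : ∀ e, FarE D b m e → (e ∈ A ↔ e ∈ A'))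
    (hwin : Win q D k b m) (hs : sgA D (q 0) A = sgA D (q 0) A')
    (hm : mass D (q 0) f A = mass D (q 0) f A') :
    wn θ β q D k f A = wn θ β q D k f A' ∧ wn' θ β q D k f A = wn' θ β q D k f A' := by
  obtain ⟨x, y, h⟩ := exists_xy hq hD hA hl
  obtain ⟨x', y', h'⟩ := exists_xy hq hD hA' hl'
  have e1 := entry_col hq hD hA hA' h h' hfar hwin
  have e2 := exit_col hq hD hA hA' h h' hfar hwin
  have s1 : stag θ β q k x = stag θ β q k x' :=
    stag_congr e1 ⟨fun _ => h'.2.2.2.2.1, fun _ => h.2.2.2.2.1⟩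
  have s2 : stag θ β q k y = stag θ β q k y' :=
    stag_congr e2 ⟨fun h3 => absurd h3 h.2.2.2.2.2, fun h3 => absurd h3 h'.2.2.2.2.2⟩
  unfold wn wn' Wt Wt'
  rw [wQ_xy hq hD hA hl h, wQ_xy hq hD hA' hl' h', wQ_xy hq hD hA hl h, wQ_xy hq hD hA' hl' h',
    wQ'_xy hq hD hA hl h, wQ'_xy hq hD hA' hl' h', s1, s2, hs, hm]
  exact ⟨rfl, rfl⟩

end Vale.Agent.P167.H852.Q
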