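import Vale.Agent.P167.H852.Q.Lx10
import Vale.Agent.P167.H718.Lam.Fin
import Vale.Agent.P167.H365.L.Flat
import Vale.Agent.P167.H975.LamD
import Vale.Agent.P167.H601.M.MomT

/-!
# P167, general `q`: the two inputs of the Neumann block

`lamT`, `mlX`: the mean value of the local factors and the moments of the number of the large pieces, for
every family of the class `Cls`.
-/

namespace Vale.Agent.P167.H852.Q

open Vale.Agent.P167.FK
open Vale.Agent.P167.H192.Q (SRSW)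
open Vale.Agent.P167.H542.Q (BD)
open Vale.Agent.P167.H760.Q (BaseQ baseQ_b)

variable {θ : ℝ}

/-- **`LamT` for the families in question.** -/
theorem lamT (h0 : 0 < θ) (h1 : θ ≤ Real.pi / 3) (hR : RSW (2 * Real.cos θ))
    (hSR : SRSW (2 * Real.cos θ)) {S : CA.Dat} (X : BD S θ ((θ - Real.pi) / 2)) {s : ℕ → ℕ}
    (hb : BaseQ X s) (hc : Cls X) : LamT X := by
  rcases hc.ty with ⟨b, hf⟩ | ⟨ia, hd⟩
  · exact Lx.lamT_fw h0 h1 hR hSR (H167.Q.u_S h0 h1 hR hSR)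
      (H365.L.l_flat h0 h1 hR hSR (H945.L.l_gen h0 h1 hR hSR)) (H718.Lam.lamP h0 h1 hR hSR) X hb hc hf
  · exact H975.LamD.lamT_db h0 h1 hR hSR X (baseQ_b hd.b) hc hd
      (H718.Lam.lamP h0 h1 hR hSR _ (H975.LamD.uD_ok hc.r hd.i0 hd.i1 hd.dir))

/-- **The two inputs of the Neumann block.** -/
theorem mlX (h0 : 0 < θ) (h1 : θ ≤ Real.pi / 3) (hR : RSW (2 * Real.cos θ))
    (hSR : SRSW (2 * Real.cos θ)) {S : CA.Dat} (X : BD S θ ((θ - Real.pi) / 2)) {s : ℕ → ℕ}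
    (hb : BaseQ X s) (hc : Cls X) : MomT X ∧ LamT X :=
  ⟨H601.M.momT h0 h1 hR hSR X hb hc, lamT h0 h1 hR hSR X hb hc⟩

end Vale.Agent.P167.H852.Q
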