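import Vale.Agent.P167.H760.Q.Maj

/-!
# P167, general `q`, block Q-LAM: literal form of the local factors

`nu q j r D ω`: the number of the strands over the boundary site `q j` inside the box of radius `r` around it.
`gV`: the factors of the types of special points (convex corner, reflex corner, junction or base with
growth, junction or base without strands, base with at most one strand). `VP`: the product over the
special points. `MajU`: the parity images have majorants relative to the expectation of `VP`;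
`LamV`: this expectation is at most `C * lam`.
-/

namespace Vale.Agent.P167.H852.Q

open Finset Filter Topology Vale.Agent.P167.BR Vale.Agent.P167.FK
open Vale.Agent.P167.H718 (Dob wn wn' imC lam)
open Vale.Agent.P167.H871 (Bd)
open Vale.Agent.P167.H542.Q (BD)
open Vale.Agent.P167.H760.Q (MajY Fp)
open Vale.Agent.P167.CA (cms)

section

variable {N : ℕ}

/-- The piece `A` has a foot on both sides of the boundary site `q j` (at most `L` sides away). -/
def Ovr (q : ZMod N → ℤ × ℤ) (j : ZMod N) (L : ℕ) (A : Finset Ed) : Prop :=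
  (∃ m : ℕ, 1 ≤ m ∧ m ≤ L ∧ be q (j - m) ∈ A) ∧ ∃ m : ℕ, m < L ∧ be q (j + m) ∈ A

open Classical in
/-- The strands over the boundary site `q j` inside the box of radius `r`. -/
noncomputable def ovs (q : ZMod N → ℤ × ℤ) (j : ZMod N) (r : ℕ) (D : Finset (ℤ × ℤ)) (ω : Cfg) :
    Finset (Finset Ed) :=
  (pcs ω D).filter fun A => (∀ e ∈ A, hdv e ∈ Bq (q j) r) ∧ Ovr q j (2 * r) A

/-- The number of the strands over the boundary site `q j` inside the box of radius `r`. -/
noncomputable def nu (q : ZMod N → ℤ × ℤ) (j : ZMod N) (r : ℕ) (D : Finset (ℤ × ℤ)) (ω : Cfg) : ℕ :=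
  (ovs q j r D ω).card

/-- The types of the special points. -/
inductive Ty
  | conv
  | refl
  | grow
  | zero
  | one
  | flat

open Classical in
/-- The factor of a special point of the type `t` with `ν` strands. -/
noncomputable def gV (θ : ℝ) (t : Ty) (ν : ℕ) : ℝ :=
  match t with
  | Ty.conv => (Real.sin (3 * θ / 2) / Real.sqrt (Real.sin θ * Real.sin (2 * θ))) ^ ν
  | Ty.refl => Real.sqrt (Real.sin (5 * θ / 2) * Real.sin (θ / 2) /
      (Real.sin θ * Real.sin (2 * θ))) ^ ν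
  | Ty.grow => (2 * Real.cos θ) ^ ν
  | Ty.zero => if ν = 0 then 1 else 0
  | Ty.one => if ν ≤ 1 then 1 else 0
  | Ty.flat => 1

open Classical in
/-- The type of the boundary site `q j`: corners (turning `τ j - τ (j - 1)`), the junction `j = k`,
the base `j = 0`. In the free (wired) polygon the base has the type `one` if it is primal (dual). -/
noncomputable def ty (θ β : ℝ) (τ : ℕ → ℤ) (q : ZMod N → ℤ × ℤ) (k j : ℕ) : Ty :=
  if j = 0 then
    if k = 0 then (if Even ((q 0).1 + (q 0).2) then Ty.zero else Ty.one)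
    else if k = N then (if Even ((q 0).1 + (q 0).2) then Ty.one else Ty.zero)
    else if Real.cos (3 * θ / 2 + β) = 0 then Ty.zero else Ty.grow
  else if j = k then (if Real.cos (θ / 2 - β) = 0 then Ty.zero else Ty.grow)
  else if τ j - τ (j - 1) = 1 then Ty.conv
  else if τ j - τ (j - 1) = -1 then Ty.refl
  else Ty.flat

/-- The product of the factors of the special points, radius `r`. -/
noncomputable def VP (θ β : ℝ) (τ : ℕ → ℤ) (q : ZMod N → ℤ × ℤ) (k r : ℕ) (D : Finset (ℤ × ℤ))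
    (ω : Cfg) : ℝ :=
  ∏ j ∈ Finset.range N, gV θ (ty θ β τ q k j) (nu q (j : ZMod N) r D ω)

end

variable {S : CA.Dat} {θ β : ℝ}

/-- **(U), first half**: the parity images have majorants relative to the expectation of `VP`, for all
small radii `ρ n`. -/
def MajU (X : BD S θ β) (f : ℂ → ℝ) : Prop :=
  ∀ δ : ℝ, 0 < δ → ∃ ρ0 : ℝ, 0 < ρ0 ∧ ∀ ρ : ℝ, 0 < ρ → ρ ≤ ρ0 →
    ∃ c C : ℝ, 0 < c ∧ 0 < C ∧ ∀ᶠ n : ℕ in X.L, ∀ z : ℤ × ℤ, Fp S δ n z →
    ∀ R : ℤ, (R : ℝ) ≤ c * n → ∀ (s : Fin 4) (τ : ℕ → ℤ),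
    Bd (S.D n : Set (ℤ × ℤ)) (X.N n) (fun i => X.q n (i : ZMod (X.N n))) τ 1 → ∀ η : Cfg,
    Dob η ((S.D n).image (· + E6.dir s)) (fun i => X.q n i + E6.dir s) (X.k n) →
    MajY (2 * Real.cos θ) ((S.D n).image (· + E6.dir s)) η
      (wn θ β (fun i => X.q n i + E6.dir s) ((S.D n).image (· + E6.dir s)) (X.k n)
        (imC θ β τ (X.q n) (X.k n) (E6.dir s) (cms f (1 / n))))
      (wn' θ β (fun i => X.q n i + E6.dir s) ((S.D n).image (· + E6.dir s)) (X.k n)
        (imC θ β τ (X.q n) (X.k n) (E6.dir s) (cms f (1 / n)))) z R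
      (C * Ex (2 * Real.cos θ) ((S.D n).image (· + E6.dir s)) η
        (VP θ β τ (fun i => X.q n i + E6.dir s) (X.k n) ⌊ρ * n⌋₊
          ((S.D n).image (· + E6.dir s))))

/-- **The comparison with `lam`.** -/
def LamV (X : BD S θ β) : Prop :=
  ∃ ρ0 : ℝ, 0 < ρ0 ∧ ∀ ρ : ℝ, 0 < ρ → ρ ≤ ρ0 → ∃ C : ℝ, 0 < C ∧ ∀ᶠ n : ℕ in X.L,
    ∀ (s : Fin 4) (τ : ℕ → ℤ),
    Bd (S.D n : Set (ℤ × ℤ)) (X.N n) (fun i => X.q n (i : ZMod (X.N n))) τ 1 → ∀ η : Cfg,
    Dob η ((S.D n).image (· + E6.dir s)) (fun i => X.q n i + E6.dir s) (X.k n) →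
    Ex (2 * Real.cos θ) ((S.D n).image (· + E6.dir s)) η
        (VP θ β τ (fun i => X.q n i + E6.dir s) (X.k n) ⌊ρ * n⌋₊
          ((S.D n).image (· + E6.dir s))) ≤
      C * lam θ β (X.q n) (S.D n) (X.k n) (E6.dir s)

end Vale.Agent.P167.H852.Q
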