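import Vale.Agent.P167.H718.Lam.Br
import Vale.Agent.P167.H718.Lam.Inv
import Vale.Agent.P167.H825.Reg.Tr

/-!
# P167, general `q`, block Q-LAM: change of the base

Two descriptions of the same free or wired polygon: the base of `X` is in the interior of a side, the
base of `X'` is the special point number `i₀` of `X` (a convex corner). The special indices of `X'`
are those of `X` without the base, shifted.
-/

namespace Vale.Agent.P167.H852.Q.Lx

open Finset Vale.Agent.P167.BR Vale.Agent.P167.FK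
open Vale.Agent.P167.H718.Lam
open Vale.Agent.P167.H601.LG (Spe SepL GeoN)
open Vale.Agent.P167.H975 (SameT)

/-- The shift of the indices. -/
def sh (N i₀ j : ℕ) : ℕ := if i₀ ≤ j then j - i₀ else j + N - i₀

theorem sh_lt {N i₀ j : ℕ} (hi : i₀ < N) (hj : j < N) : sh N i₀ j < N := by
  unfold sh
  split_ifs <;> omega

theorem sh_inj {N i₀ j j' : ℕ} (hi : i₀ < N) (hj : j < N) (hj' : j' < N)
    (h : sh N i₀ j = sh N i₀ j') : j = j' := by
  unfold sh at h
  split_ifs at h <;> omega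

/-- `X'` is `X` with the base moved to the convex corner number `i₀`. -/
structure Rot (X X' : Pg) (i₀ : ℕ) : Prop where
  N : X'.N = X.N
  q : ∀ j : ℕ, X'.q (j : ZMod X'.N) = X.q ((j + i₀ : ℕ) : ZMod X.N)
  τ : ∀ j, X'.τ j = X.τ (j + i₀)
  D : X'.D = X.D
  η : X'.η = X.η
  k : (X.k = 0 ∧ X'.k = 0) ∨ (X.k = X.N ∧ X'.k = X.N)
  i0 : 0 < i₀
  i1 : i₀ < X.N
  flat : X.τ X.N = X.τ (X.N - 1)
  cx : X.τ i₀ = X.τ (i₀ - 1) + 1

section

variable {X X' : Pg} {i₀ n : ℕ} {σ R : ℝ}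

theorem mem_sp {X : Pg} {j : ℕ} : j ∈ X.sp ↔ j < X.N ∧ Spe X.τ X.k j := by
  classical
  unfold Pg.sp
  rw [mem_filter, mem_range]

/-- Special indices of a free or wired polygon. -/
theorem spe_fw {X : Pg} (hk : X.k = 0 ∨ X.k = X.N) {j : ℕ} (hj : j < X.N) (h0 : 0 < j) :
    Spe X.τ X.k j ↔ X.τ j ≠ X.τ (j - 1) := by
  unfold Spe
  constructor
  · rintro (h | h | ⟨-, h⟩)
    · omega
    · omega
    · exact h
  · exact fun h => Or.inr (Or.inr ⟨h0, h⟩)

theorem Rot.kX (H : Rot X X' i₀) : X.k = 0 ∨ X.k = X.N := H.k.imp (fun h => h.1) fun h => h.1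

theorem Rot.kX' (H : Rot X X' i₀) : X'.k = 0 ∨ X'.k = X'.N := by
  rw [H.N]
  exact H.k.imp (fun h => h.2) fun h => h.2

theorem per_sub (hper : ∀ k, X.τ (k + X.N) = X.τ k + 4) {j : ℕ} (hj : 0 < j) :
    X.τ (j + X.N) = X.τ (j + X.N - 1) ↔ X.τ j = X.τ (j - 1) := by
  have h1 : j + X.N - 1 = j - 1 + X.N := by omega
  rw [h1, hper, hper]
  omega

/-- The special indices of `X'`. -/
theorem Rot.sp_eq (H : Rot X X' i₀) (hper : ∀ k, X.τ (k + X.N) = X.τ k + 4) :
    X'.sp.erase 0 = ((X.sp.erase 0).erase i₀).image (sh X.N i₀) := by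
  classical
  have i0 := H.i0
  have i1 := H.i1
  ext j'
  rw [mem_erase, mem_sp, mem_image, H.N]
  constructor
  · rintro ⟨h0, h1, h2⟩
    rw [spe_fw H.kX' (by rw [H.N]; exact h1) (by omega), H.τ, H.τ] at h2
    have e1 : j' - 1 + i₀ = j' + i₀ - 1 := by omega
    rw [e1] at h2
    rcases lt_trichotomy (j' + i₀) X.N with h3 | h3 | h3
    · refine ⟨j' + i₀, ?_, ?_⟩
      · rw [mem_erase, mem_erase, mem_sp]
        refine ⟨by omega, by omega, h3, ?_⟩
        rw [spe_fw H.kX h3 (by omega)]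
        exact h2
      · unfold sh
        rw [if_pos (by omega)]
        omega
    · exfalso
      rw [h3] at h2
      exact h2 H.flat
    · obtain ⟨j, hj⟩ : ∃ j, j' + i₀ = j + X.N := ⟨j' + i₀ - X.N, by omega⟩
      refine ⟨j, ?_, ?_⟩
      · rw [mem_erase, mem_erase, mem_sp]
        refine ⟨by omega, by omega, by omega, ?_⟩
        rw [spe_fw H.kX (by omega) (by omega)]
        intro h4
        apply h2
        rw [hj]
        exact (per_sub hper (by omega)).2 h4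
      · unfold sh
        rw [if_neg (by omega)]
        omega
  · rintro ⟨j, hj, rfl⟩
    rw [mem_erase, mem_erase, mem_sp] at hj
    obtain ⟨h1, h2, h3, h4⟩ := hj
    rw [spe_fw H.kX h3 (by omega)] at h4
    have h5 := sh_lt i1 h3
    have h6 : sh X.N i₀ j ≠ 0 := by
      unfold sh
      split_ifs <;> omega
    refine ⟨h6, h5, ?_⟩
    rw [spe_fw H.kX' (by rw [H.N]; exact h5) (by omega), H.τ, H.τ]
    have e1 : sh X.N i₀ j - 1 + i₀ = sh X.N i₀ j + i₀ - 1 := by omega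
    rw [e1]
    rcases le_or_gt i₀ j with h7 | h7
    · have e2 : sh X.N i₀ j + i₀ = j := by unfold sh; rw [if_pos h7]; omega
      rw [e2]
      exact h4
    · have e2 : sh X.N i₀ j + i₀ = j + X.N := by unfold sh; rw [if_neg (by omega)]; omega
      rw [e2]
      intro h8
      exact h4 ((per_sub hper (by omega)).1 h8)

/-- The rest of the special indices. -/
noncomputable def rst (X : Pg) (i₀ : ℕ) : Finset ℕ := (X.sp.erase 0).erase i₀

theorem mem_rst {X : Pg} {i₀ j : ℕ} : j ∈ rst X i₀ ↔ j ≠ i₀ ∧ j ≠ 0 ∧ j < X.N ∧ Spe X.τ X.k j := by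
  unfold rst
  rw [mem_erase, mem_erase, mem_sp]

theorem Rot.zero_mem (H : Rot X X' i₀) : 0 ∈ X.sp := mem_sp.2 ⟨by have := H.i1; omega, Or.inl rfl⟩

theorem Rot.zero_mem' (H : Rot X X' i₀) : 0 ∈ X'.sp :=
  mem_sp.2 ⟨by rw [H.N]; have := H.i1; omega, Or.inl rfl⟩

theorem Rot.i0_mem (H : Rot X X' i₀) : i₀ ∈ X.sp :=
  mem_sp.2 ⟨H.i1, (spe_fw H.kX H.i1 H.i0).2 (by rw [H.cx]; omega)⟩

theorem Rot.prod (H : Rot X X' i₀) (f : ℕ → ℝ) :
    ∏ j ∈ X.sp, f j = f 0 * f i₀ * ∏ j ∈ rst X i₀, f j := by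
  classical
  have h1 : i₀ ∈ X.sp.erase 0 := mem_erase.2 ⟨by have := H.i0; omega, H.i0_mem⟩
  rw [← mul_prod_erase _ _ H.zero_mem, ← mul_prod_erase _ _ h1, mul_assoc]
  rfl

theorem Rot.prod' (H : Rot X X' i₀) (hper : ∀ k, X.τ (k + X.N) = X.τ k + 4) (f : ℕ → ℝ) :
    ∏ j ∈ X'.sp, f j = f 0 * ∏ j ∈ rst X i₀, f (sh X.N i₀ j) := by
  classical
  rw [← mul_prod_erase _ _ H.zero_mem', H.sp_eq hper, prod_image]
  · rfl
  · intro x hx y hy hxy
    have hx' := (mem_rst.1 hx).2.2.1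
    have hy' := (mem_rst.1 hy).2.2.1
    exact sh_inj H.i1 hx' hy' hxy

/-- The types agree. -/
theorem Rot.same (H : Rot X X' i₀) (hper : ∀ k, X.τ (k + X.N) = X.τ k + 4) {j : ℕ}
    (hj : j ∈ rst X i₀) : SameT X.N X.k X.τ j X'.N X'.k X'.τ (sh X.N i₀ j) := by
  obtain ⟨h1, h2, h3, h4⟩ := mem_rst.1 hj
  have i0 := H.i0
  have i1 := H.i1
  have h5 := sh_lt i1 h3
  have h6 : sh X.N i₀ j ≠ 0 := by
    unfold sh
    split_ifs <;> omega
  have hv : ∀ d : ℤ, Top.vec (d + 4) = Top.vec d := fun d => Top.vec_congr (by omega)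
  have hN := H.N
  refine ⟨by omega, ?_, ?_, by omega, ?_, ?_⟩
  · rcases H.k with ⟨a, b⟩ | ⟨a, b⟩ <;> rw [a, b] <;> omega
  · intro _
    rcases H.k with ⟨a, b⟩ | ⟨a, b⟩ <;> rw [a, b] <;> omega
  · rw [H.τ]
    rcases le_or_gt i₀ j with h7 | h7
    · have e2 : sh X.N i₀ j + i₀ = j := by unfold sh; rw [if_pos h7]; omega
      rw [e2]
    · have e2 : sh X.N i₀ j + i₀ = j + X.N := by unfold sh; rw [if_neg (by omega)]; omega
      rw [e2, hper, hv]
  · rw [H.τ, hN]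
    rcases le_or_gt i₀ j with h7 | h7
    · have e2 : sh X.N i₀ j + X.N - 1 + i₀ = j + X.N - 1 := by
        unfold sh; rw [if_pos h7]; omega
      rw [e2]
    · have e2 : sh X.N i₀ j + X.N - 1 + i₀ = j + X.N - 1 + X.N := by
        unfold sh; rw [if_neg (by omega)]; omega
      rw [e2, hper, hv]

/-- The positions agree. -/
theorem Rot.q_sh (H : Rot X X' i₀) (j : ℕ) :
    X'.q ((sh X.N i₀ j : ℕ) : ZMod X'.N) = X.q (j : ZMod X.N) := by
  have i1 := H.i1
  rw [H.q]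
  rcases le_or_gt i₀ j with h7 | h7
  · have e2 : sh X.N i₀ j + i₀ = j := by unfold sh; rw [if_pos h7]; omega
    rw [e2]
  · have e2 : sh X.N i₀ j + i₀ = j + X.N := by unfold sh; rw [if_neg (by omega)]; omega
    rw [e2, Nat.cast_add, ZMod.natCast_self, add_zero]

end

end Vale.Agent.P167.H852.Q.Lx
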