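import Vale.Agent.P167.H852.Q.Lx9

/-!
# P167, general `q`, block Q-LAM: `LamT` for the free and the wired families, assembly
-/

namespace Vale.Agent.P167.H852.Q.Lx

open Finset Filter Topology Vale.Agent.P167.BR Vale.Agent.P167.FK
open Vale.Agent.P167.E6 (IsPolygon Encloses)
open Vale.Agent.P167.Enl (PN qN isPolygon_qN encloses_qN PN_succ pdir_add)
open Vale.Agent.P167.H825 (enl pdir tn dirOf)
open Vale.Agent.P167.H718 (Dob lam poly_add encl_add)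
open Vale.Agent.P167.H718.Lam
open Vale.Agent.P167.H192.Q (SRSW)
open Vale.Agent.P167.H318.LC (HB sqP sqS sq_poly sq_encl sq_pdir exists_conv)
open Vale.Agent.P167.H542.Q (BD)
open Vale.Agent.P167.H760.Q (BaseQ pb)
open Vale.Agent.P167.H871 (Bd)

theorem exists_d (r : Fin 4) : ∃ d : ℕ, 1 ≤ d ∧ d ≤ 4 ∧ pdir (sqP 0) d = r := by
  have hsd : ∀ i < 5, pdir (sqP 0) i = 0 + Fin.ofNat 4 i := sq_pdir 0
  fin_cases r
  · exact ⟨4, by norm_num, by norm_num, by rw [hsd 4 (by norm_num)]; rfl⟩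
  · exact ⟨1, by norm_num, by norm_num, by rw [hsd 1 (by norm_num)]; rfl⟩
  · exact ⟨2, by norm_num, by norm_num, by rw [hsd 2 (by norm_num)]; rfl⟩
  · exact ⟨3, by norm_num, by norm_num, by rw [hsd 3 (by norm_num)]; rfl⟩

/-- **The mean value of the local factors** of an enlargement with a flat base in the direction `0`. -/
theorem fw_all {θ : ℝ} (h0 : 0 < θ) (h1 : θ ≤ Real.pi / 3) (hR : RSW (2 * Real.cos θ))
    (hSR : SRSW (2 * Real.cos θ)) (hU : U_S θ) (hF : L_flat θ) (hL : ∀ U : Uni, U.Ok → LamP θ U)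
    {tp : ℝ} (ht0 : 0 < tp) (ht1 : tp < 1) {l : ℕ} {p : ZMod l → ℤ × ℤ} {S₀ : Finset (ℤ × ℤ)}
    (hp : IsPolygon p) (hS : Encloses p S₀) (hd0 : pdir p 0 = 0) :
    ∃ ρ₀ : ℝ, 0 < ρ₀ ∧ ∀ ρ : ℝ, 0 < ρ → ρ ≤ ρ₀ → ∃ C : ℝ, 0 < C ∧ ∀ᶠ n : ℕ in atTop, Even n →
      ∀ s : ℕ, |(s : ℝ) - tp * n| ≤ 2 → ∀ (r : Fin 4) (b : Bool) (τ : ℕ → ℤ), HB0 p S₀ n s τ →
      (Even ((s : ℤ) + ((E6.dir r).1 + (E6.dir r).2)) ↔ b = true) → ∀ η : Cfg,
      Dob η ((enl S₀ n).image (· + E6.dir r)) (fun i => qN p n s i + E6.dir r) (fwk b (l * n)) →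
      Ex (2 * Real.cos θ) ((enl S₀ n).image (· + E6.dir r)) η (fun ω =>
        |TPs θ ((θ - Real.pi) / 2) (fun i => qN p n s i + E6.dir r)
          ((enl S₀ n).image (· + E6.dir r)) (fwk b (l * n)) τ ⌊ρ * n⌋ ω|) ≤
        C * lam θ ((θ - Real.pi) / 2) (qN p n s) (enl S₀ n) (fwk b (l * n)) (E6.dir r) := by
  obtain ⟨c, hc, hcl, hcx⟩ := exists_conv hp hS
  obtain ⟨d, hd, hd4, hout⟩ := exists_d (pdir p c)
  obtain ⟨K, hK, hC⟩ := cmp_two hR hSR h0 h1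
  have hC : CmpT θ K := hC
  obtain ⟨σ1, R1, hσ1, o1⟩ := okE hp hS ht0 ht1
  obtain ⟨σ2, R2, hσ2, o2⟩ := okE (poly_sh hp c) (encl_sh hS c) ht0 ht1
  obtain ⟨σ3, R3, hσ3, o3⟩ := okE (sq_poly 0) (sq_encl 0) ht0 ht1
  obtain ⟨σ4, R4, hσ4, o4⟩ := okE (poly_sh (sq_poly 0) d) (encl_sh (sq_encl 0) d) ht0 ht1
  obtain ⟨σ, hσ, s1, s2, s3, s4⟩ : ∃ σ : ℝ, 0 < σ ∧ σ ≤ σ1 ∧ σ ≤ σ2 ∧ σ ≤ σ3 ∧ σ ≤ σ4 :=
    ⟨min (min σ1 σ2) (min σ3 σ4), by positivity, (min_le_left _ _).trans (min_le_left _ _),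
      (min_le_left _ _).trans (min_le_right _ _), (min_le_right _ _).trans (min_le_left _ _),
      (min_le_right _ _).trans (min_le_right _ _)⟩
  obtain ⟨R, r1, r2, r3, r4⟩ : ∃ R : ℝ, R1 ≤ R ∧ R2 ≤ R ∧ R3 ≤ R ∧ R4 ≤ R :=
    ⟨max (max R1 R2) (max R3 R4), (le_max_left _ _).trans (le_max_left _ _),
      (le_max_right _ _).trans (le_max_left _ _), (le_max_left _ _).trans (le_max_right _ _),
      (le_max_right _ _).trans (le_max_right _ _)⟩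
  have o1' : OkE tp p S₀ σ R := o1 σ R hσ s1 r1
  have o2' : OkE tp (fun i => p (i + (c : ZMod l))) S₀ σ R := o2 σ R hσ s2 r2
  have o3' : OkE tp (sqP 0) sqS σ R := o3 σ R hσ s3 r3
  have o4' : OkE tp (fun i => sqP 0 (i + (d : ZMod 4))) sqS σ R := o4 σ R hσ s4 r4
  have hsq := sq_loc h0 h1 hK hC hU hF ht0 ht1 hσ hd hd4 o3' o4'
  have hfl := flat_loc h0 h1 hK hC ht0 ht1 hσ hp hd0 hc hcl hcx hd hd4 hout o1' o2' o3' o4' hsq
  have hl := hp.1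
  have hcx' : pdir (fun i => p (i + (c : ZMod l))) 0 =
      pdir (fun i => p (i + (c : ZMod l))) (l - 1) + 1 := by
    rw [pdir_sh, pdir_sh, zero_add, show l - 1 + c = c - 1 + l by omega, pdir_add, hcx]
  have hpl := prod_lam h0 h1 hK hC ht0 ht1 hσ hp hS hc hcl hcx o1' o2' hfl
    fun b => hL _ (fwU_ok (poly_sh hp c) (encl_sh hS c) hcx')
  exact abs_lam h0 h1 hR hSR hK ht0 ht1 hσ hp hS o1' hpl

theorem pdir_base (S : CA.Dat) (hr : S.r = 0) : pdir S.p 0 = 0 := by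
  have h := S.step
  show dirOf (S.p (((0 : ℕ) : ZMod S.l) + 1) - S.p ((0 : ℕ) : ZMod S.l)) = 0
  rw [Nat.cast_zero, zero_add, h, add_sub_cancel_left, Enl.dirOf_dir, hr]

/-- **`LamT` for the free and the wired families.** -/
theorem lamT_fw {θ : ℝ} (h0 : 0 < θ) (h1 : θ ≤ Real.pi / 3) (hR : RSW (2 * Real.cos θ))
    (hSR : SRSW (2 * Real.cos θ)) (hU : U_S θ) (hF : L_flat θ) (hL : ∀ U : Uni, U.Ok → LamP θ U)
    {S : CA.Dat} (X : BD S θ ((θ - Real.pi) / 2)) {s : ℕ → ℕ} (hb : BaseQ X s) (hc : Cls X)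
    {b : Bool} (hf : FwC X b) : LamT X := by
  obtain ⟨ρ₀, hρ₀, H⟩ := fw_all h0 h1 hR hSR hU hF hL S.tp0 S.tp1 S.poly S.enc
    (pdir_base S hc.r)
  refine ⟨ρ₀, hρ₀, fun ρ hρ hρ' => ?_⟩
  obtain ⟨C, hC, H⟩ := H ρ hρ hρ'
  refine ⟨C, hC, ?_⟩
  have h4 : ∀ᶠ n : ℕ in X.L, 4 ∣ n := hc.four (mem_principal_self _)
  filter_upwards [X_eq X hb, X.le H, hf.k, hf.par, h4, hb.2] with n hX H hk hpar h4 hbn
  obtain ⟨hn, hlt, hP⟩ := hX
  have hev : Even n := by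
    obtain ⟨m, rfl⟩ := h4
    exact ⟨2 * m, by ring⟩
  have ht : |((⌊S.tp * n⌋₊ + s n : ℕ) : ℝ) - S.tp * n| ≤ 2 := by
    have a1 : (⌊S.tp * n⌋₊ : ℝ) ≤ S.tp * n := Nat.floor_le (by have := S.tp0; positivity)
    have a2 : S.tp * n < (⌊S.tp * n⌋₊ : ℝ) + 1 := Nat.lt_floor_add_one _
    have a3 : ((s n : ℕ) : ℝ) ≤ 1 := by exact_mod_cast hb.1 n
    have a4 : (0 : ℝ) ≤ s n := Nat.cast_nonneg _
    push_cast
    rw [abs_le]
    constructor <;> linarith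
  have hpt : Even (((⌊S.tp * n⌋₊ + s n : ℕ) : ℤ)) ↔ b = false := by
    rw [hbn] at hpar
    rw [← hpar]
    unfold H760.Q.pb
    rw [hc.r]
    obtain ⟨m, rfl⟩ := hev
    have e : (((m + m : ℕ) : ℤ) • S.p 0 + ((⌊S.tp * ((m + m : ℕ) : ℝ)⌋₊ + s (m + m) : ℕ) : ℤ) •
        E6.dir 0).1 + (((m + m : ℕ) : ℤ) • S.p 0 +
        ((⌊S.tp * ((m + m : ℕ) : ℝ)⌋₊ + s (m + m) : ℕ) : ℤ) • E6.dir 0).2 =
        2 * (m * ((S.p 0).1 + (S.p 0).2)) +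
          ((⌊S.tp * ((m + m : ℕ) : ℝ)⌋₊ + s (m + m) : ℕ) : ℤ) := by
      simp only [Prod.fst_add, Prod.snd_add, Prod.smul_fst, Prod.smul_snd, smul_eq_mul, Enl.dir0]
      push_cast
      ring
    rw [e, Int.even_add]
    simp
  have hodd : ∀ r : Fin 4, ¬ Even ((E6.dir r).1 + (E6.dir r).2) := by
    intro r
    fin_cases r <;> decide
  rw [hk]
  refine hP (fun N q => ∀ (a : Fin 4) (τ : ℕ → ℤ),
    Bd (S.D n : Set (ℤ × ℤ)) N (fun i => q (i : ZMod N)) τ 1 → ∀ η : Cfg,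
    Dob η ((S.D n).image (· + E6.dir a)) (fun i => q i + E6.dir a)
      (if b = true then 0 else N) →
    Ex (2 * Real.cos θ) ((S.D n).image (· + E6.dir a)) η (fun ω =>
        |TPs θ ((θ - Real.pi) / 2) (fun i => q i + E6.dir a) ((S.D n).image (· + E6.dir a))
          (if b = true then 0 else N) τ ⌊ρ * n⌋ ω|) ≤
      C * lam θ ((θ - Real.pi) / 2) q (S.D n) (if b = true then 0 else N) (E6.dir a)) ?_
  intro a τ hu η hη
  refine H hev _ ht a b τ hu ?_ η hη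
  rw [Int.even_add, hpt]
  have h5 := hodd a
  constructor
  · intro h6
    by_contra h7
    exact h5 (h6.1 (by simpa using h7))
  · rintro rfl
    exact ⟨fun h6 => absurd h6 (by simp), fun h6 => absurd h6 h5⟩

end Vale.Agent.P167.H852.Q.Lx
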