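import Vale.Agent.P167.H852.Q.Lx1
import Vale.Agent.P167.H506.Q.Loc2

/-!
# P167, general `q`, block Q-LAM: the local products of free and wired polygons

Positivity of the local weights (base flat or at a convex corner); comparison of the expectations of
the local products at special points of the same type.
-/

namespace Vale.Agent.P167.H852.Q.Lx

open Finset Vale.Agent.P167.BR Vale.Agent.P167.FK
open Vale.Agent.P167.H718.Lam
open Vale.Agent.P167.H718 (IsCl)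
open Vale.Agent.P167.H601.LG
open Vale.Agent.P167.H975 (SameT TX TX_loc lk_two)
open Vale.Agent.P167.H192.Q (SRSW)

theorem tcos_pos {θ : ℝ} (h0 : 0 < θ) (h1 : θ ≤ Real.pi / 3) : 0 < 2 * Real.cos θ := by
  have := Real.cos_pos_of_mem_Ioo (x := θ) ⟨by linarith [Real.pi_pos], by linarith [Real.pi_pos]⟩
  linarith

theorem one_le_tcos {θ : ℝ} (h0 : 0 < θ) (h1 : θ ≤ Real.pi / 3) : 1 ≤ 2 * Real.cos θ := by
  have h := Real.cos_le_cos_of_nonneg_of_le_pi h0.le (by linarith [Real.pi_pos]) h1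
  rw [Real.cos_pi_div_three] at h
  linarith

/-- Free or wired, the configuration outside is constant, the base is flat or at a convex corner. -/
structure Fwc (X : Pg) : Prop where
  fw : (X.k = X.N ∧ X.η = eta0) ∨ (X.k = 0 ∧ X.η = eta1)
  base : X.τ X.N = X.τ (X.N - 1) ∨ X.τ X.N = X.τ (X.N - 1) + 1

theorem Fwc.k {X : Pg} (h : Fwc X) : X.k = 0 ∨ X.k = X.N := by
  rcases h.fw with ⟨a, -⟩ | ⟨a, -⟩
  · exact Or.inr a
  · exact Or.inl a

theorem Fwc.notFw {X : Pg} (h : Fwc X) {ω : Cfg} {A : Finset Ed} (hq : E6.IsPolygon X.q)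
    (hD : E6.Encloses X.q X.D) (hA : A ∈ pcs ω X.D) (hl : ¬ IsLp X.D A) : ¬ Fw X.q X.k A := by
  obtain ⟨h1, h2, -, -⟩ := feet hq hD hA hl
  rintro ⟨h3, h4⟩
  rcases h.k with h5 | h5 <;> omega

variable {X Y : Pg} {n : ℕ} {σ R θ : ℝ} {r R' : ℤ}

/-- **The local weights are nonnegative**; they are bounded below off a flat base. -/
theorem exists_low_fwc (h0 : 0 < θ) (h1 : θ ≤ Real.pi / 3) : ∃ c : ℝ, 0 < c ∧
    ∀ {X : Pg} {n : ℕ} {σ R : ℝ}, X.Ok n σ R → Fwc X → ∀ {r : ℤ}, 3 * (r + 1) < n →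
      4 * (r + 1) < ⌊σ * n⌋₊ → ∀ {j : ℕ}, j ∈ X.sp → ∀ {ω : Cfg} {A : Finset Ed}, A ∈ pcs ω X.D →
      (∀ e ∈ A, hdv e ∈ Bq (X.q (j : ZMod X.N)) r) →
      0 ≤ X.w θ A ∧ ((j = 0 → X.τ X.N = X.τ (X.N - 1) + 1) → c ≤ X.w θ A) := by
  obtain ⟨c, hc0, hc1, hc⟩ := exists_low_wJ h0 h1
  have hs1 := sin_pos' h0 h1
  have hs2 := sin2_pos h0 h1
  have hcos : 0 < Real.cos θ := Real.cos_pos_of_mem_Ioo ⟨by linarith [Real.pi_pos], by
    linarith [Real.pi_pos]⟩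
  refine ⟨c, hc0, fun {X n σ R} hX hF {r} hr hrL {j} hj {ω A} hA hin => ?_⟩
  obtain ⟨hjN, hjs⟩ := mem_sp.1 hj
  have key : ¬ Fw X.q X.k A → -1 ≤ Kt X.q X.τ A → Kt X.q X.τ A ≤ 3 → c ≤ X.w θ A :=
    fun a b d => hc hX.poly hX.enc hA a b d
  by_cases hl : IsLp X.D A
  · have h2 : X.w θ A = 1 := wJ_lp hX.poly hX.enc hA hl hcos.ne'
    rw [h2]
    exact ⟨zero_le_one, fun _ => hc1⟩
  · have hFw := hF.notFw hX.poly hX.enc hA hl
    rcases Nat.eq_zero_or_pos j with rfl | hj0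
    · rw [Nat.cast_zero] at hin
      rcases near_base hX.geo hX.poly hX.enc hA hl hX.sep hX.kle hr hrL hin with
        ⟨a1, a2⟩ | ⟨-, a2, -⟩
      · have := key a2 (by omega) (by omega)
        exact ⟨by linarith, fun _ => this⟩
      · rcases hF.base with hb | hb
        · -- the flat base
          have hK : Kt X.q X.τ A = 4 := by omega
          have hle := (feet hX.poly hX.enc hA hl).1.le
          refine ⟨?_, fun h => absurd (h rfl) (by omega)⟩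
          show 0 ≤ wJ θ ((θ - Real.pi) / 2) X.q X.D X.k X.τ A
          by_cases hC : IsCl X.D X.q X.k A
          · rw [wJ_cl hl hle hFw hC, hK]
            have e : 2 * θ - θ / 2 * ((4 : ℤ) : ℝ) = 0 := by push_cast; ring
            rw [e, Real.sin_zero, zero_div]
          · rw [wJ_ot hl hle hFw hC, hK]
            have e : θ + θ / 2 * ((4 : ℤ) : ℝ) = 3 * θ := by push_cast; ring
            rw [e]
            exact div_nonneg (Real.sin_nonneg_of_nonneg_of_le_pi (by linarith) (by linarith)) hs1.le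
        · have := key hFw (by omega) (by omega)
          exact ⟨by linarith, fun _ => this⟩
    · rcases near_spe hX.geo hX.poly hX.enc hA hl hX.sep hj0 hjN hjs hr (by omega) hin with
        ⟨a1, a2, a3⟩ | ⟨-, a2, a3⟩
      · have ht := hX.geo.turn (j - 1)
        rw [Nat.sub_add_cancel hj0, abs_le] at ht
        have := key hFw (by omega) (by omega)
        exact ⟨by linarith, fun _ => this⟩
      · have := key hFw (by omega) (by omega)
        exact ⟨by linarith, fun _ => this⟩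

/-- The local products are nonnegative. -/
theorem T_nonneg (h0 : 0 < θ) (h1 : θ ≤ Real.pi / 3) (hX : X.Ok n σ R) (hF : Fwc X)
    (hr : 3 * (r + 1) < n) (hrL : 4 * (r + 1) < ⌊σ * n⌋₊) {j : ℕ} (hj : j ∈ X.sp) (ω : Cfg) :
    0 ≤ X.T θ j r ω := by
  classical
  obtain ⟨c, hc, h⟩ := exists_low_fwc h0 h1
  unfold Pg.T TX
  refine prod_nonneg fun A hA => ?_
  obtain ⟨h2, h3⟩ := mem_filter.1 hA
  exact (h hX hF hr hrL hj h2 h3).1

/-- The local products are positive off a flat base. -/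
theorem T_pos (h0 : 0 < θ) (h1 : θ ≤ Real.pi / 3) (hX : X.Ok n σ R) (hF : Fwc X)
    (hr : 3 * (r + 1) < n) (hrL : 4 * (r + 1) < ⌊σ * n⌋₊) {j : ℕ} (hj : j ∈ X.sp)
    (hb : j = 0 → X.τ X.N = X.τ (X.N - 1) + 1) (ω : Cfg) : 0 < X.T θ j r ω := by
  classical
  obtain ⟨c, hc, h⟩ := exists_low_fwc h0 h1
  unfold Pg.T TX
  refine prod_pos fun A hA => ?_
  obtain ⟨h2, h3⟩ := mem_filter.1 hA
  exact hc.trans_le ((h hX hF hr hrL hj h2 h3).2 hb)

theorem eT_nonneg (h0 : 0 < θ) (h1 : θ ≤ Real.pi / 3) (hX : X.Ok n σ R) (hF : Fwc X)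
    (hr : 3 * (r + 1) < n) (hrL : 4 * (r + 1) < ⌊σ * n⌋₊) {j : ℕ} (hj : j ∈ X.sp) :
    0 ≤ X.eT θ j r := by
  have hQ : 0 < 2 * Real.cos θ := tcos_pos h0 h1
  exact FKA.Ex_nonneg hQ fun S _ => T_nonneg h0 h1 hX hF hr hrL hj _

theorem eT_pos (h0 : 0 < θ) (h1 : θ ≤ Real.pi / 3) (hX : X.Ok n σ R) (hF : Fwc X)
    (hr : 3 * (r + 1) < n) (hrL : 4 * (r + 1) < ⌊σ * n⌋₊) {j : ℕ} (hj : j ∈ X.sp)
    (hb : j = 0 → X.τ X.N = X.τ (X.N - 1) + 1) : 0 < X.eT θ j r := by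
  have hQ : 0 < 2 * Real.cos θ := tcos_pos h0 h1
  exact H506.Q.Ex_pos hQ hX.dob.good fun ω _ _ => T_pos h0 h1 hX hF hr hrL hj hb ω

/-- **Comparison of special points of the same type.** -/
theorem cmp_two (hR : RSW (2 * Real.cos θ)) (hSR : SRSW (2 * Real.cos θ)) (h0 : 0 < θ)
    (h1 : θ ≤ Real.pi / 3) : ∃ K : ℝ, 1 ≤ K ∧ ∀ {X Y : Pg} {n : ℕ} {σ R : ℝ} {r R' : ℤ},
      X.Ok n σ R → Y.Ok n σ R → Fwc X → Fwc Y → X.η = Y.η → 1 ≤ r → K * r ≤ R' →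
      3 * (R' + 1) < n → 4 * (R' + 1) < ⌊σ * n⌋₊ → ∀ {j j' : ℕ}, j ∈ X.sp → j' ∈ Y.sp →
      SameT X.N X.k X.τ j Y.N Y.k Y.τ j' →
      Even ((Y.q (j' : ZMod Y.N) - X.q (j : ZMod X.N)).1 +
        (Y.q (j' : ZMod Y.N) - X.q (j : ZMod X.N)).2) →
      X.eT θ j r ≤ 2 * Y.eT θ j' r ∧ Y.eT θ j' r ≤ 2 * X.eT θ j r := by
  have hQ1 : 1 ≤ 2 * Real.cos θ := one_le_tcos h0 h1
  obtain ⟨K, hK, h⟩ := lk_two hQ1 hR hSR
  refine ⟨K, hK, fun {X Y n σ R r R'} hX hY hFX hFY hη hr hKr h3 h4 {j j'} hj hj' hT hev => ?_⟩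
  have hcos : 0 < Real.cos θ := Real.cos_pos_of_mem_Ioo ⟨by linarith [Real.pi_pos], by
    linarith [Real.pi_pos]⟩
  obtain ⟨a1, a2⟩ := mem_sp.1 hj
  obtain ⟨b1, b2⟩ := mem_sp.1 hj'
  have hr' : (1 : ℝ) ≤ r := by exact_mod_cast hr
  have hrR : (r : ℝ) ≤ R' := by nlinarith
  have hrR' : r ≤ R' := by exact_mod_cast hrR
  have hfl : ((⌊σ * (n : ℝ)⌋₊ : ℕ) : ℤ) = ⌊σ * (n : ℝ)⌋ := by
    rw [Int.natCast_floor_eq_floor]
    by_contra hneg
    push Not at hneg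
    have : ⌊σ * (n : ℝ)⌋₊ = 0 := Nat.floor_of_nonpos hneg.le
    omega
  have hX0 : ∀ v : ℤ × ℤ, Y.η (v + (Y.q (j' : ZMod Y.N) - X.q (j : ZMod X.N))) = X.η v := by
    intro v
    rw [← hη]
    rcases hFX.fw with ⟨-, h5⟩ | ⟨-, h5⟩ <;> rw [h5] <;> rfl
  exact h hX.geo hY.geo hX.poly hX.enc hY.poly hY.enc hX.bd hY.bd hX.sep hY.sep h3 h3 (by omega)
    (by omega) a1 b1 a2 b2 hT hev hcos.ne' hr hKr
    (hX.reg.bd _ (H718.q_mem_sites hX.poly hX.enc _) R' (by omega) (by omega)) hX.dob.good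
    hY.dob.good (fun v _ _ => hX0 v)
    fun ω => T_nonneg h0 h1 hX hFX (by omega) (by omega) hj ω

end Vale.Agent.P167.H852.Q.Lx
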