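import Vale.Agent.P167.H852.Q.Lx2
import Vale.Agent.P167.H318.LC.Sp

/-!
# P167, general `q`, block Q-LAM: free and wired enlargements with different base sites
-/

namespace Vale.Agent.P167.H852.Q.Lx

open Finset Filter Topology Vale.Agent.P167.BR Vale.Agent.P167.FK
open Vale.Agent.P167.E6 (IsPolygon Encloses)
open Vale.Agent.P167.Enl (PN qN isPolygon_qN encloses_qN)
open Vale.Agent.P167.H825 (enl pdir tn dirOf)
open Vale.Agent.P167.H825.Reg (reg_free_tr reg_wired_tr)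
open Vale.Agent.P167.H871 (Bd)
open Vale.Agent.P167.H718 (Dob poly_add encl_add)
open Vale.Agent.P167.H718.Lam
open Vale.Agent.P167.H601.LG
open Vale.Agent.P167.H318.LC (HB q_nat corner_iff tau_corner)

/-- The first wired step, wired for `b = true`. -/
def fwk (b : Bool) (N : ℕ) : ℕ := if b then 0 else N

/-- The configuration outside. -/
def fwη (b : Bool) : Cfg := fun _ => b

/-- The free (wired) enlargement. -/
noncomputable def fE {l : ℕ} (p : ZMod l → ℤ × ℤ) (S₀ : Finset (ℤ × ℤ)) (n s : ℕ) (a : ℤ × ℤ)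
    (b : Bool) (τ : ℕ → ℤ) : Pg := enP p S₀ n s a (fwk b (l * n)) τ (fwη b)

section

variable {l n s : ℕ} {p : ZMod l → ℤ × ℤ} {S₀ : Finset (ℤ × ℤ)} {a : ℤ × ℤ} {τ : ℕ → ℤ} {b : Bool}

theorem fwk_or (b : Bool) (N : ℕ) : fwk b N = 0 ∨ fwk b N = N := by
  cases b
  · exact Or.inr rfl
  · exact Or.inl rfl

theorem fw_dob (hp : IsPolygon p) (hS : Encloses p S₀) (hn : 0 < n) {m₀ : ℤ}
    (hm : 2 * m₀ + 1 ≤ n) (s : ℕ) (a : ℤ × ℤ) (b : Bool) :
    Dob (fwη b) ((enl S₀ n).image (· + a)) (fun i => qN p n s i + a) (fwk b (l * n)) ∧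
      H167.Q.Reg m₀ ((enl S₀ n).image (· + a)) (fwη b) := by
  cases b
  · exact reg_free_tr hp hS hn hm s a
  · exact reg_wired_tr hp hS hn hm s a

theorem enl_bound (S₀ : Finset (ℤ × ℤ)) : ∃ M : ℕ, ∀ n : ℕ, ∀ v ∈ enl S₀ n,
    |v.1| ≤ n * (M + 1) ∧ |v.2| ≤ n * (M + 1) := by
  obtain ⟨M, hM⟩ : ∃ M : ℕ, ∀ w ∈ S₀, |w.1| ≤ M ∧ |w.2| ≤ M := by
    refine ⟨∑ w ∈ S₀, (|w.1|.toNat + |w.2|.toNat), fun w hw => ?_⟩
    have h := Finset.single_le_sum (f := fun w : ℤ × ℤ => |w.1|.toNat + |w.2|.toNat)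
      (fun _ _ => Nat.zero_le _) hw
    have h1 := Int.self_le_toNat |w.1|
    have h2 := Int.self_le_toNat |w.2|
    have h3 : ((|w.1|.toNat + |w.2|.toNat : ℕ) : ℤ) ≤
        ((∑ w ∈ S₀, (|w.1|.toNat + |w.2|.toNat) : ℕ) : ℤ) := by exact_mod_cast h
    push_cast at h3 ⊢
    constructor <;> omega
  refine ⟨M, fun n v hv => ?_⟩
  unfold enl at hv
  rw [mem_biUnion] at hv
  obtain ⟨w, hw, h⟩ := hv
  rw [mem_image] at h
  obtain ⟨x, hx, rfl⟩ := h
  rw [mem_product, mem_range, mem_range] at hx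
  obtain ⟨h1, h2⟩ := hM w hw
  rw [abs_le] at h1 h2
  simp only
  have hn : (0 : ℤ) ≤ n := by positivity
  rw [abs_le, abs_le]
  refine ⟨⟨?_, ?_⟩, ?_, ?_⟩ <;> nlinarith

/-- **The enlargements are regular**, base at a corner or near the position `tp` of its side. -/
theorem okE (hp : IsPolygon p) (hS : Encloses p S₀) {tp : ℝ} (ht0 : 0 < tp) (ht1 : tp < 1) :
    ∃ σ₀ R₀ : ℝ, 0 < σ₀ ∧ ∀ σ R : ℝ, 0 < σ → σ ≤ σ₀ → R₀ ≤ R → ∀ᶠ n : ℕ in atTop, ∀ s : ℕ,
      (s = 0 ∨ |(s : ℝ) - tp * n| ≤ 2) → ∀ a : ℤ × ℤ, nm a ≤ 1 → ∀ (b : Bool) (τ : ℕ → ℤ),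
      HB p S₀ n s a (fwk b (l * n)) τ (fwη b) → (fE p S₀ n s a b τ).Ok n σ R := by
  obtain ⟨M, hM⟩ := enl_bound S₀
  refine ⟨min (min tp (1 - tp)) 1 / 4, max (M + 2) l, ?_, fun σ R hσ hσ1 hR => ?_⟩
  · have : 0 < min (min tp (1 - tp)) 1 := lt_min (lt_min ht0 (by linarith)) one_pos
    positivity
  have a1 : σ ≤ tp / 4 := hσ1.trans (by
    have := (min_le_left (min tp (1 - tp)) 1).trans (min_le_left _ _)
    linarith)
  have a2 : σ ≤ (1 - tp) / 4 := hσ1.trans (by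
    have := (min_le_left (min tp (1 - tp)) 1).trans (min_le_right _ _)
    linarith)
  have a3 : σ ≤ 1 / 4 := hσ1.trans (by
    have := min_le_right (min tp (1 - tp)) 1
    linarith)
  have hev : ∀ᶠ n : ℕ in atTop, max (max 4 (4 / σ)) 1 ≤ (n : ℝ) :=
    tendsto_natCast_atTop_atTop.eventually_ge_atTop _
  filter_upwards [hev] with n hn s hs a ha b τ hu
  have n4 : (4 : ℝ) ≤ n := (le_max_left _ _).trans ((le_max_left _ _).trans hn)
  have nσ : 4 / σ ≤ n := (le_max_right _ _).trans ((le_max_left _ _).trans hn)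
  rw [div_le_iff₀ hσ] at nσ
  have hn' : (0 : ℝ) < n := by linarith
  have hn0 : 0 < n := by exact_mod_cast hn'
  have hl := hp.1
  have b1 : σ * n ≤ tp / 4 * n := mul_le_mul_of_nonneg_right a1 hn'.le
  have b2 : σ * n ≤ (1 - tp) / 4 * n := mul_le_mul_of_nonneg_right a2 hn'.le
  have b3 : σ * n ≤ 1 / 4 * n := mul_le_mul_of_nonneg_right a3 hn'.le
  have hL : ((⌊σ * (n : ℝ)⌋₊ : ℕ) : ℝ) ≤ σ * n := Nat.floor_le (by positivity)
  obtain ⟨hdob, hreg⟩ := fw_dob hp hS hn0 (m₀ := ⌊σ * (n : ℝ)⌋) (by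
    have h1 : (⌊σ * (n : ℝ)⌋ : ℝ) ≤ σ * n := Int.floor_le _
    have h2 : ((2 * ⌊σ * (n : ℝ)⌋ + 1 : ℤ) : ℝ) ≤ ((n : ℤ) : ℝ) := by push_cast; linarith
    exact_mod_cast h2) s a b
  have hq := poly_add (isPolygon_qN hn0 hp s) a
  have hD := encl_add (encloses_qN hn0 hp hS s) a
  refine ⟨geoN_enl hp hS hn0 hq hD hu, hq, hD, hu, ?_, ?_, hdob, hreg, ⟨0, fun v hv => ?_⟩, ?_⟩
  · refine sepL_enl hp hn0 rfl ?_ (s := s) (a := a) (fun j => q_nat (S₀ := S₀)
      (k := fwk b (l * n)) (τ := τ) (η := fwη b) hn0 hp j) hu ?_ ?_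
    · have : ((⌊σ * (n : ℝ)⌋₊ : ℕ) : ℝ) ≤ n := by linarith
      exact_mod_cast this
    · rcases hs with h | h
      · exact Or.inl h
      · right
        rw [abs_le] at h
        constructor
        · have : ((⌊σ * (n : ℝ)⌋₊ : ℕ) : ℝ) ≤ s := by linarith
          exact_mod_cast this
        · have : (s : ℝ) + ((⌊σ * (n : ℝ)⌋₊ : ℕ) : ℝ) ≤ n := by linarith
          exact_mod_cast this
    · rcases fwk_or b (l * n) with h | h
      · exact Or.inl h
      · exact Or.inr (Or.inl h)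
  · rcases fwk_or b (l * n) with h | h
    · show fwk b (l * n) ≤ l * n
      rw [h]
      exact Nat.zero_le _
    · exact h.le
  · rw [sub_zero]
    have hv' : v - a ∈ enl S₀ n := mem_tr'.1 hv
    obtain ⟨c1, c2⟩ := hM n _ hv'
    have ha1 : |a.1| ≤ 1 := (le_max_left _ _).trans ha
    have ha2 : |a.2| ≤ 1 := (le_max_right _ _).trans ha
    rw [Prod.fst_sub] at c1
    rw [Prod.snd_sub] at c2
    rw [abs_le] at c1 c2 ha1 ha2
    have h1 : nm v ≤ n * (M + 1) + 1 := by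
      unfold nm
      rw [max_le_iff, abs_le, abs_le]
      omega
    have h2 : (nm v : ℝ) ≤ n * (M + 1) + 1 := by exact_mod_cast h1
    have h3 : ((M : ℝ) + 2) * n ≤ R * n := mul_le_mul_of_nonneg_right
      ((le_max_left _ _).trans hR) hn'.le
    nlinarith
  · have h3 : (l : ℝ) * n ≤ R * n := mul_le_mul_of_nonneg_right ((le_max_right _ _).trans hR) hn'.le
    show ((l * n : ℕ) : ℝ) ≤ R * n
    push_cast
    exact h3

/-! ### rotation of the unit polygon -/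

theorem poly_sh (hp : IsPolygon p) (c : ℕ) : IsPolygon (fun i => p (i + (c : ZMod l))) := by
  refine ⟨hp.1, fun i j h => add_right_cancel (hp.2.1 h), fun i => ?_⟩
  obtain ⟨r, hr⟩ := hp.2.2 (i + c)
  refine ⟨r, ?_⟩
  show p (i + 1 + c) = p (i + c) + E6.dir r
  rw [← hr, add_right_comm]

theorem encl_sh (hS : Encloses p S₀) (c : ℕ) : Encloses (fun i => p (i + (c : ZMod l))) S₀ := by
  intro v r
  rw [← hS v r]
  constructor
  · rintro ⟨i, h1, h2⟩
    refine ⟨i + c, h1, ?_⟩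
    rw [← h2, add_right_comm]
  · rintro ⟨i, h1, h2⟩
    refine ⟨i - c, ?_, ?_⟩
    · show p (i - c + c) = v
      rw [sub_add_cancel, h1]
    · show p (i - c + 1 + c) = v + E6.dir r
      rw [add_right_comm, sub_add_cancel, h2]

theorem pdir_sh (c i : ℕ) : pdir (fun i => p (i + (c : ZMod l))) i = pdir p (i + c) := by
  show dirOf (p ((i : ZMod l) + 1 + c) - p ((i : ZMod l) + c)) =
    dirOf (p (((i + c : ℕ) : ZMod l) + 1) - p ((i + c : ℕ) : ZMod l))
  have e1 : (i : ZMod l) + 1 + c = ((i + c : ℕ) : ZMod l) + 1 := by push_cast; ring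
  have e2 : (i : ZMod l) + c = ((i + c : ℕ) : ZMod l) := by push_cast; ring
  rw [e1, e2]

theorem PN_sh (hn : 0 < n) (c j : ℕ) :
    PN (fun i => p (i + (c : ZMod l))) n j = PN p n (j + c * n) := by
  unfold PN
  have e1 : (j + c * n) / n = j / n + c := Nat.add_mul_div_right _ _ hn
  have e2 : (j + c * n) % n = j % n := Nat.add_mul_mod_self_right _ _ _
  rw [e1, e2, pdir_sh]
  simp only
  congr 3
  push_cast
  ring

theorem bd_sh {D : Set (ℤ × ℤ)} {N : ℕ} {P : ℕ → ℤ × ℤ} {u : ℕ → ℤ} {σ : ℤ} (h : Bd D N P u σ)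
    (i : ℕ) : Bd D N (fun k => P (k + i)) (fun k => u (k + i)) σ := by
  refine ⟨fun k => ?_, fun k => ?_, fun k => ?_, fun k => ?_, fun k l h1 h2 => ?_, fun k => h.left _,
    fun k => h.right _⟩
  · have := h.step (k + i)
    rwa [show k + i + 1 = k + 1 + i by ring] at this
  · have := h.turn (k + i)
    rwa [show k + i + 1 = k + 1 + i by ring] at this
  · have := h.per (k + i)
    rwa [show k + i + N = k + N + i by ring] at this
  · have := h.perP (k + i)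
    rwa [show k + i + N = k + N + i by ring] at this
  · exact h.inj _ _ (by omega) (by omega)

/-- The base moved to the corner `c`. -/
theorem hb_sh (hn : 0 < n) (hp : IsPolygon p) (hs : s < n) {c : ℕ} (hc : 1 ≤ c)
    (hu : HB p S₀ n s a (fwk b (l * n)) τ (fwη b)) :
    HB (fun i => p (i + (c : ZMod l))) S₀ n 0 a (fwk b (l * n)) (fun m => τ (m + (c * n - s)))
      (fwη b) := by
  have h := bd_sh hu (c * n - s)
  have hcn : s < c * n := lt_of_lt_of_le hs (Nat.le_mul_of_pos_left n hc)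
  have e : (fun k : ℕ => (enP p S₀ n s a (fwk b (l * n)) τ (fwη b)).q
      ((k + (c * n - s) : ℕ) : ZMod (l * n))) = fun k : ℕ =>
      (enP (fun i => p (i + (c : ZMod l))) S₀ n 0 a (fwk b (l * n))
        (fun m => τ (m + (c * n - s))) (fwη b)).q (k : ZMod (l * n)) := by
    funext k
    rw [q_nat hn hp, q_nat hn (poly_sh hp c), PN_sh hn, add_zero]
    congr 2
    omega
  rw [e] at h
  exact h

/-- **The two descriptions of an enlargement.** -/
theorem rotE (hn : 0 < n) (hp : IsPolygon p) (hs0 : 0 < s) (hs : s < n) {c : ℕ} (hc : 1 ≤ c)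
    (hcl : c ≤ l) (hcx : pdir p c = pdir p (c - 1) + 1)
    (hu : HB p S₀ n s a (fwk b (l * n)) τ (fwη b)) :
    Rot (fE p S₀ n s a b τ) (fE (fun i => p (i + (c : ZMod l))) S₀ n 0 a b
      (fun m => τ (m + (c * n - s)))) (c * n - s) := by
  have hcn : s < c * n := lt_of_lt_of_le hs (Nat.le_mul_of_pos_left n hc)
  have hcln : c * n ≤ l * n := Nat.mul_le_mul_right n hcl
  refine ⟨rfl, fun j => ?_, fun j => rfl, rfl, rfl, ?_, by omega, ?_, ?_, ?_⟩
  · show (enP (fun i => p (i + (c : ZMod l))) S₀ n 0 a (fwk b (l * n))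
        (fun m => τ (m + (c * n - s))) (fwη b)).q (j : ZMod (l * n)) =
      (enP p S₀ n s a (fwk b (l * n)) τ (fwη b)).q ((j + (c * n - s) : ℕ) : ZMod (l * n))
    rw [q_nat hn hp, q_nat hn (poly_sh hp c), PN_sh hn, add_zero]
    congr 2
    omega
  · rcases fwk_or b (l * n) with h | h
    · exact Or.inl ⟨h, h⟩
    · exact Or.inr ⟨h, h⟩
  · show c * n - s < l * n
    omega
  · show τ (l * n) = τ (l * n - 1)
    by_contra hne
    have hln : 0 < l * n := lt_of_lt_of_le (by omega) hcln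
    obtain ⟨i, h1, -⟩ := (corner_iff hn hp hs hu hln).1 hne
    have h2 : s < (i + 1) * n := lt_of_lt_of_le hs (Nat.le_mul_of_pos_left n (by omega))
    have h3 : l * n + s = (i + 1) * n := by omega
    have h4 : n ∣ s := (Nat.dvd_add_right ⟨l, mul_comm _ _⟩).1 (h3 ▸ ⟨i + 1, mul_comm _ _⟩)
    exact absurd (Nat.le_of_dvd hs0 h4) (by omega)
  · show τ (c * n - s) = τ (c * n - s - 1) + 1
    obtain ⟨c', rfl⟩ : ∃ c', c = c' + 1 := ⟨c - 1, by omega⟩
    have h1 := tau_corner hn hp hs hu c'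
    rw [Nat.add_sub_cancel] at hcx
    unfold tn at h1
    rw [if_pos hcx] at h1
    omega

end

end Vale.Agent.P167.H852.Q.Lx
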