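import Vale.Agent.P167.H852.Q.Lx3
import Vale.Agent.P167.H365.Q.BaseQ1

/-!
# P167, general `q`, block Q-LAM: the ratio of the partition functions and the base
-/

namespace Vale.Agent.P167.H852.Q.Lx

open Finset Filter Topology Vale.Agent.P167.BR Vale.Agent.P167.FK
open Vale.Agent.P167.E6 (IsPolygon Encloses)
open Vale.Agent.P167.Enl (PN qN isPolygon_qN encloses_qN)
open Vale.Agent.P167.H825 (enl pdir tn dirOf)
open Vale.Agent.P167.H871 (Bd)
open Vale.Agent.P167.H718 (Dob poly_add encl_add bd_add lam ZQ_stag_pos)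
open Vale.Agent.P167.H718.Lam
open Vale.Agent.P167.H601.LG
open Vale.Agent.P167.H318.LC (HB)
open Vale.Agent.P167.QX (ZQ stag)

variable {θ : ℝ}

/-- The gauge. -/
theorem gau2 (θ : ℝ) : Real.cos (θ / 2 + (θ - Real.pi) / 2) = Real.sin θ := by
  have e : θ / 2 + (θ - Real.pi) / 2 = θ - Real.pi / 2 := by ring
  rw [e, Real.cos_sub_pi_div_two]

/-- **The ratio does not depend on the base**, up to a factor. -/
theorem lam_base (h0 : 0 < θ) (h1 : θ ≤ Real.pi / 3) {N k : ℕ} {q q' : ZMod N → ℤ × ℤ}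
    {D : Finset (ℤ × ℤ)} (hk : k = 0 ∨ k = N) (hq : IsPolygon q) (hq' : IsPolygon q')
    (hD : Encloses q D) (hD' : Encloses q' D) (a : ℤ × ℤ) :
    lam θ ((θ - Real.pi) / 2) q D k a ≤
      (2 * Real.cos θ) ^ 2 * lam θ ((θ - Real.pi) / 2) q' D k a := by
  have hs := sin_pos' h0 h1
  have hc2 := tcos_pos h0 h1
  have hc : 0 < Real.cos θ := by linarith
  have hβ := gau2 θ
  have a1 : ZQ θ q D (stag θ ((θ - Real.pi) / 2) q k) 0 ≤
      2 * Real.cos θ * ZQ θ q' D (stag θ ((θ - Real.pi) / 2) q' k) 0 :=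
    H365.NQ.ZQ_base hq hD hq' hD' hk h0 h1 hβ
  have a2 : ZQ θ (fun i => q' i + a) (D.image (· + a))
        (stag θ ((θ - Real.pi) / 2) (fun i => q' i + a) k) 0 ≤
      2 * Real.cos θ * ZQ θ (fun i => q i + a) (D.image (· + a))
        (stag θ ((θ - Real.pi) / 2) (fun i => q i + a) k) 0 :=
    H365.NQ.ZQ_base (poly_add hq' a) (encl_add hD' a) (poly_add hq a) (encl_add hD a) hk h0 h1 hβ
  have p1 : 0 < ZQ θ (fun i => q i + a) (D.image (· + a))
      (stag θ ((θ - Real.pi) / 2) (fun i => q i + a) k) 0 :=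
    ZQ_stag_pos (poly_add hq a) (encl_add hD a) hs.ne' hc hβ hs
  have p2 : 0 < ZQ θ (fun i => q' i + a) (D.image (· + a))
      (stag θ ((θ - Real.pi) / 2) (fun i => q' i + a) k) 0 :=
    ZQ_stag_pos (poly_add hq' a) (encl_add hD' a) hs.ne' hc hβ hs
  have p3 : 0 < ZQ θ q' D (stag θ ((θ - Real.pi) / 2) q' k) 0 :=
    ZQ_stag_pos hq' hD' hs.ne' hc hβ hs
  unfold lam
  rw [← mul_div_assoc, div_le_div_iff₀ p1 p2]
  calc _ ≤ (2 * Real.cos θ * ZQ θ q' D (stag θ ((θ - Real.pi) / 2) q' k) 0) *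
        (2 * Real.cos θ * ZQ θ (fun i => q i + a) (D.image (· + a))
          (stag θ ((θ - Real.pi) / 2) (fun i => q i + a) k) 0) :=
        mul_le_mul a1 a2 p2.le (by positivity)
    _ = _ := by ring

section

variable {l n s : ℕ} {p : ZMod l → ℤ × ℤ} {S₀ : Finset (ℤ × ℤ)} {τ : ℕ → ℤ} {b : Bool}

/-- The boundary hypothesis without translation. -/
def HB0 {l : ℕ} (p : ZMod l → ℤ × ℤ) (S₀ : Finset (ℤ × ℤ)) (n s : ℕ) (τ : ℕ → ℤ) : Prop :=
  Bd ((enl S₀ n : Finset (ℤ × ℤ)) : Set (ℤ × ℤ)) (l * n)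
    (fun i => qN p n s (i : ZMod (l * n))) τ 1

theorem HB0.hb (h : HB0 p S₀ n s τ) (a : ℤ × ℤ) (k : ℕ) (η : Cfg) : HB p S₀ n s a k τ η :=
  bd_add h a

/-- The base moved to the corner `c`. -/
theorem HB0.sh (hn : 0 < n) (hp : IsPolygon p) (hs : s < n) {c : ℕ} (hc : 1 ≤ c)
    (hu : HB0 p S₀ n s τ) :
    HB0 (fun i => p (i + (c : ZMod l))) S₀ n 0 (fun m => τ (m + (c * n - s))) := by
  have hl : NeZero l := ⟨by have := hp.1; omega⟩
  have h := bd_sh hu (c * n - s)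
  have hcn : s < c * n := lt_of_lt_of_le hs (Nat.le_mul_of_pos_left n hc)
  have e : (fun k : ℕ => qN p n s ((k + (c * n - s) : ℕ) : ZMod (l * n))) =
      fun k : ℕ => qN (fun i => p (i + (c : ZMod l))) n 0 (k : ZMod (l * n)) := by
    funext k
    rw [Enl.qN_nat hn, Enl.qN_nat hn, PN_sh hn, add_zero]
    congr 1
    omega
  rw [e] at h
  exact h

/-- **The expectation of the product of all the weights is `lam`.** -/
theorem eX_lam (h0 : 0 < θ) (h1 : θ ≤ Real.pi / 3) (hp : IsPolygon p) (hS : Encloses p S₀)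
    (hn : 0 < n) (hu : HB0 p S₀ n s τ) (r : Fin 4) (b : Bool) :
    (fE p S₀ n s (E6.dir r) b τ).eX θ =
      lam θ ((θ - Real.pi) / 2) (qN p n s) (enl S₀ n) (fwk b (l * n)) (E6.dir r) := by
  have hs := sin_pos' h0 h1
  have hc : 0 < Real.cos θ := by have := tcos_pos h0 h1; linarith
  have hodd : ¬ Even ((E6.dir r).1 + (E6.dir r).2) := by fin_cases r <;> decide
  have hle : fwk b (l * n) ≤ l * n := by
    rcases fwk_or b (l * n) with h | h <;> rw [h]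
    exact Nat.zero_le _
  have hd0 := (fw_dob hp hS hn (m₀ := 0) (by omega) s 0 b).1
  have e0 : (enl S₀ n).image (· + (0 : ℤ × ℤ)) = enl S₀ n := by
    ext v
    rw [mem_tr', sub_zero]
  have e1 : (fun i => qN p n s i + (0 : ℤ × ℤ)) = qN p n s := by
    funext i
    rw [add_zero]
  rw [e0, e1] at hd0
  exact ex_image (η := fwη b) hodd (isPolygon_qN hn hp s) (encloses_qN hn hp hS s) hu hs hc (gau2 θ)
    hle hd0 (fw_dob hp hS hn (m₀ := 0) (by omega) s (E6.dir r) b).1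

end

/-! ### the number of the special indices -/

theorem card_sp_le {X : Pg} {n : ℕ} {σ R : ℝ} (hX : X.Ok n σ R) (hσ : 0 < σ)
    (hσn : 2 ≤ σ * n) : (X.sp.card : ℝ) ≤ 2 * R / σ + 1 := by
  classical
  have hn' : (0 : ℝ) < n := by
    have := hX.geo.pos
    exact_mod_cast this
  obtain ⟨L, hL⟩ : ∃ L, L = ⌊σ * (n : ℝ)⌋₊ := ⟨_, rfl⟩
  have hL1 : (L : ℝ) ≤ σ * n := by rw [hL]; exact Nat.floor_le (by linarith)
  have hL2 : σ * n < (L : ℝ) + 1 := by rw [hL]; exact Nat.lt_floor_add_one _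
  have hL3 : σ * n / 2 ≤ (L : ℝ) := by linarith
  have hL0 : (0 : ℝ) < L := by linarith
  have hL0' : 0 < L := by exact_mod_cast hL0
  have hsep := hX.sep
  rw [← hL] at hsep
  have hcard : X.sp.card ≤ X.N / L + 1 := by
    have hinj : Set.InjOn (fun j => j / L) (X.sp : Set ℕ) := by
      have key : ∀ i j : ℕ, i < j → i ∈ X.sp → j ∈ X.sp → i / L ≠ j / L := by
        intro i j hij hi hj h
        obtain ⟨h1, -⟩ := hsep i j hij (mem_sp.1 hj).1 (mem_sp.1 hi).2 (mem_sp.1 hj).2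
        have h2 : i / L + 1 ≤ j / L := by
          rw [← Nat.add_div_right _ hL0']
          exact Nat.div_le_div_right h1
        omega
      intro i hi j hj h
      rcases lt_trichotomy i j with h1 | h1 | h1
      · exact absurd h (key i j h1 hi hj)
      · exact h1
      · exact absurd h.symm (key j i h1 hj hi)
    rw [← card_image_of_injOn hinj]
    refine (card_le_card (t := range (X.N / L + 1)) ?_).trans (card_range _).le
    intro j hj
    rw [mem_image] at hj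
    obtain ⟨i, hi, rfl⟩ := hj
    rw [mem_range]
    have := (mem_sp.1 hi).1
    exact Nat.lt_succ_of_le (Nat.div_le_div_right this.le)
  have h3 : ((X.N / L : ℕ) : ℝ) ≤ 2 * R / σ := by
    refine Nat.cast_div_le.trans ?_
    rw [div_le_div_iff₀ hL0 hσ]
    have h4 := hX.len
    have hR : 0 ≤ R := by
      by_contra hneg
      push Not at hneg
      have h5 : R * n < 0 := mul_neg_of_neg_of_pos hneg hn'
      have h6 : (0 : ℝ) ≤ X.N := Nat.cast_nonneg _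
      linarith
    nlinarith
  have h4 : (X.sp.card : ℝ) ≤ ((X.N / L : ℕ) : ℝ) + 1 := by exact_mod_cast hcard
  linarith

/-- Numbers: the radius `⌊ρ n⌋` and the window. -/
theorem num2 {σ K : ℝ} (hσ : 0 < σ) (hK : 1 ≤ K) : ∃ ρ₀ : ℝ, 0 < ρ₀ ∧ ∀ ρ : ℝ, 0 < ρ → ρ ≤ ρ₀ →
    ∀ᶠ n : ℕ in atTop, 1 ≤ ⌊ρ * (n : ℝ)⌋ ∧ 2 ≤ σ * n ∧ ∃ R' : ℤ,
      K * ⌊ρ * (n : ℝ)⌋ ≤ R' ∧ 3 * (R' + 1) < n ∧ 4 * (R' + 1) < ⌊σ * (n : ℝ)⌋₊ := by
  have hm : 0 < min σ 1 := lt_min hσ one_pos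
  refine ⟨min σ 1 / (16 * K), by positivity, fun ρ hρ hρ0 => ?_⟩
  have hev : ∀ᶠ n : ℕ in atTop, max (1 / ρ) (64 / min σ 1) ≤ (n : ℝ) :=
    tendsto_natCast_atTop_atTop.eventually_ge_atTop _
  filter_upwards [hev] with n hn
  have n1 : 1 / ρ ≤ n := (le_max_left _ _).trans hn
  have n2 : 64 / min σ 1 ≤ n := (le_max_right _ _).trans hn
  rw [div_le_iff₀ hρ] at n1
  rw [div_le_iff₀ hm] at n2
  have hn' : (0 : ℝ) < n := by
    by_contra hneg
    push Not at hneg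
    nlinarith
  have m1 : min σ 1 * n ≤ σ * n := mul_le_mul_of_nonneg_right (min_le_left _ _) hn'.le
  have m2 : min σ 1 * n ≤ 1 * n := mul_le_mul_of_nonneg_right (min_le_right _ _) hn'.le
  refine ⟨by rw [Int.le_floor]; push_cast; linarith, by linarith, ⌊min σ 1 / 8 * (n : ℝ)⌋, ?_, ?_, ?_⟩
  · have h1 : (⌊ρ * (n : ℝ)⌋ : ℝ) ≤ ρ * n := Int.floor_le _
    have h2 : min σ 1 / 8 * (n : ℝ) < ⌊min σ 1 / 8 * (n : ℝ)⌋ + 1 := Int.lt_floor_add_one _
    have h3 : K * (ρ * n) ≤ min σ 1 / 16 * n := by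
      have h4 : K * ρ ≤ min σ 1 / 16 := by
        have h5 := mul_le_mul_of_nonneg_left hρ0 (by linarith : (0 : ℝ) ≤ K)
        refine h5.trans (le_of_eq ?_)
        field_simp
      nlinarith
    have h6 : K * (⌊ρ * (n : ℝ)⌋ : ℝ) ≤ K * (ρ * n) := mul_le_mul_of_nonneg_left h1 (by linarith)
    nlinarith
  · have h1 : (⌊min σ 1 / 8 * (n : ℝ)⌋ : ℝ) ≤ min σ 1 / 8 * n := Int.floor_le _
    have h2 : ((3 * (⌊min σ 1 / 8 * (n : ℝ)⌋ + 1) : ℤ) : ℝ) < ((n : ℤ) : ℝ) := by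
      push_cast
      nlinarith
    exact_mod_cast h2
  · have h1 : (⌊min σ 1 / 8 * (n : ℝ)⌋ : ℝ) ≤ min σ 1 / 8 * n := Int.floor_le _
    have h3 : σ * n < (⌊σ * (n : ℝ)⌋₊ : ℝ) + 1 := Nat.lt_floor_add_one _
    have h2 : ((4 * (⌊min σ 1 / 8 * (n : ℝ)⌋ + 1) : ℤ) : ℝ) < ((⌊σ * (n : ℝ)⌋₊ : ℤ) : ℝ) := by
      push_cast
      nlinarith
    exact_mod_cast h2

end Vale.Agent.P167.H852.Q.Lx
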