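import Vale.Agent.P167.H852.Q.Lx4

/-!
# P167, general `q`, block Q-LAM: change of the base, products over the special indices
-/

namespace Vale.Agent.P167.H852.Q.Lx

open Finset Filter Topology Vale.Agent.P167.BR Vale.Agent.P167.FK
open Vale.Agent.P167.E6 (IsPolygon Encloses)
open Vale.Agent.P167.Enl (PN qN isPolygon_qN encloses_qN PN_succ)
open Vale.Agent.P167.H825 (enl pdir tn dirOf)
open Vale.Agent.P167.H718.Lam
open Vale.Agent.P167.H601.LG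
open Vale.Agent.P167.H975 (SameT)
open Vale.Agent.P167.H192.Q (SRSW)
open Vale.Agent.P167.H318.LC (HB q_nat vec_tau)

/-- The comparison of the special points of the same type, with the constant `K`. -/
def CmpT (θ K : ℝ) : Prop := ∀ {X Y : Pg} {n : ℕ} {σ R : ℝ} {r R' : ℤ},
  X.Ok n σ R → Y.Ok n σ R → Fwc X → Fwc Y → X.η = Y.η → 1 ≤ r → K * r ≤ R' →
  3 * (R' + 1) < n → 4 * (R' + 1) < ⌊σ * n⌋₊ → ∀ {j j' : ℕ}, j ∈ X.sp → j' ∈ Y.sp →
  SameT X.N X.k X.τ j Y.N Y.k Y.τ j' →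
  Even ((Y.q (j' : ZMod Y.N) - X.q (j : ZMod X.N)).1 +
    (Y.q (j' : ZMod Y.N) - X.q (j : ZMod X.N)).2) →
  X.eT θ j r ≤ 2 * Y.eT θ j' r ∧ Y.eT θ j' r ≤ 2 * X.eT θ j r

/-- The numbers in question. -/
structure Nums (K σ : ℝ) (n : ℕ) (r R' : ℤ) : Prop where
  r1 : 1 ≤ r
  K1 : 1 ≤ K
  Kr : K * r ≤ R'
  n3 : 3 * (R' + 1) < n
  n4 : 4 * (R' + 1) < ⌊σ * n⌋₊

theorem Nums.le {K σ : ℝ} {n : ℕ} {r R' : ℤ} (H : Nums K σ n r R') : r ≤ R' := by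
  have h1 : (1 : ℝ) ≤ r := by exact_mod_cast H.r1
  have h2 := H.K1
  have h3 := H.Kr
  have : (r : ℝ) ≤ R' := by nlinarith
  exact_mod_cast this

theorem Nums.s3 {K σ : ℝ} {n : ℕ} {r R' : ℤ} (H : Nums K σ n r R') : 3 * (r + 1) < n := by
  have := H.le
  have := H.n3
  omega

theorem Nums.s4 {K σ : ℝ} {n : ℕ} {r R' : ℤ} (H : Nums K σ n r R') :
    4 * (r + 1) < ⌊σ * n⌋₊ := by
  have := H.le
  have := H.n4
  omega

theorem prod_two {s : Finset ℕ} {f g : ℕ → ℝ} (hf : ∀ j ∈ s, 0 ≤ f j)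
    (h : ∀ j ∈ s, f j ≤ 2 * g j) : ∏ j ∈ s, f j ≤ 2 ^ s.card * ∏ j ∈ s, g j := by
  refine (prod_le_prod hf h).trans_eq ?_
  rw [prod_mul_distrib, prod_const]

variable {X X' : Pg} {i₀ n : ℕ} {σ R θ K : ℝ} {r R' : ℤ}

/-- The factors at the other special indices. -/
theorem Rot.rest (H : Rot X X' i₀) (h0 : 0 < θ) (h1 : θ ≤ Real.pi / 3) (hC : CmpT θ K)
    (hX : X.Ok n σ R) (hX' : X'.Ok n σ R) (hF : Fwc X) (hF' : Fwc X') (hn : Nums K σ n r R') :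
    (∀ j ∈ rst X i₀, 0 < X.eT θ j r) ∧ (∀ j ∈ rst X i₀, 0 < X'.eT θ (sh X.N i₀ j) r) ∧
    (∏ j ∈ rst X i₀, X.eT θ j r ≤ 2 ^ (rst X i₀).card * ∏ j ∈ rst X i₀, X'.eT θ (sh X.N i₀ j) r) ∧
    (∏ j ∈ rst X i₀, X'.eT θ (sh X.N i₀ j) r ≤ 2 ^ (rst X i₀).card *
      ∏ j ∈ rst X i₀, X.eT θ j r) := by
  have hper := hX.bd.per
  have hsp : ∀ j ∈ rst X i₀, j ∈ X.sp ∧ j ≠ 0 ∧ sh X.N i₀ j ∈ X'.sp ∧ sh X.N i₀ j ≠ 0 := by
    intro j hj
    have h2 := mem_rst.1 hj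
    have h3 : sh X.N i₀ j ∈ X'.sp.erase 0 := by
      rw [H.sp_eq hper]
      exact mem_image_of_mem _ hj
    refine ⟨?_, h2.2.1, mem_of_mem_erase h3, ne_of_mem_erase h3⟩
    exact mem_of_mem_erase (mem_of_mem_erase hj)
  have hcmp : ∀ j ∈ rst X i₀, X.eT θ j r ≤ 2 * X'.eT θ (sh X.N i₀ j) r ∧
      X'.eT θ (sh X.N i₀ j) r ≤ 2 * X.eT θ j r := by
    intro j hj
    obtain ⟨a1, a2, a3, a4⟩ := hsp j hj
    refine hC hX hX' hF hF' H.η.symm hn.r1 hn.Kr hn.n3 hn.n4 a1 a3 (H.same hper hj) ?_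
    rw [H.q_sh, sub_self]
    exact ⟨0, by simp⟩
  have p1 : ∀ j ∈ rst X i₀, 0 < X.eT θ j r := fun j hj =>
    eT_pos h0 h1 hX hF hn.s3 hn.s4 (hsp j hj).1 fun h => absurd h (hsp j hj).2.1
  have p2 : ∀ j ∈ rst X i₀, 0 < X'.eT θ (sh X.N i₀ j) r := fun j hj =>
    eT_pos h0 h1 hX' hF' hn.s3 hn.s4 (hsp j hj).2.2.1 fun h => absurd h (hsp j hj).2.2.2
  exact ⟨p1, p2, prod_two (fun j hj => (p1 j hj).le) fun j hj => (hcmp j hj).1,
    prod_two (fun j hj => (p2 j hj).le) fun j hj => (hcmp j hj).2⟩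

theorem down_aux {x A A' E' B c M : ℝ} (hB : 0 ≤ B) (hE : 0 ≤ E') (hA : 0 < A) (hc : c ≤ M)
    (h : x * A ≤ B * (E' * A')) (h' : A' ≤ c * A) : x ≤ B * M * E' := by
  have h1 : A' ≤ M * A := h'.trans (mul_le_mul_of_nonneg_right hc hA.le)
  have h2 : x * A ≤ B * M * E' * A := by
    refine h.trans ?_
    have h3 := mul_le_mul_of_nonneg_left h1 (mul_nonneg hB hE)
    calc B * (E' * A') = B * E' * A' := by ring
      _ ≤ B * E' * (M * A) := h3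
      _ = _ := by ring
  exact le_of_mul_le_mul_right h2 hA

theorem up_aux {x A A' E' B c M : ℝ} (hB : 0 ≤ B) (hE : 0 ≤ E') (hA : 0 < A) (hA' : 0 < A')
    (hc : c ≤ M) (h : x ≤ B * E') (h' : A ≤ c * A') : x * A ≤ B * M * (E' * A') := by
  have h1 : A ≤ M * A' := h'.trans (mul_le_mul_of_nonneg_right hc hA'.le)
  calc x * A ≤ B * E' * A := mul_le_mul_of_nonneg_right h hA.le
    _ ≤ B * E' * (M * A') := mul_le_mul_of_nonneg_left h1 (mul_nonneg hB hE)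
    _ = _ := by ring

theorem rst_card_le : (rst X i₀).card ≤ X.sp.card :=
  card_le_card ((erase_subset _ _).trans (erase_subset _ _))

/-- **From the products to the factors at the base.** -/
theorem Rot.down (H : Rot X X' i₀) (h0 : 0 < θ) (h1 : θ ≤ Real.pi / 3) (hC : CmpT θ K)
    (hX : X.Ok n σ R) (hX' : X'.Ok n σ R) (hF : Fwc X) (hF' : Fwc X') (hn : Nums K σ n r R')
    {B : ℝ} (hB : 0 ≤ B) {m : ℕ} (hm : X.sp.card ≤ m)
    (h : ∏ j ∈ X.sp, X.eT θ j r ≤ B * ∏ j ∈ X'.sp, X'.eT θ j r) :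
    X.eT θ 0 r * X.eT θ i₀ r ≤ B * 2 ^ m * X'.eT θ 0 r := by
  obtain ⟨p1, p2, -, p4⟩ := H.rest h0 h1 hC hX hX' hF hF' hn
  have e0 := eT_nonneg h0 h1 hX' hF' hn.s3 hn.s4 H.zero_mem'
  have hP : 0 < ∏ j ∈ rst X i₀, X.eT θ j r := prod_pos p1
  rw [H.prod, H.prod' hX.bd.per] at h
  exact down_aux hB e0 hP (pow_le_pow_right₀ one_le_two (rst_card_le.trans hm)) h p4

/-- **From the factors at the base to the products.** -/
theorem Rot.up (H : Rot X X' i₀) (h0 : 0 < θ) (h1 : θ ≤ Real.pi / 3) (hC : CmpT θ K)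
    (hX : X.Ok n σ R) (hX' : X'.Ok n σ R) (hF : Fwc X) (hF' : Fwc X') (hn : Nums K σ n r R')
    {B : ℝ} (hB : 0 ≤ B) {m : ℕ} (hm : X.sp.card ≤ m)
    (h : X.eT θ 0 r * X.eT θ i₀ r ≤ B * X'.eT θ 0 r) :
    ∏ j ∈ X.sp, X.eT θ j r ≤ B * 2 ^ m * ∏ j ∈ X'.sp, X'.eT θ j r := by
  obtain ⟨p1, p2, p3, -⟩ := H.rest h0 h1 hC hX hX' hF hF' hn
  have e0 := eT_nonneg h0 h1 hX' hF' hn.s3 hn.s4 H.zero_mem'
  have hP : 0 < ∏ j ∈ rst X i₀, X.eT θ j r := prod_pos p1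
  have hP' : 0 < ∏ j ∈ rst X i₀, X'.eT θ (sh X.N i₀ j) r := prod_pos p2
  rw [H.prod, H.prod' hX.bd.per]
  exact up_aux hB e0 hP hP' (pow_le_pow_right₀ one_le_two (rst_card_le.trans hm)) h p3

/-! ### parities and types of the enlargements -/

section

variable {l l' n s s' : ℕ} {p : ZMod l → ℤ × ℤ} {p' : ZMod l' → ℤ × ℤ} {S₀ S₀' : Finset (ℤ × ℤ)}
  {a a' : ℤ × ℤ} {τ τ' : ℕ → ℤ} {b : Bool}

theorem even_PN (hn : Even n) (m : ℕ) (h : m / n = 0 ∧ pdir p 0 = 0 ∨ m % n = 0) (a : ℤ × ℤ) :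
    Even ((PN p n m + a).1 + (PN p n m + a).2) ↔ Even (((m % n : ℕ) : ℤ) + (a.1 + a.2)) := by
  obtain ⟨m', rfl⟩ := hn
  have key : ∃ t : ℤ, (PN p (m' + m') m).1 + (PN p (m' + m') m).2 =
      2 * t + ((m % (m' + m') : ℕ) : ℤ) := by
    unfold PN
    rcases h with ⟨h1, h2⟩ | h
    · rw [h1, h2]
      refine ⟨m' * ((p ((0 : ℕ) : ZMod l)).1 + (p ((0 : ℕ) : ZMod l)).2), ?_⟩
      simp only [Prod.fst_add, Prod.snd_add, Prod.smul_fst, Prod.smul_snd, smul_eq_mul, Enl.dir0]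
      push_cast
      ring
    · rw [h]
      refine ⟨m' * ((p ((m / (m' + m') : ℕ) : ZMod l)).1 +
        (p ((m / (m' + m') : ℕ) : ZMod l)).2), ?_⟩
      simp only [Prod.fst_add, Prod.snd_add, Prod.smul_fst, Prod.smul_snd, smul_eq_mul,
        Nat.cast_zero, zero_mul]
      push_cast
      ring
  obtain ⟨t, ht⟩ := key
  have e : (PN p (m' + m') m + a).1 + (PN p (m' + m') m + a).2 =
      2 * t + (((m % (m' + m') : ℕ) : ℤ) + (a.1 + a.2)) := by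
    simp only [Prod.fst_add, Prod.snd_add]
    linarith
  rw [e, Int.even_add]
  simp

/-- Special points of the same type in two enlargements. -/
theorem same_fE (hn : 0 < n) (hp : IsPolygon p) (hp' : IsPolygon p')
    (hu : HB p S₀ n s a (fwk b (l * n)) τ (fwη b)) (hv : HB p' S₀' n s' a' (fwk b (l' * n)) τ' (fwη b))
    {j j' : ℕ} (hj : j < l * n) (hj' : j' < l' * n) (hb : j = 0 ↔ j' = 0)
    (ho : pdir p ((j + s) / n) = pdir p' ((j' + s') / n))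
    (hi : pdir p ((j + l * n - 1 + s) / n) = pdir p' ((j' + l' * n - 1 + s') / n)) :
    SameT (l * n) (fwk b (l * n)) τ j (l' * n) (fwk b (l' * n)) τ' j' := by
  refine ⟨hb, ?_, fun h => ?_, fun _ => ?_, ?_, ?_⟩
  · cases b
    · exact ⟨fun _ => hj', fun _ => hj⟩
    · exact ⟨fun h => absurd h (Nat.not_lt_zero _), fun h => absurd h (Nat.not_lt_zero _)⟩
  · cases b
    · exact ⟨fun h => absurd h hj.ne, fun h => absurd h hj'.ne⟩
    · constructor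
      · intro h2
        exact absurd h2 (by simp only [fwk, if_true]; omega)
      · intro h2
        exact absurd h2 (by simp only [fwk, if_true]; omega)
  · cases b
    · simp [fwk]
    · simp only [fwk, if_true]
      constructor <;> intro _ <;> omega
  · rw [vec_tau hn hp hu, vec_tau hn hp' hv, ho]
  · rw [vec_tau hn hp hu, vec_tau hn hp' hv, hi]

theorem fwc_fE {l : ℕ} {p : ZMod l → ℤ × ℤ} {s : ℕ} {τ : ℕ → ℤ}
    (h : τ (l * n) = τ (l * n - 1) ∨ τ (l * n) = τ (l * n - 1) + 1) : Fwc (fE p S₀ n s a b τ) := by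
  refine ⟨?_, h⟩
  cases b
  · exact Or.inl ⟨rfl, rfl⟩
  · exact Or.inr ⟨rfl, rfl⟩

end

end Vale.Agent.P167.H852.Q.Lx
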