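import Vale.Agent.P167.H852.Q.Lx5

/-!
# P167, general `q`, block Q-LAM: the factors at a flat base: the square
-/

namespace Vale.Agent.P167.H852.Q.Lx

open Finset Filter Topology Vale.Agent.P167.BR Vale.Agent.P167.FK
open Vale.Agent.P167.E6 (IsPolygon Encloses)
open Vale.Agent.P167.Enl (PN qN isPolygon_qN encloses_qN PN_succ)
open Vale.Agent.P167.H825 (enl pdir tn dirOf)
open Vale.Agent.P167.H718.Lam
open Vale.Agent.P167.H601.LG
open Vale.Agent.P167.H975 (SameT)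
open Vale.Agent.P167.H192.Q (SRSW)
open Vale.Agent.P167.H318.LC (HB q_nat vec_tau sqP sqS sq_poly sq_encl sq_pdir)

/-- The enlargements are regular at the scale `n`. -/
def OkE (tp : ℝ) {l : ℕ} (p : ZMod l → ℤ × ℤ) (S₀ : Finset (ℤ × ℤ)) (σ R : ℝ) : Prop :=
  ∀ᶠ n : ℕ in atTop, ∀ s : ℕ, (s = 0 ∨ |(s : ℝ) - tp * n| ≤ 2) → ∀ a : ℤ × ℤ, nm a ≤ 1 →
    ∀ (b : Bool) (τ : ℕ → ℤ), HB p S₀ n s a (fwk b (l * n)) τ (fwη b) →
    (fE p S₀ n s a b τ).Ok n σ R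

theorem nm_dir' (a : Fin 4) : nm (E6.dir a) ≤ 1 := by
  fin_cases a <;> simp [E6.dir, nm]

/-- The base of `X'` is a convex corner. -/
theorem Rot.conv {X X' : Pg} {i₀ : ℕ} (H : Rot X X' i₀) (hper : ∀ k, X.τ (k + X.N) = X.τ k + 4) :
    X'.τ X'.N = X'.τ (X'.N - 1) + 1 := by
  have h1 := H.i0
  have h2 := H.i1
  have h3 := H.cx
  rw [H.N, H.τ, H.τ, show X.N + i₀ = i₀ + X.N by ring, show X.N - 1 + i₀ = i₀ - 1 + X.N by omega,
    hper, hper, h3]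
  ring

theorem Rot.fwc' {X X' : Pg} {i₀ : ℕ} (H : Rot X X' i₀) (hper : ∀ k, X.τ (k + X.N) = X.τ k + 4)
    (hF : Fwc X) : Fwc X' := by
  refine ⟨?_, Or.inr (H.conv hper)⟩
  rw [H.N, H.η]
  have h1 := H.i1
  rcases hF.fw with ⟨a, b⟩ | ⟨a, b⟩ <;> rcases H.k with ⟨c, d⟩ | ⟨c, d⟩
  · omega
  · exact Or.inl ⟨d, b⟩
  · exact Or.inr ⟨d, b⟩
  · omega

theorem Rot.typ' {X X' : Pg} {i₀ : ℕ} {θ : ℝ} (H : Rot X X' i₀)
    (hper : ∀ k, X.τ (k + X.N) = X.τ k + 4) : X'.Ty θ := by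
  refine ⟨?_, fun _ => by have := H.conv hper; omega, fun h1 h2 => ?_, rfl⟩
  · rcases H.kX' with h | h <;> omega
  · rcases H.kX' with h | h <;> omega

/-- The bound of the number of the special indices. -/
noncomputable def mx (σ R : ℝ) : ℕ := ⌊2 * R / σ + 1⌋₊

theorem card_sp_mx {X : Pg} {n : ℕ} {σ R : ℝ} (hX : X.Ok n σ R) (hσ : 0 < σ)
    (hσn : 2 ≤ σ * n) : X.sp.card ≤ mx σ R := Nat.le_floor (card_sp_le hX hσ hσn)

/-- The numbers. -/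
theorem exists_nums {σ K : ℝ} (hσ : 0 < σ) (hK : 1 ≤ K) : ∃ ρ₀ : ℝ, 0 < ρ₀ ∧ ∀ ρ : ℝ, 0 < ρ →
    ρ ≤ ρ₀ → ∀ᶠ n : ℕ in atTop, 2 ≤ σ * n ∧ ∃ R' : ℤ, Nums K σ n ⌊ρ * (n : ℝ)⌋ R' := by
  obtain ⟨ρ₀, hρ₀, h⟩ := num2 hσ hK
  refine ⟨ρ₀, hρ₀, fun ρ h0 h1 => ?_⟩
  filter_upwards [h ρ h0 h1] with n hn
  obtain ⟨a, b, R', c, d, e⟩ := hn
  exact ⟨b, R', a, hK, c, d, e⟩

/-- The position of the base is in the interior of its side. -/
theorem pos_base {tp : ℝ} (ht0 : 0 < tp) (ht1 : tp < 1) : ∀ᶠ n : ℕ in atTop, ∀ s : ℕ,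
    |(s : ℝ) - tp * n| ≤ 2 → 0 < s ∧ s < n := by
  have hev : ∀ᶠ n : ℕ in atTop, max (3 / tp) (3 / (1 - tp)) ≤ (n : ℝ) :=
    tendsto_natCast_atTop_atTop.eventually_ge_atTop _
  filter_upwards [hev] with n hn s hs
  have h1 : 3 / tp ≤ n := (le_max_left _ _).trans hn
  have h2 : 3 / (1 - tp) ≤ n := (le_max_right _ _).trans hn
  rw [div_le_iff₀ ht0] at h1
  rw [div_le_iff₀ (by linarith)] at h2
  rw [abs_le] at hs
  constructor
  · have : (0 : ℝ) < s := by linarith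
    exact_mod_cast this
  · have : (s : ℝ) < n := by linarith
    exact_mod_cast this

/-- **The factors at a flat base**: the product of the factors at the base and at a convex corner is
at most a constant times the factor at this corner as a base. -/
def BLoc (θ tp ρ : ℝ) {l : ℕ} (p : ZMod l → ℤ × ℤ) (S₀ : Finset (ℤ × ℤ)) (c : ℕ) : Prop :=
  ∃ C : ℝ, 0 < C ∧ ∀ᶠ n : ℕ in atTop, Even n → ∀ s : ℕ, |(s : ℝ) - tp * n| ≤ 2 →
    ∀ (r : Fin 4) (b : Bool) (τ : ℕ → ℤ), HB0 p S₀ n s τ →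
    (Even ((s : ℤ) + ((E6.dir r).1 + (E6.dir r).2)) ↔ b = true) →
    (fE p S₀ n s (E6.dir r) b τ).eT θ 0 ⌊ρ * n⌋ *
      (fE p S₀ n s (E6.dir r) b τ).eT θ (c * n - s) ⌊ρ * n⌋ ≤
    C * (fE (fun i => p (i + (c : ZMod l))) S₀ n 0 (E6.dir r) b
      (fun m => τ (m + (c * n - s)))).eT θ 0 ⌊ρ * n⌋

section

variable {l n s : ℕ} {p : ZMod l → ℤ × ℤ} {S₀ : Finset (ℤ × ℤ)} {a : ℤ × ℤ} {τ : ℕ → ℤ} {b : Bool}

/-- The enlargement with a flat base whose colour is the one of the outside. -/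
theorem flat_fE (hn : Even n) (hp : IsPolygon p) (hs0 : 0 < s) (hs : s < n)
    (hu : HB p S₀ n s a (fwk b (l * n)) τ (fwη b)) (hfl : τ (l * n) = τ (l * n - 1))
    (hd : pdir p 0 = 0) (hpar : Even ((s : ℤ) + (a.1 + a.2)) ↔ b = true) :
    (fE p S₀ n s a b τ).Flat := by
  have hn0 : 0 < n := by omega
  have hl := hp.1
  have hN : 0 < l * n := by positivity
  have hq0 : Even (((fE p S₀ n s a b τ).q 0).1 + ((fE p S₀ n s a b τ).q 0).2) ↔ b = true := by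
    have h2 : (fE p S₀ n s a b τ).q 0 = PN p n (0 + s) + a := by
      have := q_nat (S₀ := S₀) (a := a) (k := fwk b (l * n)) (τ := τ) (η := fwη b) hn0 hp 0 (s := s)
      rw [Nat.cast_zero] at this
      exact this
    rw [h2, zero_add, even_PN hn s (Or.inl ⟨Nat.div_eq_of_lt hs, hd⟩), Nat.mod_eq_of_lt hs]
    exact hpar
  refine ⟨fwk_or b (l * n), hfl, fun h => ?_, fun h => ?_⟩
  · rw [hq0]
    cases b
    · simp
    · exact absurd h (by show ¬ (0 = l * n); omega)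
  · rw [hq0]
    cases b
    · exact absurd h (by show ¬ (l * n = 0); omega)
    · rfl

end

/-- **The square.** -/
theorem sq_loc {θ : ℝ} (h0 : 0 < θ) (h1 : θ ≤ Real.pi / 3) {K : ℝ} (hK : 1 ≤ K) (hC : CmpT θ K)
    (hU : U_S θ) (hL : L_flat θ) {tp σ R : ℝ} (ht0 : 0 < tp) (ht1 : tp < 1) (hσ : 0 < σ) {c : ℕ}
    (hc : 1 ≤ c) (hc4 : c ≤ 4) (hO : OkE tp (sqP 0) sqS σ R)
    (hO' : OkE tp (fun i => sqP 0 (i + (c : ZMod 4))) sqS σ R) :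
    ∃ ρ₀ : ℝ, 0 < ρ₀ ∧ ∀ ρ : ℝ, 0 < ρ → ρ ≤ ρ₀ → BLoc θ tp ρ (sqP 0) sqS c := by
  obtain ⟨ρ1, hρ1, HU⟩ := hU σ R hσ
  obtain ⟨ρ2, hρ2, HL⟩ := hL σ R hσ
  obtain ⟨ρ3, hρ3, HN⟩ := exists_nums hσ hK
  refine ⟨min ρ1 (min ρ2 ρ3), lt_min hρ1 (lt_min hρ2 hρ3), fun ρ hρ hρ' => ?_⟩
  obtain ⟨C, n₁, hC0, HU⟩ := HU ρ hρ (hρ'.trans (min_le_left _ _))
  obtain ⟨c', n₂, hc', HL⟩ := HL ρ hρ (hρ'.trans ((min_le_right _ _).trans (min_le_left _ _)))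
  have HN := HN ρ hρ (hρ'.trans ((min_le_right _ _).trans (min_le_right _ _)))
  have hc2 := tcos_pos h0 h1
  refine ⟨(2 * Real.cos θ) ^ 2 * C / c' * 2 ^ mx σ R, by positivity, ?_⟩
  filter_upwards [hO, hO', HN, pos_base ht0 ht1, eventually_ge_atTop n₁, eventually_ge_atTop n₂]
    with n hO hO' HN hpos hn1 hn2 hev s hs r b τ hu hpar
  obtain ⟨hs0, hsn⟩ := hpos s hs
  obtain ⟨hσn, R', hN⟩ := HN
  have hn : 0 < n := by omega
  have hp := sq_poly 0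
  have hp' := poly_sh hp c
  have hd : ∀ i < 5, pdir (sqP 0) i = 0 + Fin.ofNat 4 i := sq_pdir 0
  have hcx : pdir (sqP 0) c = pdir (sqP 0) (c - 1) + 1 := by
    rw [hd c (by omega), hd (c - 1) (by omega)]
    interval_cases c <;> decide
  have hB := hu.hb (E6.dir r) (fwk b (4 * n)) (fwη b)
  have hu' := hu.sh hn hp hsn hc
  have rot := rotE hn hp hs0 hsn hc hc4 hcx hB
  have okX := hO s (Or.inr hs) _ (nm_dir' r) b τ hB
  have okX' := hO' 0 (Or.inl rfl) _ (nm_dir' r) b _ (hu'.hb (E6.dir r) (fwk b (4 * n)) (fwη b))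
  have hfl : τ (4 * n) = τ (4 * n - 1) := rot.flat
  have flat := flat_fE (S₀ := sqS) hev hp hs0 hsn hB hfl (by rw [hd 0 (by norm_num)]; rfl) hpar
  have hF : Fwc (fE (sqP 0) sqS n s (E6.dir r) b τ) := fwc_fE (Or.inl hfl)
  have hF' := rot.fwc' okX.bd.per hF
  have e1 := HL n hn2 s (E6.dir r) (fwk b (4 * n)) τ (fwη b) hs0 hsn okX flat
  have e2 := HU n hn1 _ okX' (rot.typ' okX.bd.per) (fun h h' => by
    rcases rot.kX' with h3 | h3 <;> omega)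
  have e3 := eX_lam h0 h1 hp (sq_encl 0) hn hu r b
  have e4 := eX_lam h0 h1 hp' (encl_sh (sq_encl 0) c) hn hu' r b
  have e5 := lam_base h0 h1 (fwk_or b (4 * n)) (isPolygon_qN hn hp s)
    (isPolygon_qN hn hp' 0) (encloses_qN hn hp (sq_encl 0) s)
    (encloses_qN hn hp' (encl_sh (sq_encl 0) c) 0) (E6.dir r)
  rw [← e3, ← e4] at e5
  have e6 := (le_abs_self _).trans e2
  refine rot.down h0 h1 hC okX okX' hF hF' hN (B := (2 * Real.cos θ) ^ 2 * C / c') (by positivity)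
    (card_sp_mx okX hσ hσn) ?_
  rw [div_mul_eq_mul_div, le_div_iff₀ hc', mul_comm]
  refine e1.trans (e5.trans ?_)
  rw [mul_assoc]
  exact mul_le_mul_of_nonneg_left e6 (by positivity)

end Vale.Agent.P167.H852.Q.Lx
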