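import Vale.Agent.P167.H852.Q.Lx6

/-!
# P167, general `q`, block Q-LAM: the factors at a flat base: every polygon
-/

namespace Vale.Agent.P167.H852.Q.Lx

open Finset Filter Topology Vale.Agent.P167.BR Vale.Agent.P167.FK
open Vale.Agent.P167.E6 (IsPolygon Encloses)
open Vale.Agent.P167.Enl (PN qN isPolygon_qN encloses_qN PN_succ pdir_add)
open Vale.Agent.P167.H825 (enl pdir tn dirOf)
open Vale.Agent.P167.H718.Lam
open Vale.Agent.P167.H601.LG
open Vale.Agent.P167.H975 (SameT)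
open Vale.Agent.P167.H192.Q (SRSW)
open Vale.Agent.P167.H318.LC (HB q_nat vec_tau sqP sqS sq_poly sq_encl sq_pdir)

theorem even_diff {u v : ℤ × ℤ} (h : Even (u.1 + u.2) ↔ Even (v.1 + v.2)) :
    Even ((v - u).1 + (v - u).2) := by
  have e : (v - u).1 + (v - u).2 = (v.1 + v.2) - (u.1 + u.2) := by
    rw [Prod.fst_sub, Prod.snd_sub]
    ring
  rw [e, Int.even_sub]
  exact h.symm

section

variable {l n s c : ℕ} {p : ZMod l → ℤ × ℤ} {S₀ : Finset (ℤ × ℤ)} {a : ℤ × ℤ} {τ : ℕ → ℤ} {b : Bool}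

theorem q_zero_par (hn : Even n) (hp : IsPolygon p) (hs0 : 0 < s) (hs : s < n)
    (hd : pdir p 0 = 0) :
    Even (((fE p S₀ n s a b τ).q ((0 : ℕ) : ZMod (l * n))).1 +
      ((fE p S₀ n s a b τ).q ((0 : ℕ) : ZMod (l * n))).2) ↔ Even ((s : ℤ) + (a.1 + a.2)) := by
  have h2 : (fE p S₀ n s a b τ).q ((0 : ℕ) : ZMod (l * n)) = PN p n (0 + s) + a :=
    q_nat (S₀ := S₀) (a := a) (k := fwk b (l * n)) (τ := τ) (η := fwη b) (by omega) hp 0
  rw [h2, zero_add, even_PN hn s (Or.inl ⟨Nat.div_eq_of_lt hs, hd⟩), Nat.mod_eq_of_lt hs]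

theorem q_corner_par (hn : Even n) (hn0 : 0 < n) (hp : IsPolygon p) (hcs : s ≤ c * n) :
    Even (((fE p S₀ n s a b τ).q ((c * n - s : ℕ) : ZMod (l * n))).1 +
      ((fE p S₀ n s a b τ).q ((c * n - s : ℕ) : ZMod (l * n))).2) ↔ Even (a.1 + a.2) := by
  have h2 : (fE p S₀ n s a b τ).q ((c * n - s : ℕ) : ZMod (l * n)) = PN p n (c * n - s + s) + a :=
    q_nat (S₀ := S₀) (a := a) (k := fwk b (l * n)) (τ := τ) (η := fwη b) hn0 hp _
  rw [h2, Nat.sub_add_cancel hcs, even_PN hn _ (Or.inr (Nat.mul_mod_left _ _)),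
    Nat.mul_mod_left, Nat.cast_zero, zero_add]

theorem q_zero_par' (hn : Even n) (hn0 : 0 < n) (hp : IsPolygon p) :
    Even (((fE p S₀ n 0 a b τ).q ((0 : ℕ) : ZMod (l * n))).1 +
      ((fE p S₀ n 0 a b τ).q ((0 : ℕ) : ZMod (l * n))).2) ↔ Even (a.1 + a.2) := by
  have h2 : (fE p S₀ n 0 a b τ).q ((0 : ℕ) : ZMod (l * n)) = PN p n (0 + 0) + a :=
    q_nat (S₀ := S₀) (a := a) (k := fwk b (l * n)) (τ := τ) (η := fwη b) hn0 hp 0
  rw [h2, even_PN hn _ (Or.inr (Nat.zero_mod _)), Nat.zero_mod, Nat.cast_zero, zero_add]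

theorem div_base (hn : 0 < n) (hs0 : 0 < s) (hs : s < n) (hl : 0 < l) :
    (0 + l * n - 1 + s) / n = 0 + l := by
  have h1 : 0 < l * n := by positivity
  rw [show 0 + l * n - 1 + s = (s - 1) + l * n by omega, Nat.add_mul_div_right _ _ hn,
    Nat.div_eq_of_lt (by omega)]

theorem div_corner (hn : 0 < n) (hcs : s ≤ c * n) (hc : 1 ≤ c) (hl : 0 < l) :
    (c * n - s + l * n - 1 + s) / n = c - 1 + l := by
  obtain ⟨c', rfl⟩ : ∃ c', c = c' + 1 := ⟨c - 1, by omega⟩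
  have hln : 0 < l * n := by positivity
  have h1 : (c' + 1) * n - s + l * n - 1 + s = (n - 1) + (c' + l) * n := by
    have h2 : (c' + 1) * n = c' * n + n := by ring
    have h3 : (c' + l) * n = c' * n + l * n := by ring
    omega
  rw [h1, Nat.add_mul_div_right _ _ hn, Nat.div_eq_of_lt (by omega)]
  omega

theorem div_last (hn : 0 < n) (hl : 0 < l) : (0 + l * n - 1 + 0) / n = l - 1 := by
  obtain ⟨l', rfl⟩ : ∃ l', l = l' + 1 := ⟨l - 1, by omega⟩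
  have h1 : 0 + (l' + 1) * n - 1 + 0 = (n - 1) + l' * n := by
    have h2 : (l' + 1) * n = l' * n + n := by ring
    omega
  rw [h1, Nat.add_mul_div_right _ _ hn, Nat.div_eq_of_lt (by omega)]
  omega

end

theorem fin_aux {x y x' y' z z' C : ℝ} (hC : 0 ≤ C) (m1 : x ≤ 2 * x') (m2 : y ≤ 2 * y')
    (py : 0 ≤ y) (px : 0 ≤ x') (m4 : x' * y' ≤ C * z) (m3 : z ≤ 2 * z') :
    x * y ≤ 8 * C * z' := by
  have a1 : x * y ≤ 2 * x' * (2 * y') := mul_le_mul m1 m2 py (by positivity)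
  have a2 : C * z ≤ C * (2 * z') := mul_le_mul_of_nonneg_left m3 hC
  linarith

/-- **The factors at a flat base, for every polygon**, from the square. -/
theorem flat_loc {θ : ℝ} (h0 : 0 < θ) (h1 : θ ≤ Real.pi / 3) {K : ℝ} (hK : 1 ≤ K) (hC : CmpT θ K)
    {tp σ R : ℝ} (ht0 : 0 < tp) (ht1 : tp < 1) (hσ : 0 < σ) {l : ℕ} {p : ZMod l → ℤ × ℤ}
    {S₀ : Finset (ℤ × ℤ)} (hp : IsPolygon p) (hd0 : pdir p 0 = 0) {c : ℕ} (hc : 1 ≤ c)
    (hcl : c ≤ l) (hcx : pdir p c = pdir p (c - 1) + 1) {d : ℕ} (hd : 1 ≤ d) (hd4 : d ≤ 4)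
    (hout : pdir (sqP 0) d = pdir p c) (oX : OkE tp p S₀ σ R)
    (oX' : OkE tp (fun i => p (i + (c : ZMod l))) S₀ σ R) (oY : OkE tp (sqP 0) sqS σ R)
    (oY' : OkE tp (fun i => sqP 0 (i + (d : ZMod 4))) sqS σ R)
    (hsq : ∃ ρ₀ : ℝ, 0 < ρ₀ ∧ ∀ ρ : ℝ, 0 < ρ → ρ ≤ ρ₀ → BLoc θ tp ρ (sqP 0) sqS d) :
    ∃ ρ₀ : ℝ, 0 < ρ₀ ∧ ∀ ρ : ℝ, 0 < ρ → ρ ≤ ρ₀ → BLoc θ tp ρ p S₀ c := by
  obtain ⟨ρ1, hρ1, HS⟩ := hsq
  obtain ⟨ρ3, hρ3, HN⟩ := exists_nums hσ hK
  refine ⟨min ρ1 ρ3, lt_min hρ1 hρ3, fun ρ hρ hρ' => ?_⟩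
  obtain ⟨C, hC0, HS⟩ := HS ρ hρ (hρ'.trans (min_le_left _ _))
  have HN := HN ρ hρ (hρ'.trans (min_le_right _ _))
  refine ⟨8 * C, by positivity, ?_⟩
  filter_upwards [oX, oX', oY, oY', HN, pos_base ht0 ht1, HS]
    with n oX oX' oY oY' HN hpos HS hev s hs r b τ hu hpar
  obtain ⟨hs0, hsn⟩ := hpos s hs
  obtain ⟨hσn, R', hN⟩ := HN
  have hn : 0 < n := by omega
  have hl := hp.1
  have hq := sq_poly 0
  have hsd : ∀ i < 5, pdir (sqP 0) i = 0 + Fin.ofNat 4 i := sq_pdir 0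
  have hs00 : pdir (sqP 0) 0 = 0 := hsd 0 (by norm_num)
  have hsx : pdir (sqP 0) d = pdir (sqP 0) (d - 1) + 1 := by
    rw [hsd d (by omega), hsd (d - 1) (by omega)]
    interval_cases d <;> decide
  have hin : pdir (sqP 0) (d - 1) = pdir p (c - 1) := by
    have : pdir (sqP 0) (d - 1) + 1 = pdir p (c - 1) + 1 := by rw [← hsx, ← hcx, hout]
    exact add_right_cancel this
  obtain ⟨τY, hv⟩ := H871.exists_bd (isPolygon_qN hn hq s) (encloses_qN hn hq (sq_encl 0) s)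
  have hv : HB0 (sqP 0) sqS n s τY := hv
  have hB := hu.hb (E6.dir r) (fwk b (l * n)) (fwη b)
  have hBY := hv.hb (E6.dir r) (fwk b (4 * n)) (fwη b)
  have hB' := (hu.sh hn hp hsn hc).hb (E6.dir r) (fwk b (l * n)) (fwη b)
  have hBY' := (hv.sh hn hq hsn hd).hb (E6.dir r) (fwk b (4 * n)) (fwη b)
  have rX := rotE hn hp hs0 hsn hc hcl hcx hB
  have rY := rotE hn hq hs0 hsn hd hd4 hsx hBY
  have okX := oX s (Or.inr hs) _ (nm_dir' r) b τ hB
  have okX' := oX' 0 (Or.inl rfl) _ (nm_dir' r) b _ hB'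
  have okY := oY s (Or.inr hs) _ (nm_dir' r) b τY hBY
  have okY' := oY' 0 (Or.inl rfl) _ (nm_dir' r) b _ hBY'
  have fX : Fwc (fE p S₀ n s (E6.dir r) b τ) := fwc_fE (Or.inl rX.flat)
  have fY : Fwc (fE (sqP 0) sqS n s (E6.dir r) b τY) := fwc_fE (Or.inl rY.flat)
  have fX' := rX.fwc' okX.bd.per fX
  have fY' := rY.fwc' okY.bd.per fY
  have hcn : s < c * n := lt_of_lt_of_le hsn (Nat.le_mul_of_pos_left n hc)
  have hdn : s < d * n := lt_of_lt_of_le hsn (Nat.le_mul_of_pos_left n hd)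
  have hcl' : c * n ≤ l * n := Nat.mul_le_mul_right n hcl
  have hdl' : d * n ≤ 4 * n := Nat.mul_le_mul_right n hd4
  -- the base
  have s1 : SameT (l * n) (fwk b (l * n)) τ 0 (4 * n) (fwk b (4 * n)) τY 0 :=
    same_fE hn hp hq hB hBY (by omega) (by omega) Iff.rfl
      (by rw [zero_add, Nat.div_eq_of_lt hsn, hd0, hs00])
      (by rw [div_base hn hs0 hsn (by omega), div_base hn hs0 hsn (by omega), pdir_add, pdir_add,
        hd0, hs00])
  have m1 := (hC okX okY fX fY rfl hN.r1 hN.Kr hN.n3 hN.n4 rX.zero_mem rY.zero_mem s1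
    (even_diff ((q_zero_par hev hp hs0 hsn hd0).trans (q_zero_par hev hq hs0 hsn hs00).symm))).1
  -- the corner
  have s2 : SameT (l * n) (fwk b (l * n)) τ (c * n - s) (4 * n) (fwk b (4 * n)) τY (d * n - s) :=
    same_fE hn hp hq hB hBY (by omega) (by omega) (by omega)
      (by rw [Nat.sub_add_cancel hcn.le, Nat.sub_add_cancel hdn.le, Nat.mul_div_cancel _ hn,
        Nat.mul_div_cancel _ hn, hout])
      (by rw [div_corner hn hcn.le hc (by omega), div_corner hn hdn.le hd (by norm_num), pdir_add, pdir_add, hin])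
  have m2 := (hC okX okY fX fY rfl hN.r1 hN.Kr hN.n3 hN.n4 rX.i0_mem rY.i0_mem s2
    (even_diff ((q_corner_par hev hn hp hcn.le).trans (q_corner_par hev hn hq hdn.le).symm))).1
  -- the corner as a base
  have s3 : SameT (4 * n) (fwk b (4 * n)) (fun m => τY (m + (d * n - s))) 0 (l * n)
      (fwk b (l * n)) (fun m => τ (m + (c * n - s))) 0 :=
    same_fE hn (poly_sh hq d) (poly_sh hp c) hBY' hB' (by omega) (by omega) Iff.rfl
      (by rw [Nat.zero_add, Nat.zero_div, pdir_sh, pdir_sh, zero_add, zero_add, hout])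
      (by rw [div_last hn (by norm_num), div_last hn (by omega), pdir_sh, pdir_sh,
        show 4 - 1 + d = d - 1 + 4 by omega, show l - 1 + c = c - 1 + l by omega, pdir_add,
        pdir_add, hin])
  have m3 := (hC okY' okX' fY' fX' rfl hN.r1 hN.Kr hN.n3 hN.n4 rY.zero_mem' rX.zero_mem' s3
    (even_diff ((q_zero_par' hev hn (poly_sh hq d)).trans
      (q_zero_par' hev hn (poly_sh hp c)).symm))).1
  have m4 := HS hev s hs r b τY hv hpar
  have p1 := eT_nonneg h0 h1 okX fX hN.s3 hN.s4 rX.i0_mem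
  have p2 := eT_nonneg h0 h1 okY fY hN.s3 hN.s4 rY.zero_mem
  exact fin_aux hC0.le m1 m2 p1 p2 m4 m3

end Vale.Agent.P167.H852.Q.Lx
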