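import Vale.Agent.P167.H852.Q.Lx7
import Vale.Agent.P167.H718.Lam.Asm7
import Vale.Agent.P167.H167.Q.ExSp
import Vale.Agent.P167.H852.Q.Mom

/-!
# P167, general `q`, block Q-LAM: the mean value of the local products, flat base
-/

namespace Vale.Agent.P167.H852.Q.Lx

open Finset Filter Topology Vale.Agent.P167.BR Vale.Agent.P167.FK
open Vale.Agent.P167.E6 (IsPolygon Encloses)
open Vale.Agent.P167.Enl (PN qN isPolygon_qN encloses_qN PN_succ pdir_add)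
open Vale.Agent.P167.H825 (enl pdir tn dirOf)
open Vale.Agent.P167.H825.Q (Bc)
open Vale.Agent.P167.H718 (Dob lam)
open Vale.Agent.P167.H718.Lam
open Vale.Agent.P167.H601.LG
open Vale.Agent.P167.H975 (SameT TX)
open Vale.Agent.P167.H192.Q (SRSW)
open Vale.Agent.P167.H318.LC (HB q_nat vec_tau sqP sqS sq_poly sq_encl sq_pdir)

section

variable {l n s : ℕ} {p : ZMod l → ℤ × ℤ} {S₀ : Finset (ℤ × ℤ)} {a : ℤ × ℤ} {τ : ℕ → ℤ} {b : Bool}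

/-- Free or wired, base at the corner `p 0`. -/
def fwU {l : ℕ} (p : ZMod l → ℤ × ℤ) (S₀ : Finset (ℤ × ℤ)) (b : Bool) : Uni :=
  ⟨l, p, S₀, if b = true then Bc.wired else Bc.free, 0⟩

theorem fwU_t (n : ℕ) : (fwU p S₀ b).t n = 0 := t_zero rfl n

theorem fwU_k (n : ℕ) : (fwU p S₀ b).k n = fwk b (l * n) := by
  cases b <;> rfl

theorem fwU_q (n : ℕ) : (fwU p S₀ b).q n = qN p n 0 := by
  show qN p n ((fwU p S₀ b).t n) = qN p n 0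
  rw [fwU_t]

theorem fwU_pg (n : ℕ) (a : ℤ × ℤ) (τ : ℕ → ℤ) :
    (fwU p S₀ b).pg n a τ (fwη b) = fE p S₀ n 0 a b τ := by
  show (⟨l * n, fun i => (fwU p S₀ b).q n i + a, (enl S₀ n).image (· + a), (fwU p S₀ b).k n, τ,
    fwη b⟩ : Pg) = ⟨l * n, fun i => qN p n 0 i + a, (enl S₀ n).image (· + a), fwk b (l * n), τ,
    fwη b⟩
  rw [fwU_q, fwU_k]

theorem fwU_ok (hp : IsPolygon p) (hS : Encloses p S₀) (h : pdir p 0 = pdir p (l - 1) + 1) :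
    (fwU p S₀ b).Ok := by
  refine ⟨hp, hS, ?_⟩
  cases b
  · exact ⟨rfl, h⟩
  · exact ⟨rfl, h⟩

theorem fwU_st (hp : IsPolygon p) (hS : Encloses p S₀) (hn : 0 < n) (hu : HB0 p S₀ n 0 τ)
    (r : Fin 4) : (fwU p S₀ b).St n (E6.dir r) τ (fwη b) := by
  refine ⟨Or.inr ⟨r, rfl⟩, ?_, ?_⟩
  · show H871.Bd ((enl S₀ n : Finset (ℤ × ℤ)) : Set (ℤ × ℤ)) (l * n)
      (fun i => (fwU p S₀ b).q n (i : ZMod (l * n))) τ 1
    rw [fwU_q]
    exact hu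
  · show Dob (fwη b) ((enl S₀ n).image (· + E6.dir r)) (fun i => (fwU p S₀ b).q n i + E6.dir r)
      ((fwU p S₀ b).k n)
    rw [fwU_q, fwU_k]
    exact (fw_dob hp hS hn (m₀ := 0) (by omega) 0 (E6.dir r) b).1

end

theorem lam_pos' {θ : ℝ} (h0 : 0 < θ) (h1 : θ ≤ Real.pi / 3) {N : ℕ} {q : ZMod N → ℤ × ℤ}
    {D : Finset (ℤ × ℤ)} (hq : IsPolygon q) (hD : Encloses q D) (k : ℕ) (a : ℤ × ℤ) :
    0 < lam θ ((θ - Real.pi) / 2) q D k a := by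
  have hs := sin_pos' h0 h1
  have hc : 0 < Real.cos θ := by have := tcos_pos h0 h1; linarith
  exact div_pos (H718.ZQ_stag_pos hq hD hs.ne' hc (gau2 θ) hs)
    (H718.ZQ_stag_pos (H718.poly_add hq a) (H718.encl_add hD a) hs.ne' hc (gau2 θ) hs)

/-- **The products of the local expectations**, flat base. -/
theorem prod_lam {θ : ℝ} (h0 : 0 < θ) (h1 : θ ≤ Real.pi / 3) {K : ℝ} (hK : 1 ≤ K) (hC : CmpT θ K)
    {tp σ R : ℝ} (ht0 : 0 < tp) (ht1 : tp < 1) (hσ : 0 < σ) {l : ℕ} {p : ZMod l → ℤ × ℤ}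
    {S₀ : Finset (ℤ × ℤ)} (hp : IsPolygon p) (hS : Encloses p S₀) {c : ℕ} (hc : 1 ≤ c)
    (hcl : c ≤ l) (hcx : pdir p c = pdir p (c - 1) + 1) (oX : OkE tp p S₀ σ R)
    (oX' : OkE tp (fun i => p (i + (c : ZMod l))) S₀ σ R)
    (hB : ∃ ρ₀ : ℝ, 0 < ρ₀ ∧ ∀ ρ : ℝ, 0 < ρ → ρ ≤ ρ₀ → BLoc θ tp ρ p S₀ c)
    (hL : ∀ b, LamP θ (fwU (fun i => p (i + (c : ZMod l))) S₀ b)) :
    ∃ ρ₀ : ℝ, 0 < ρ₀ ∧ ∀ ρ : ℝ, 0 < ρ → ρ ≤ ρ₀ → ∃ C : ℝ, 0 < C ∧ ∀ᶠ n : ℕ in atTop, Even n →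
      ∀ s : ℕ, |(s : ℝ) - tp * n| ≤ 2 → ∀ (r : Fin 4) (b : Bool) (τ : ℕ → ℤ), HB0 p S₀ n s τ →
      (Even ((s : ℤ) + ((E6.dir r).1 + (E6.dir r).2)) ↔ b = true) →
      ∏ j ∈ (fE p S₀ n s (E6.dir r) b τ).sp, (fE p S₀ n s (E6.dir r) b τ).eT θ j ⌊ρ * n⌋ ≤
        C * lam θ ((θ - Real.pi) / 2) (qN p n s) (enl S₀ n) (fwk b (l * n)) (E6.dir r) := by
  obtain ⟨ρ1, hρ1, HB⟩ := hB
  obtain ⟨ρ2, hρ2, HF⟩ := hL false
  obtain ⟨ρ3, hρ3, HW⟩ := hL true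
  obtain ⟨ρ4, hρ4, HN⟩ := exists_nums hσ hK
  refine ⟨min (min ρ1 ρ2) (min ρ3 ρ4), lt_min (lt_min hρ1 hρ2) (lt_min hρ3 hρ4),
    fun ρ hρ hρ' => ?_⟩
  obtain ⟨C1, hC1, HB⟩ := HB ρ hρ (hρ'.trans ((min_le_left _ _).trans (min_le_left _ _)))
  obtain ⟨C2, hC2, HF⟩ := HF ρ hρ (hρ'.trans ((min_le_left _ _).trans (min_le_right _ _)))
  obtain ⟨C3, hC3, HW⟩ := HW ρ hρ (hρ'.trans ((min_le_right _ _).trans (min_le_left _ _)))
  have HN := HN ρ hρ (hρ'.trans ((min_le_right _ _).trans (min_le_right _ _)))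
  have hc2 := tcos_pos h0 h1
  refine ⟨C1 * 2 ^ mx σ R * (max C2 C3 * (2 * Real.cos θ) ^ 2), by positivity, ?_⟩
  filter_upwards [oX, oX', HN, pos_base ht0 ht1, HB, HF, HW]
    with n oX oX' HN hpos HB HF HW hev s hs r b τ hu hpar
  obtain ⟨hs0, hsn⟩ := hpos s hs
  obtain ⟨hσn, R', hN⟩ := HN
  have hn : 0 < n := by omega
  have hp' := poly_sh hp c
  have hBd := hu.hb (E6.dir r) (fwk b (l * n)) (fwη b)
  have hu' := hu.sh hn hp hsn hc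
  have rX := rotE hn hp hs0 hsn hc hcl hcx hBd
  have okX := oX s (Or.inr hs) _ (nm_dir' r) b τ hBd
  have okX' := oX' 0 (Or.inl rfl) _ (nm_dir' r) b _ (hu'.hb (E6.dir r) (fwk b (l * n)) (fwη b))
  have fX : Fwc (fE p S₀ n s (E6.dir r) b τ) := fwc_fE (Or.inl rX.flat)
  have fX' := rX.fwc' okX.bd.per fX
  have e1 := rX.up h0 h1 hC okX okX' fX fX' hN hC1.le (card_sp_mx okX hσ hσn)
    (HB hev s hs r b τ hu hpar)
  have hlam0 : 0 ≤ lam θ ((θ - Real.pi) / 2) (qN (fun i => p (i + (c : ZMod l))) n 0) (enl S₀ n)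
      (fwk b (l * n)) (E6.dir r) :=
    (lam_pos' h0 h1 (isPolygon_qN hn hp' 0) (encloses_qN hn hp' (encl_sh hS c) 0) _ _).le
  have e2 : ∏ j ∈ (fE (fun i => p (i + (c : ZMod l))) S₀ n 0 (E6.dir r) b
        (fun m => τ (m + (c * n - s)))).sp, (fE (fun i => p (i + (c : ZMod l))) S₀ n 0 (E6.dir r) b
        (fun m => τ (m + (c * n - s)))).eT θ j ⌊ρ * n⌋ ≤
      max C2 C3 * lam θ ((θ - Real.pi) / 2) (qN (fun i => p (i + (c : ZMod l))) n 0) (enl S₀ n)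
        (fwk b (l * n)) (E6.dir r) := by
    cases b
    · have h2 := HF r _ _ (fwU_st hp' (encl_sh hS c) hn hu' r)
      rw [fwU_pg, fwU_q, fwU_k] at h2
      exact h2.trans (mul_le_mul_of_nonneg_right (le_max_left _ _) hlam0)
    · have h2 := HW r _ _ (fwU_st hp' (encl_sh hS c) hn hu' r)
      rw [fwU_pg, fwU_q, fwU_k] at h2
      exact h2.trans (mul_le_mul_of_nonneg_right (le_max_right _ _) hlam0)
  have e5 := lam_base h0 h1 (fwk_or b (l * n)) (isPolygon_qN hn hp' 0) (isPolygon_qN hn hp s)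
    (encloses_qN hn hp' (encl_sh hS c) 0) (encloses_qN hn hp hS s) (E6.dir r)
  refine e1.trans ?_
  rw [mul_assoc (C1 * 2 ^ mx σ R)]
  refine mul_le_mul_of_nonneg_left ?_ (by positivity)
  refine e2.trans ?_
  rw [mul_assoc]
  exact mul_le_mul_of_nonneg_left e5 (by positivity)

end Vale.Agent.P167.H852.Q.Lx
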