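import Vale.Agent.P167.H852.Q.Cls
import Vale.Agent.P167.H318.LC.Sp

/-!
# P167, general `q`: the polygons of a family as enlargements
-/

namespace Vale.Agent.P167.H852.Q

open Finset Filter Vale.Agent.P167.FK
open Vale.Agent.P167.E6 (IsPolygon Encloses)
open Vale.Agent.P167.Enl (PN qN qN_nat)
open Vale.Agent.P167.H825 (pdir)
open Vale.Agent.P167.H542.Q (BD)
open Vale.Agent.P167.H760.Q (BaseQ q_pos pb)

theorem pe_PN {l : ℕ} {p : ZMod l → ℤ × ℤ} (hp : IsPolygon p) (n m : ℕ) :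
    CL.pe p n m = PN p n m := by
  rw [CL.pe_eq, PN, Enl.pdir_step hp, add_sub_cancel_left]

theorem tr_aux {l n t N : ℕ} {p : ZMod l → ℤ × ℤ} (hp : IsPolygon p) (hn : 0 < n)
    {q : ZMod N → ℤ × ℤ} (h1 : N = n * l) (h2 : ∀ j : ℕ, q (j : ZMod N) = CL.pe p n (t + j))
    (P : ∀ N : ℕ, (ZMod N → ℤ × ℤ) → Prop) (hP : P (l * n) (qN p n t)) : P N q := by
  rw [mul_comm] at h1
  subst h1
  have hl : NeZero l := ⟨by have := hp.1; omega⟩
  have hln : NeZero (l * n) := ⟨by have := hp.1; positivity⟩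
  have e : q = qN p n t := funext fun i => by
    rw [← ZMod.natCast_zmod_val i, h2, qN_nat hn, pe_PN hp, add_comm]
  rw [e]
  exact hP

variable {S : CA.Dat} {θ β : ℝ}

/-- **The polygon of a family.** -/
theorem X_eq (X : BD S θ β) {s : ℕ → ℕ} (hb : BaseQ X s) : ∀ᶠ n : ℕ in X.L,
    0 < n ∧ ⌊S.tp * n⌋₊ + s n < n ∧ ∀ P : ∀ N : ℕ, (ZMod N → ℤ × ℤ) → Prop,
      P (S.l * n) (qN S.p n (⌊S.tp * n⌋₊ + s n)) → P (X.N n) (X.q n) := by
  have htp0 := S.tp0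
  have htp1 := S.tp1
  have hlarge : ∀ A : ℝ, ∀ᶠ n : ℕ in X.L, A ≤ n := fun A => X.le
    ((eventually_ge_atTop ⌈A⌉₊).mono fun n hn => (Nat.le_ceil A).trans (by exact_mod_cast hn))
  filter_upwards [X.poly, X.enc, hb.2, hlarge (2 / (1 - S.tp)), hlarge 1] with n a1 a2 a3 a4 a5
  have hn' : (0 : ℝ) < n := by linarith
  have hn : 0 < n := by exact_mod_cast hn'
  rw [div_le_iff₀ (by linarith)] at a4
  have ht1 : ((s n : ℕ) : ℝ) ≤ 1 := by exact_mod_cast hb.1 n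
  have hb1 : (⌊S.tp * n⌋₊ : ℝ) ≤ S.tp * n := Nat.floor_le (by positivity)
  have hlt : ⌊S.tp * n⌋₊ + s n < n := by
    have : ((⌊S.tp * n⌋₊ + s n : ℕ) : ℝ) < n := by push_cast; linarith
    exact_mod_cast this
  refine ⟨hn, hlt, fun P hP => ?_⟩
  obtain ⟨h1, h2⟩ := q_pos S hn a1 a2 hlt a3
  exact tr_aux S.poly hn h1 h2 P hP

end Vale.Agent.P167.H852.Q
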