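import Vale.Agent.P167.H852.Q.Lx8
import Vale.Agent.P167.H852.Q.LxT
import Vale.Agent.P167.H318.LC.Conv

/-!
# P167, general `q`, block Q-LAM: `LamT` for the free and the wired families
-/

namespace Vale.Agent.P167.H852.Q.Lx

open Finset Filter Topology Vale.Agent.P167.BR Vale.Agent.P167.FK
open Vale.Agent.P167.E6 (IsPolygon Encloses)
open Vale.Agent.P167.Enl (PN qN isPolygon_qN encloses_qN PN_succ pdir_add)
open Vale.Agent.P167.H825 (enl pdir tn dirOf)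
open Vale.Agent.P167.H825.Q (Bc)
open Vale.Agent.P167.H718 (Dob lam poly_add encl_add)
open Vale.Agent.P167.H718.Lam
open Vale.Agent.P167.H601.LG
open Vale.Agent.P167.H975 (SameT TX)
open Vale.Agent.P167.H192.Q (SRSW)
open Vale.Agent.P167.H318.LC (HB q_nat vec_tau sqP sqS sq_poly sq_encl sq_pdir exists_conv)
open Vale.Agent.P167.H542.Q (BD)
open Vale.Agent.P167.H760.Q (BaseQ pb)
open Vale.Agent.P167.H871 (Bd)

/-- The product of the local factors reads the domain. -/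
theorem TPs_on {θ β : ℝ} {N : ℕ} {q : ZMod N → ℤ × ℤ} {D : Finset (ℤ × ℤ)} {k : ℕ} {τ : ℕ → ℤ}
    {r : ℤ} (ω ω' : Cfg) (h : ∀ v ∈ D, ω v = ω' v) : TPs θ β q D k τ r ω = TPs θ β q D k τ r ω' := by
  classical
  unfold TPs
  exact prod_congr rfl fun j _ => TX_on _ _ _ ω ω' h

/-- **The mean value of the local factors** of an enlargement with a flat base. -/
theorem abs_lam {θ : ℝ} (h0 : 0 < θ) (h1 : θ ≤ Real.pi / 3) (hR : RSW (2 * Real.cos θ))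
    (hSR : SRSW (2 * Real.cos θ)) {K : ℝ} (hK : 1 ≤ K) {tp σ R : ℝ} (ht0 : 0 < tp) (ht1 : tp < 1)
    (hσ : 0 < σ) {l : ℕ} {p : ZMod l → ℤ × ℤ} {S₀ : Finset (ℤ × ℤ)} (hp : IsPolygon p)
    (hS : Encloses p S₀) (oX : OkE tp p S₀ σ R)
    (hL : ∃ ρ₀ : ℝ, 0 < ρ₀ ∧ ∀ ρ : ℝ, 0 < ρ → ρ ≤ ρ₀ → ∃ C : ℝ, 0 < C ∧ ∀ᶠ n : ℕ in atTop, Even n →
      ∀ s : ℕ, |(s : ℝ) - tp * n| ≤ 2 → ∀ (r : Fin 4) (b : Bool) (τ : ℕ → ℤ), HB0 p S₀ n s τ →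
      (Even ((s : ℤ) + ((E6.dir r).1 + (E6.dir r).2)) ↔ b = true) →
      ∏ j ∈ (fE p S₀ n s (E6.dir r) b τ).sp, (fE p S₀ n s (E6.dir r) b τ).eT θ j ⌊ρ * n⌋ ≤
        C * lam θ ((θ - Real.pi) / 2) (qN p n s) (enl S₀ n) (fwk b (l * n)) (E6.dir r)) :
    ∃ ρ₀ : ℝ, 0 < ρ₀ ∧ ∀ ρ : ℝ, 0 < ρ → ρ ≤ ρ₀ → ∃ C : ℝ, 0 < C ∧ ∀ᶠ n : ℕ in atTop, Even n →
      ∀ s : ℕ, |(s : ℝ) - tp * n| ≤ 2 → ∀ (r : Fin 4) (b : Bool) (τ : ℕ → ℤ), HB0 p S₀ n s τ →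
      (Even ((s : ℤ) + ((E6.dir r).1 + (E6.dir r).2)) ↔ b = true) → ∀ η : Cfg,
      Dob η ((enl S₀ n).image (· + E6.dir r)) (fun i => qN p n s i + E6.dir r) (fwk b (l * n)) →
      Ex (2 * Real.cos θ) ((enl S₀ n).image (· + E6.dir r)) η (fun ω =>
        |TPs θ ((θ - Real.pi) / 2) (fun i => qN p n s i + E6.dir r)
          ((enl S₀ n).image (· + E6.dir r)) (fwk b (l * n)) τ ⌊ρ * n⌋ ω|) ≤
        C * lam θ ((θ - Real.pi) / 2) (qN p n s) (enl S₀ n) (fwk b (l * n)) (E6.dir r) := by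
  classical
  obtain ⟨ρ1, hρ1, HL⟩ := hL
  obtain ⟨ρ2, hρ2, HE⟩ := H167.Q.ex_sp h0 h1 hR hSR σ R hσ
  obtain ⟨ρ3, hρ3, HN⟩ := exists_nums hσ hK
  refine ⟨min ρ1 (min ρ2 ρ3), lt_min hρ1 (lt_min hρ2 hρ3), fun ρ hρ hρ' => ?_⟩
  obtain ⟨C1, hC1, HL⟩ := HL ρ hρ (hρ'.trans (min_le_left _ _))
  obtain ⟨c2, C2, n₀, hc2', hC2, HE⟩ := HE ρ hρ (hρ'.trans ((min_le_right _ _).trans
    (min_le_left _ _)))
  have HN := HN ρ hρ (hρ'.trans ((min_le_right _ _).trans (min_le_right _ _)))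
  have hc2 := tcos_pos h0 h1
  refine ⟨C2 * C1, by positivity, ?_⟩
  filter_upwards [oX, HN, pos_base ht0 ht1, HL, eventually_ge_atTop n₀]
    with n oX HN hpos HL hn₀ hev s hs r b τ hu hpar η hη
  obtain ⟨hs0, hsn⟩ := hpos s hs
  obtain ⟨hσn, R', hN⟩ := HN
  have hn : 0 < n := by omega
  have hBd := hu.hb (E6.dir r) (fwk b (l * n)) (fwη b)
  have okX := oX s (Or.inr hs) _ (nm_dir' r) b τ hBd
  have hln : 0 < l * n := by have := hp.1; positivity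
  have hfl : τ (l * n) = τ (l * n - 1) := by
    by_contra hne
    obtain ⟨i, h3, -⟩ := (H318.LC.corner_iff hn hp hsn hBd hln).1 hne
    have h4 : s < (i + 1) * n := lt_of_lt_of_le hsn (Nat.le_mul_of_pos_left n (by omega))
    have h5 : l * n + s = (i + 1) * n := by omega
    have h6 : n ∣ s := (Nat.dvd_add_right ⟨l, mul_comm _ _⟩).1 (h5 ▸ ⟨i + 1, mul_comm _ _⟩)
    exact absurd (Nat.le_of_dvd hs0 h6) (by omega)
  have fX : Fwc (fE p S₀ n s (E6.dir r) b τ) := fwc_fE (Or.inl hfl)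
  have hT : ∀ j ∈ (fE p S₀ n s (E6.dir r) b τ).sp, ∀ ω,
      0 ≤ (fE p S₀ n s (E6.dir r) b τ).T θ j ⌊ρ * n⌋ ω := fun j hj ω =>
    T_nonneg h0 h1 okX fX hN.s3 hN.s4 hj ω
  have e1 := (HE n hn₀ _ okX hT).2
  have e2 := HL hev s hs r b τ hu hpar
  have e3 : Ex (2 * Real.cos θ) ((enl S₀ n).image (· + E6.dir r)) η (fun ω =>
        |TPs θ ((θ - Real.pi) / 2) (fun i => qN p n s i + E6.dir r)
          ((enl S₀ n).image (· + E6.dir r)) (fwk b (l * n)) τ ⌊ρ * n⌋ ω|) =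
      (fE p S₀ n s (E6.dir r) b τ).E θ (fun ω => ∏ j ∈ (fE p S₀ n s (E6.dir r) b τ).sp,
        (fE p S₀ n s (E6.dir r) b τ).T θ j ⌊ρ * n⌋ ω) := by
    rw [Ex_eta (poly_add (isPolygon_qN hn hp s) (E6.dir r))
      (encl_add (encloses_qN hn hp hS s) (E6.dir r)) okX.kle hη okX.dob hc2
      (fun ω ω' h => by rw [TPs_on ω ω' h])]
    have e4 : (fun ω => |TPs θ ((θ - Real.pi) / 2) (fun i => qN p n s i + E6.dir r)
          ((enl S₀ n).image (· + E6.dir r)) (fwk b (l * n)) τ ⌊ρ * n⌋ ω|) =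
        fun ω => ∏ j ∈ (fE p S₀ n s (E6.dir r) b τ).sp,
        (fE p S₀ n s (E6.dir r) b τ).T θ j ⌊ρ * n⌋ ω := by
      funext ω
      have e5 : TPs θ ((θ - Real.pi) / 2) (fun i => qN p n s i + E6.dir r)
          ((enl S₀ n).image (· + E6.dir r)) (fwk b (l * n)) τ ⌊ρ * n⌋ ω =
        ∏ j ∈ (fE p S₀ n s (E6.dir r) b τ).sp,
          (fE p S₀ n s (E6.dir r) b τ).T θ j ⌊ρ * n⌋ ω := rfl
      rw [e5, abs_of_nonneg (prod_nonneg fun j hj => hT j hj ω)]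
    rw [e4]
    rfl
  rw [e3, mul_assoc]
  exact e1.trans (mul_le_mul_of_nonneg_left e2 hC2.le)

end Vale.Agent.P167.H852.Q.Lx
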