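import Vale.Agent.P167.H562.Q.MQ1
import Vale.Agent.P167.H562.Q.MQ3
import Vale.Agent.P167.H542.Q.M2

/-!
# P167, general `q`, block Q-TWO: the majorant of the products over the pieces, one smooth charge

`bump_one`: the data of 562's `BumpsQ` for one neutral charge. `det_one`: the product of the weights over
a family of pieces is at most `3 ^ k * YQ * (product over the far strands)`.
-/

namespace Vale.Agent.P167.H852.Q

open Finset Filter Topology Relation Vale.Agent.P167.BR Vale.Agent.P167.FK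
open Vale.Agent.P167.H45 (vs_nonempty)
open Vale.Agent.P167.H167 (tot isSeg)
open Vale.Agent.P167.H562.SML
open Vale.Agent.P167.H562.MAJ (Sm sum_G mass_loop bigs nb1 near_site)
open Vale.Agent.P167.H562.QM (BumpsQ WtQ Far MajA YQ)

variable {ω : Cfg} {D Z Zb : Finset (ℤ × ℤ)} {p : ℤ × ℤ} {A : Finset Ed} {f : ℤ × ℤ → ℝ}
  {d b a M : ℝ}

/-- **One neutral charge.** -/
theorem bump_one (hZD : Z ⊆ D) (hZb : Z ⊆ Zb) (hE : ECon Z) (hED : ECon D) (hp : p ∈ sites D)
    (hW : ∀ (ω : Cfg), ∀ A ∈ pcs ω D, IsLp D A → W A p = 0)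
    (hsupp : ∀ z, f z ≠ 0 → z ∈ sites Z)
    (hnb : ∀ v ∈ Z, ∀ w, (nm (w - v) : ℝ) ≤ d + 1 → w ∈ D)
    (hb0 : 0 ≤ b) (hb : ∀ z, |f z| ≤ b) (hbd : b * d ^ 2 ≤ 1 / 2) (htot : tot D f = 0) :
    BumpsQ ({()} : Finset Unit) D p (fun _ => Z) (fun _ => Zb) (fun _ => f) (fun _ => d)
      (fun _ => True) := by
  have hconn : ∀ z ∈ sites Z, ReflTransGen (Ec D) z p := fun z hz =>
    hED z (sites_mono hZD hz) p hp
  refine ⟨fun _ _ => hZD, fun _ _ => hZb, fun _ _ => hE, fun _ _ => hsupp, fun _ _ => hnb,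
    fun _ _ ω ℓ h1 h2 => (H542.G_bound' hb0 hb h1 h2).trans hbd,
    fun i _ j _ hij => absurd rfl hij, fun ω A hA _ hl => hW ω A hA hl, fun _ _ => hconn,
    fun _ _ ω A hA _ hl hG => ?_⟩
  by_contra hV
  have hV' : ¬ Vz Z A := fun ⟨e, he, h⟩ => hV ⟨e, he, by
    rw [mem_eds] at h ⊢
    exact h.imp (fun h => hZb h) fun h => hZb h⟩
  have hL := BR.IsLp.isLoop hA hl
  have h1 := mass_loop (D := D) hL (hW ω A hA hl) (f := f) fun z hz =>
    ⟨sites_mono hZD (hsupp z hz), hconn z (hsupp z hz)⟩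
  have h2 : mass D p f A = 0 := by
    classical
    by_cases hf : ∃ z, f z ≠ 0
    · obtain ⟨z0, hz0⟩ := hf
      have hs0 := hsupp z0 hz0
      have key : ∀ z ∈ sites Z, (Sep D A z p ↔ Sep D A z0 p) := by
        intro z hz
        constructor
        · rintro ⟨u, hu, h⟩
          exact ⟨u, hu, by rwa [← pot_zone hu hZD hV' (hE z hz z0 hs0)]⟩
        · rintro ⟨u, hu, h⟩
          exact ⟨u, hu, by rwa [pot_zone hu hZD hV' (hE z hz z0 hs0)]⟩
      by_cases h : Sep D A z0 p
      · rw [← htot]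
        unfold mass tot
        refine sum_congr rfl fun z _ => ?_
        by_cases hfz : f z = 0
        · simp [hfz]
        · rw [if_pos ((key z (hsupp z hfz)).2 h)]
      · unfold mass
        refine sum_eq_zero fun z _ => ?_
        by_cases hfz : f z = 0
        · simp [hfz]
        · rw [if_neg (fun h' => h ((key z (hsupp z hfz)).1 h'))]
    · push Not at hf
      unfold mass
      exact sum_eq_zero fun z _ => by simp [hf z]
  exact hG (h1.symm.trans h2)

/-- The mass of a piece which does not visit the zone. -/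
theorem mass_zero (hZD : Z ⊆ D) (hE : ECon Z) (hsupp : ∀ z, f z ≠ 0 → z ∈ sites Z)
    (htot : tot D f = 0) (hV : ¬ Vz Z A) : mass D p f A = 0 := by
  classical
  by_cases hf : ∃ z, f z ≠ 0
  · obtain ⟨z0, hz0⟩ := hf
    have hs0 := hsupp z0 hz0
    have key : ∀ z ∈ sites Z, (Sep D A z p ↔ Sep D A z0 p) := by
      intro z hz
      constructor
      · rintro ⟨u, hu, h⟩
        exact ⟨u, hu, by rwa [← pot_zone hu hZD hV (hE z hz z0 hs0)]⟩
      · rintro ⟨u, hu, h⟩
        exact ⟨u, hu, by rwa [pot_zone hu hZD hV (hE z hz z0 hs0)]⟩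
    by_cases h : Sep D A z0 p
    · rw [← htot]
      unfold mass tot
      refine sum_congr rfl fun z _ => ?_
      by_cases hfz : f z = 0
      · simp [hfz]
      · rw [if_pos ((key z (hsupp z hfz)).2 h)]
    · unfold mass
      refine sum_eq_zero fun z _ => ?_
      by_cases hfz : f z = 0
      · simp [hfz]
      · rw [if_neg (fun h' => h ((key z (hsupp z hfz)).1 h'))]
  · push Not at hf
    unfold mass
    exact sum_eq_zero fun z _ => by simp [hf z]

/-- The number of the big pieces. -/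
theorem card_bigs {N : ℕ} (hN : MajA (fat Zb 1) d ω N) : (bigs D Zb d ω).card ≤ N := by
  classical
  refine hN _ (fun γ hγ => isSeg (Finset.mem_filter.1 hγ).1) ?_ ?_
  · intro γ hγ γ' hγ' hne
    rw [Finset.disjoint_left]
    intro e he he'
    exact hne (eq_of_mem_pcs (Finset.mem_filter.1 hγ).1 (Finset.mem_filter.1 hγ').1 he he')
  · intro γ hγ
    obtain ⟨-, ⟨e, he, h3⟩, h2⟩ := Finset.mem_filter.1 hγ
    refine ⟨⟨e, he, ?_⟩, ?_⟩
    · rcases mem_eds.1 h3 with h | h
      · exact mem_fat h (by simp [nm])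
      · refine mem_fat h ?_
        have := H945.nm_step e
        exact_mod_cast this
    · unfold Small at h2
      push Not at h2
      obtain ⟨u, hu, v, hv, h4⟩ := h2
      obtain ⟨e1, he1, rfl⟩ := Finset.mem_image.1 hu
      obtain ⟨e2, he2, rfl⟩ := Finset.mem_image.1 hv
      exact ⟨e1, he1, e2, he2, h4⟩

open Classical in
/-- **The deterministic majorant, one charge.** -/
theorem det_one (hB : BumpsQ ({()} : Finset Unit) D p (fun _ => Z) (fun _ => Zb) (fun _ => f)
    (fun _ => d) (fun _ => True)) (ha0 : 0 < a) (ha1 : a ≤ Real.pi / 3) (hM : 2 ≤ M)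
    {w : Finset Ed → ℝ} (hwl : ∀ A ∈ pcs ω D, IsLp D A → w A = H562.wt a (mass D p f A))
    (hwb : ∀ A ∈ pcs ω D, |w A| ≤ M) {T T' : Finset (Finset Ed)} (hTT : T ⊆ T')
    (hT : T' ⊆ pcs ω D)
    (hT' : ∀ A ∈ pcs ω D, IsLp D A → Small d A → G f A ≠ 0 → A ∈ T') {N : ℕ}
    (hN : (bigs D Zb d ω).card ≤ N) :
    ∏ A ∈ T, |w A| ≤ 3 ^ (T' \ T).card * (M ^ N * Real.exp (-(Real.tan a * Sm f d ω))) *
      ∏ A ∈ T.filter (fun A => ¬ IsLp D A ∧ ¬ (Vz Zb A ∧ ¬ Small d A)), |w A| := by
  have hM1 : 1 ≤ M := by linarith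
  set wf : Finset Ed → ℝ → ℝ := fun A t => if IsLp D A then H562.wt a t else
    max (-M) (min M (w A)) with hwf
  have hpi := Real.pi_pos
  have hca : 1 / 2 ≤ Real.cos a := by
    have h := Real.cos_le_cos_of_nonneg_of_le_pi ha0.le (by linarith) ha1
    rwa [Real.cos_pi_div_three] at h
  have hW : WtQ a M D wf := by
    refine ⟨ha0, ha1, hM1, fun A t hl => by simp only [hwf]; rw [if_pos hl], fun A t => ?_⟩
    simp only [hwf]
    split_ifs with hl
    · unfold H562.wt
      rw [abs_div, abs_of_pos (by linarith : 0 < Real.cos a), div_le_iff₀ (by linarith)]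
      have := Real.abs_cos_le_one (a + t)
      nlinarith
    · rw [abs_le]
      exact ⟨le_max_left _ _, max_le (by linarith) (min_le_left _ _)⟩
  have hmass : ∀ A : Finset Ed, mass D p (fun z => ∑ _j ∈ ({()} : Finset Unit), f z) A =
      mass D p f A := fun A => by simp only [sum_singleton]
  have hwe : ∀ A ∈ pcs ω D, wf A (mass D p (fun z => ∑ _j ∈ ({()} : Finset Unit), f z) A) = w A := by
    intro A hA
    rw [hmass]
    simp only [hwf]
    split_ifs with hl
    · exact (hwl A hA hl).symm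
    · have := abs_le.1 (hwb A hA)
      rw [min_eq_right this.2, max_eq_right this.1]
  have h := hB.maj_det (ω := ω) hW hTT hT (fun _ _ => trivial) (fun A hA hl _ _ hs hG =>
    hT' A hA hl hs hG)
  have e1 : ∏ A ∈ T, |wf A (mass D p (fun z => ∑ _j ∈ ({()} : Finset Unit), f z) A)| =
      ∏ A ∈ T, |w A| := prod_congr rfl fun A hA => by rw [hwe A (hT (hTT hA))]
  have e2 : ∏ A ∈ T.filter (Far ({()} : Finset Unit) D (fun _ => Zb) (fun _ => d)),
      |wf A (mass D p (fun z => ∑ _j ∈ ({()} : Finset Unit), f z) A)| =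
      ∏ A ∈ T.filter (fun A => ¬ IsLp D A ∧ ¬ (Vz Zb A ∧ ¬ Small d A)), |w A| := by
    refine prod_congr ?_ fun A hA => ?_
    · ext A
      rw [mem_filter, mem_filter]
      constructor
      · rintro ⟨h1, h2, h3⟩
        exact ⟨h1, h2, h3 () (mem_singleton_self _)⟩
      · rintro ⟨h1, h2, h3⟩
        exact ⟨h1, h2, fun _ _ => h3⟩
    · rw [hwe A (hT (hTT (mem_filter.1 hA).1))]
  rw [e1, e2, prod_singleton] at h
  refine h.trans (mul_le_mul_of_nonneg_right (mul_le_mul_of_nonneg_left ?_ (by positivity))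
    (prod_nonneg fun _ _ => abs_nonneg _))
  -- the sum over the small loops
  have hsm : ∑ ℓ ∈ smf (nb1 (fun _ : Unit => Z) (fun _ => d) ()) d ω, G f ℓ = Sm f d ω := by
    have hs := hB.supp () (mem_singleton_self _)
    refine sum_G (F := sites Z) (fun s h => hs s h) (fun s h v hv => ?_) ω
    obtain ⟨u, hu, h1⟩ := near_site (hs s h)
    refine mem_fat hu ?_
    have h2 := H562.MAJ.nm_tri v s u
    have h3 : (nm (v - u) : ℝ) ≤ nm (v - s) + nm (s - u) := by exact_mod_cast h2
    have h4 : (nm (s - u) : ℝ) ≤ 1 := by exact_mod_cast h1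
    linarith
  rw [hsm]
  exact mul_le_mul_of_nonneg_right (pow_le_pow_right₀ hM1 hN) (Real.exp_pos _).le

end Vale.Agent.P167.H852.Q
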