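import Vale.Agent.P167.H852.Q.Y1
import Vale.Agent.P167.H760.Q.Maj

/-!
# P167, general `q`, block Q-TWO: majorants of the natural functionals (`MajN`)
-/

namespace Vale.Agent.P167.H852.Q

open Finset Filter Topology Relation Vale.Agent.P167.BR Vale.Agent.P167.FK
open Vale.Agent.P167.E6 (IsPolygon Encloses)
open Vale.Agent.P167.H45 (vs_nonempty)
open Vale.Agent.P167.H167 (tot isSeg)
open Vale.Agent.P167.H562.SML
open Vale.Agent.P167.H562.MAJ (Sm sum_G bigs near_site fsum_eq)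
open Vale.Agent.P167.H562.QM (BumpsQ MajA YQ YQ_mom Nr oneC_sub)
open Vale.Agent.P167.H436 (ero mem_ero ero_sub econ_ero econ_enl cells_conn mem_enl)
open Vale.Agent.P167.H542.Q (BD cB cB_pos)
open Vale.Agent.P167.H365.NQ (XW TW)
open Vale.Agent.P167.H718 (Dob wn wn' wn_eq IsCl)
open Vale.Agent.P167.H760.Q (MajY Fp MajN)
open Vale.Agent.P167.CA (cms)
open Vale.Agent.P167.QX (wB wB_zero wQ wQ_strand stag)

/-! ### the weights -/

section

variable {θ β : ℝ} {n k : ℕ} {q : ZMod n → ℤ × ℤ} {D : Finset (ℤ × ℤ)} {ω : Cfg} {A : Finset Ed}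
  {f : ℤ × ℤ → ℝ}

theorem abs_wB_le (h0 : 0 < θ) (h1 : θ ≤ Real.pi / 3) (hβ : Real.cos (θ / 2 + β) = Real.sin θ)
    (A : Finset Ed) (t : ℝ) : |wB θ β q D k A t| ≤ (cB θ)⁻¹ := by
  rw [← H542.Q.wR_thB hβ]
  unfold H542.Q.wR
  have h2 := (H542.Q.phs_thB (q := q) (D := D) (k := k) h0 h1 hβ).cs A
  have h3 := cB_pos h0 h1
  rw [abs_div, abs_of_pos (lt_of_lt_of_le h3 h2), div_eq_inv_mul]
  calc _ ≤ (cB θ)⁻¹ * 1 := mul_le_mul (inv_anti₀ h3 h2) (Real.abs_cos_le_one _) (abs_nonneg _)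
        (inv_nonneg.2 h3.le)
    _ = _ := mul_one _

theorem abs_wn_le (h0 : 0 < θ) (h1 : θ ≤ Real.pi / 3) (hβ : Real.cos (θ / 2 + β) = Real.sin θ)
    (hq : IsPolygon q) (hD : Encloses q D) (hA : A ∈ pcs ω D) :
    |wn θ β q D k f A| ≤ (cB θ)⁻¹ := by
  have hpi := Real.pi_pos
  rw [wn_eq hq hD (Real.sin_pos_of_pos_of_lt_pi h0 (by linarith)).ne'
    (Real.cos_pos_of_mem_Ioo ⟨by linarith, by linarith⟩) hβ hA]
  exact abs_wB_le h0 h1 hβ A _

theorem abs_wn'_le (h0 : 0 < θ) (h1 : θ ≤ Real.pi / 3) (hβ : Real.cos (θ / 2 + β) = Real.sin θ)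
    (hq : IsPolygon q) (hD : Encloses q D) (hA : A ∈ pcs ω D) :
    |wn' θ β q D k f A| ≤ (cB θ)⁻¹ := by
  classical
  have hpi := Real.pi_pos
  have hs : 0 < Real.sin θ := Real.sin_pos_of_pos_of_lt_pi h0 (by linarith)
  have hc : 0 < Real.cos θ := Real.cos_pos_of_mem_Ioo ⟨by linarith, by linarith⟩
  have hc1 : 1 ≤ 2 * Real.cos θ := by
    have h := Real.cos_le_cos_of_nonneg_of_le_pi h0.le (by linarith) h1
    rw [Real.cos_pi_div_three] at h
    linarith
  have h3 := cB_pos h0 h1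
  have h4 : 2 * cB θ ≤ |wQ θ q D (stag θ β q k) A 0| := by
    by_cases hl : IsLp D A
    · unfold wQ
      rw [if_pos hl, add_zero, abs_of_pos (by positivity)]
      have : cB θ ≤ Real.cos θ := min_le_left _ _
      linarith
    · rw [wQ_strand hq hD hA hl hs.ne' hc.ne', wB_zero hs.ne' hc.ne' hβ, mul_one]
      have : cB θ ≤ Real.sin θ := (min_le_right _ _).trans (min_le_left _ _)
      split_ifs
      · rw [abs_of_pos (by positivity)]
        nlinarith
      · rw [mul_one, abs_of_pos (by positivity)]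
        linarith
  have h5 : |H718.Wt' θ q D (stag θ β q k) f A| ≤ 2 := by
    unfold H718.Wt' H718.wQ'
    split_ifs
    · rw [abs_mul, abs_of_pos (by norm_num : (0 : ℝ) < 2)]
      have := Real.abs_sin_le_one (θ + mass D (q 0) f A)
      linarith
    · rw [abs_mul, abs_of_pos (by norm_num : (0 : ℝ) < 2)]
      have := Real.abs_sin_le_one (θ / 2 + stag θ β q k (QX.hi q A) - stag θ β q k (QX.lo q A) +
        mass D (q 0) f A)
      linarith
  unfold wn'
  rw [abs_div, div_le_iff₀ (by linarith)]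
  calc _ ≤ (2 : ℝ) := h5
    _ = (cB θ)⁻¹ * (2 * cB θ) := by field_simp
    _ ≤ _ := mul_le_mul_of_nonneg_left h4 (inv_nonneg.2 h3.le)

end

/-! ### geometry -/

variable {S : CA.Dat} {θ β : ℝ}

/-- A square outside of the domain next to a flat boundary site. -/
theorem Fp.out {δ : ℝ} {n : ℕ} {z : ℤ × ℤ} (h : Fp S δ n z) (hδ : 1 ≤ δ * n) :
    ∃ v : ℤ × ℤ, v ∉ S.D n ∧ nm (v - z) ≤ 1 := by
  obtain ⟨w, r, x, -, h2, rfl, h3, h4, -⟩ := h
  have hn0 : (0 : ℝ) < n := by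
    rcases (Nat.cast_nonneg (α := ℝ) n).eq_or_lt with h | h
    · rw [← h] at hδ
      simp at hδ
      linarith
    · exact h
  have hn : (0 : ℤ) < n := by exact_mod_cast hn0
  have hx : 1 ≤ x := by
    have : (1 : ℝ) ≤ x := by linarith
    exact_mod_cast this
  have hx' : x + 1 ≤ n := by
    have : (x : ℝ) + 1 ≤ n := by linarith
    exact_mod_cast this
  refine ⟨E6.face ((n : ℤ) • w + x • E6.dir r) (r - 1), fun hv => h2 ?_, ?_⟩
  · obtain ⟨v, hv, h5, h6, h7, h8⟩ := mem_enl.1 hv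
    have key : v = E6.face w (r - 1) := by
      rcases w with ⟨a, b⟩
      rcases v with ⟨a', b'⟩
      have hr : r = 0 ∨ r = 1 ∨ r = 2 ∨ r = 3 := by fin_cases r <;> simp
      have f0 : ∀ z : ℤ × ℤ, E6.face z 0 = (z.1 + 0, z.2 + 0) := fun _ => rfl
      have f1 : ∀ z : ℤ × ℤ, E6.face z 1 = (z.1 + -1, z.2 + 0) := fun _ => rfl
      have f2 : ∀ z : ℤ × ℤ, E6.face z 2 = (z.1 + -1, z.2 + -1) := fun _ => rfl
      have f3 : ∀ z : ℤ × ℤ, E6.face z 3 = (z.1 + 0, z.2 + -1) := fun _ => rfl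
      have d0 : E6.dir 0 = (1, 0) := rfl
      have d1 : E6.dir 1 = (0, 1) := rfl
      have d2 : E6.dir 2 = (-1, 0) := rfl
      have d3 : E6.dir 3 = (0, -1) := rfl
      have e0 : (0 : Fin 4) - 1 = 3 := rfl
      have e1 : (1 : Fin 4) - 1 = 0 := rfl
      have e2 : (2 : Fin 4) - 1 = 1 := rfl
      have e3 : (3 : Fin 4) - 1 = 2 := rfl
      rcases hr with rfl | rfl | rfl | rfl
      all_goals
        simp only [f0, f1, f2, f3, d0, d1, d2, d3, e0, e1, e2, e3, Prod.smul_mk, smul_eq_mul,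
          Prod.mk_add_mk, mul_one, mul_zero, add_zero, mul_neg, Prod.mk.injEq] at *
        constructor <;> nlinarith
    rw [← key]
    exact hv
  · obtain ⟨z, hz⟩ : ∃ z, z = (n : ℤ) • w + x • E6.dir r := ⟨_, rfl⟩
    rw [← hz]
    have : ∀ r : Fin 4, nm (E6.face z r - z) ≤ 1 := by
      intro r
      have e : E6.face z r - z = ![(0, 0), (-1, 0), (-1, -1), (0, -1)] r := by
        unfold E6.face; abel
      rw [e]
      fin_cases r <;> decide
    exact this _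

end Vale.Agent.P167.H852.Q
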