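import Vale.Agent.P167.H852.Q.Y2
import Vale.Agent.P167.H562.MAJ4

/-!
# P167, general `q`, block Q-TWO: pointwise bounds for `XW`, `TW`; the zone of a smooth charge
-/

namespace Vale.Agent.P167.H852.Q

open Finset Filter Topology Relation Vale.Agent.P167.BR Vale.Agent.P167.FK
open Vale.Agent.P167.E6 (IsPolygon Encloses)
open Vale.Agent.P167.H167 (tot isSeg)
open Vale.Agent.P167.H562.SML
open Vale.Agent.P167.H562.MAJ (Sm Sm_eq sum_G bigs near_site fsum_eq mem_fat_iff)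
open Vale.Agent.P167.H562.QM (BumpsQ MajA YQ YQ_mom YQ_pos Nr oneC_sub)
open Vale.Agent.P167.H365.NQ (XW TW)

theorem nm_tri (a b c : ℤ × ℤ) : (nm (a - c) : ℝ) ≤ nm (a - b) + nm (b - c) := by
  exact_mod_cast H562.MAJ.nm_tri a b c

theorem nm_cm (a b : ℤ × ℤ) : (nm (a - b) : ℝ) = nm (b - a) := by
  exact_mod_cast H562.MAJ.nm_comm' a b

theorem nm_nn (a : ℤ × ℤ) : (0 : ℝ) ≤ nm a := by
  have : 0 ≤ nm a := (abs_nonneg _).trans (le_max_left _ _)
  exact_mod_cast this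

/-- The sum of the masses of the small loops reads only the squares near the zone. -/
theorem Sm_congr {Z : Finset (ℤ × ℤ)} {g : ℤ × ℤ → ℝ} {d : ℝ} (hg : ∀ z, g z ≠ 0 → z ∈ sites Z)
    {ω ω' : Cfg} (h : ∀ v : ℤ × ℤ, (∃ u ∈ Z, (nm (v - u) : ℝ) ≤ 2 * d + 1) → ω v = ω' v) :
    Sm g d ω = Sm g d ω' := by
  rw [Sm_eq hg, Sm_eq hg]
  refine sum_congr rfl fun s hs => ?_
  congr 1
  obtain ⟨u, hu, h1⟩ := near_site hs
  have h1' : (nm (s - u) : ℝ) ≤ 1 := by exact_mod_cast h1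
  refine H135.Cn_loc (A := fat Z (d + 1)) (fun v hv => mem_fat hu ?_) fun v hv => ?_
  · have := nm_tri v s u
    linarith
  · obtain ⟨v1, hv1, h2⟩ := mem_fat_iff hv
    obtain ⟨v2, hv2, h3⟩ := mem_fat_iff hv1
    refine h v ⟨v2, hv2, ?_⟩
    have := nm_tri v v1 v2
    linarith

variable {ω : Cfg} {D Z Zb : Finset (ℤ × ℤ)} {p : ℤ × ℤ} {A : Finset Ed} {f : ℤ × ℤ → ℝ}
  {d b a M : ℝ} {w w' : Finset Ed → ℝ} {In : Finset Ed → Prop}

open Classical in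
/-- The product of the weights of the pieces in the class `In`. -/
noncomputable def TIn (D : Finset (ℤ × ℤ)) (w : Finset Ed → ℝ) (In : Finset Ed → Prop) (ω : Cfg) : ℝ :=
  ∏ A ∈ (pcs ω D).filter In, |w A|

theorem TIn_nonneg (ω : Cfg) : 0 ≤ TIn D w In ω := prod_nonneg fun _ _ => abs_nonneg _

/-- The hypotheses of the pointwise bounds. -/
structure PtW (D : Finset (ℤ × ℤ)) (p : ℤ × ℤ) (Z Zb : Finset (ℤ × ℤ)) (f : ℤ × ℤ → ℝ) (d a M : ℝ)
    (w w' : Finset Ed → ℝ) (In : Finset Ed → Prop) : Prop where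
  hB : BumpsQ ({()} : Finset Unit) D p (fun _ => Z) (fun _ => Zb) (fun _ => f) (fun _ => d)
    (fun _ => True)
  a0 : 0 < a
  a1 : a ≤ Real.pi / 3
  M2 : 2 ≤ M
  lp : ∀ ω, ∀ A ∈ pcs ω D, IsLp D A → w A = H562.wt a (mass D p f A)
  bd : ∀ ω, ∀ A ∈ pcs ω D, |w A| ≤ M
  bd' : ∀ ω, ∀ A ∈ pcs ω D, |w' A| ≤ M
  ins : ∀ ω, ∀ A ∈ pcs ω D, IsLp D A → Small d A → G f A ≠ 0 → ¬ In A
  far : ∀ ω, ∀ A ∈ pcs ω D, ¬ In A → ¬ IsLp D A → ¬ (Vz Zb A ∧ ¬ Small d A) → |w A| ≤ 1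

theorem PtW.prod_le (H : PtW D p Z Zb f d a M w w' In) {N : Cfg → ℕ}
    (hN : ∀ ω, (bigs D Zb d ω).card ≤ N ω) {T T' : Finset (Finset Ed)} (hTT : T ⊆ T')
    (hT : T' ⊆ pcs ω D) (hT' : ∀ A ∈ pcs ω D, ¬ In A → A ∈ T') (hIn : ∀ A ∈ T, ¬ In A) :
    ∏ A ∈ T, |w A| ≤ 3 ^ (T' \ T).card * YQ M (Real.tan a) N f d ω := by
  classical
  have h2 := det_one (ω := ω) H.hB H.a0 H.a1 H.M2 (H.lp ω) (H.bd ω) hTT hT
    (fun A hA hl hs hG => hT' A hA (H.ins ω A hA hl hs hG)) (hN ω)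
  refine h2.trans ?_
  have h3 : ∏ A ∈ T.filter (fun A => ¬ IsLp D A ∧ ¬ (Vz Zb A ∧ ¬ Small d A)), |w A| ≤ 1 :=
    prod_le_one (fun _ _ => abs_nonneg _) fun A hA => by
      rw [mem_filter] at hA
      exact H.far ω A (hT (hTT hA.1)) (hIn A hA.1) hA.2.1 hA.2.2
  have hM := H.M2
  have h4 : 0 ≤ (3 : ℝ) ^ (T' \ T).card * (M ^ N ω * Real.exp (-(Real.tan a * Sm f d ω))) := by
    positivity
  exact mul_le_of_le_one_right h4 h3

/-- **The bound for the functional.** -/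
theorem PtW.XW_le (H : PtW D p Z Zb f d a M w w' In) {N : Cfg → ℕ}
    (hN : ∀ ω, (bigs D Zb d ω).card ≤ N ω) (ω : Cfg) :
    |XW D w ω| ≤ TIn D w In ω * YQ M (Real.tan a) N f d ω := by
  classical
  unfold XW TIn
  rw [abs_prod, ← prod_filter_mul_prod_filter_not (pcs ω D) In]
  refine mul_le_mul_of_nonneg_left ?_ (prod_nonneg fun _ _ => abs_nonneg _)
  have h := H.prod_le hN (ω := ω) (T := (pcs ω D).filter fun A => ¬ In A) Subset.rfl
    (filter_subset _ _) (fun A hA h => mem_filter.2 ⟨hA, h⟩) fun A hA => (mem_filter.1 hA).2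
  rwa [Finset.sdiff_self, card_empty, pow_zero, one_mul] at h

/-- **The bound for the terms.** -/
theorem PtW.TW_le (H : PtW D p Z Zb f d a M w w' In) {N : Cfg → ℕ}
    (hN : ∀ ω, (bigs D Zb d ω).card ≤ N ω) (hA : A ∈ pcs ω D) (hIn : ¬ In A) :
    |TW D w w' ω A| ≤ 3 * M * (TIn D w In ω * YQ M (Real.tan a) N f d ω) := by
  classical
  unfold TW TIn
  have e1 : ((pcs ω D).erase A).filter In = (pcs ω D).filter In := by
    ext B
    rw [mem_filter, mem_filter, mem_erase]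
    constructor
    · rintro ⟨⟨-, h1⟩, h2⟩
      exact ⟨h1, h2⟩
    · rintro ⟨h1, h2⟩
      exact ⟨⟨fun h => hIn (h ▸ h2), h1⟩, h2⟩
  have e2 : ((pcs ω D).erase A).filter (fun A => ¬ In A) =
      ((pcs ω D).filter fun A => ¬ In A).erase A := by
    ext B
    rw [mem_filter, mem_erase, mem_erase, mem_filter]
    tauto
  rw [abs_mul, abs_prod, ← prod_filter_mul_prod_filter_not ((pcs ω D).erase A) In, e1, e2]
  have hAm : A ∈ (pcs ω D).filter fun A => ¬ In A := mem_filter.2 ⟨hA, hIn⟩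
  have h := H.prod_le hN (ω := ω) (T := ((pcs ω D).filter fun A => ¬ In A).erase A)
    (T' := (pcs ω D).filter fun A => ¬ In A) (erase_subset _ _)
    (filter_subset _ _) (fun A hA h => mem_filter.2 ⟨hA, h⟩)
    fun A hA => (mem_filter.1 (mem_of_mem_erase hA)).2
  have h3 : (((pcs ω D).filter fun A => ¬ In A) \
      ((pcs ω D).filter fun A => ¬ In A).erase A).card = 1 := by
    rw [sdiff_erase hAm, Finset.sdiff_self]
    simp
  rw [h3, pow_one] at h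
  have h4 := H.bd' ω A hA
  have h5 : 0 ≤ ∏ A ∈ (pcs ω D).filter In, |w A| := prod_nonneg fun _ _ => abs_nonneg _
  have hM := H.M2
  calc _ ≤ M * ((∏ A ∈ (pcs ω D).filter In, |w A|) * (3 * YQ M (Real.tan a) N f d ω)) := by
        refine mul_le_mul h4 (mul_le_mul_of_nonneg_left h h5) ?_ (by linarith)
        exact mul_nonneg h5 (prod_nonneg fun _ _ => abs_nonneg _)
    _ = _ := by ring

end Vale.Agent.P167.H852.Q
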