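import Vale.Agent.P167.H852.Q.Y2b

/-!
# P167, general `q`, block Q-TWO: majorants of the natural functionals (`MajN`)
-/

namespace Vale.Agent.P167.H852.Q

open Finset Filter Topology Relation Vale.Agent.P167.BR Vale.Agent.P167.FK
open Vale.Agent.P167.E6 (IsPolygon Encloses)
open Vale.Agent.P167.H167 (tot isSeg)
open Vale.Agent.P167.H562.SML
open Vale.Agent.P167.H562.MAJ (Sm Sm_eq sum_G bigs near_site fsum_eq mem_fat_iff)
open Vale.Agent.P167.H562.QM (BumpsQ MajA YQ YQ_mom YQ_pos Nr oneC_sub)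
open Vale.Agent.P167.H436 (ero mem_ero ero_sub econ_ero econ_enl cells_conn mem_enl)
open Vale.Agent.P167.H542.Dt
open Vale.Agent.P167.H542.Q (BD cB cB_pos)
open Vale.Agent.P167.H365.NQ (XW TW)
open Vale.Agent.P167.H718 (Dob wn wn' wn_eq IsCl)
open Vale.Agent.P167.H760.Q (MajY Fp MajN)
open Vale.Agent.P167.CA (cms)
open Vale.Agent.P167.QX (wB wB_zero wQ wQ_strand stag)

variable {S : CA.Dat} {θ β : ℝ} {f : ℂ → ℝ}

theorem ero_near {n : ℕ} {k : ℤ} (hk : 0 ≤ k) {u v : ℤ × ℤ} (hu : u ∈ ero S.Q n k)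
    (h : (nm (v - u) : ℝ) ≤ k) : v ∈ S.D n := by
  have h' : nm (v - u) ≤ k := by exact_mod_cast h
  have h1 : |(v - u).1| ≤ nm (v - u) := le_max_left _ _
  have h2 : |(v - u).2| ≤ nm (v - u) := le_max_right _ _
  rw [Prod.fst_sub] at h1
  rw [Prod.snd_sub] at h2
  have h3 := abs_le.1 (h1.trans h')
  have h4 := abs_le.1 (h2.trans h')
  exact (mem_ero hk).1 hu v.1 v.2 (by linarith) (by linarith) (by linarith) (by linarith)

/-- The zone of the charge `f` in one domain: `κ`, `κ0` the scales, `Mf` the bound of `f`, `R1` the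
radius of the domain. -/
structure Zn (S : CA.Dat) (f : ℂ → ℝ) (κ κ0 Mf R1 : ℝ) (n : ℕ) (Z : Finset (ℤ × ℤ))
    (k : ℤ) : Prop where
  n1 : (1 : ℝ) ≤ n
  κn : 4 ≤ κ * n
  κ0n : 80 * (κ * n) ≤ κ0 * n
  k1 : (k : ℝ) ≤ κ0 * n
  k2 : κ0 * n < (k : ℝ) + 1
  sub : Z ⊆ S.D n
  econ : ECon Z
  econD : ECon (S.D n)
  near : ∀ v ∈ Z, ∀ w, (nm (w - v) : ℝ) ≤ k → w ∈ S.D n
  supp : ∀ z, cms f (1 / (n : ℝ)) z ≠ 0 → z ∈ sites Z
  bd : ∀ z, |cms f (1 / (n : ℝ)) z| ≤ Mf / (n : ℝ) ^ 2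
  tot : tot (S.D n) (cms f (1 / (n : ℝ))) = 0
  rad : ∀ v ∈ S.D n, (nm v : ℝ) ≤ R1 * n
  sml : Mf / (n : ℝ) ^ 2 * (κ * n) ^ 2 ≤ 1 / 2

/-- The zones. -/
theorem exists_zn (hf : S.FF f) : ∃ (κ0m Mf R1 : ℝ), 0 < κ0m ∧ 0 ≤ Mf ∧ 0 < R1 ∧
    ∀ κ0 : ℝ, 0 < κ0 → κ0 ≤ κ0m → ∀ κ : ℝ, 0 < κ → κ ≤ κ0 / 80 → κ ≤ 1 / (2 * (Mf + 1)) →
    ∀ᶠ n : ℕ in atTop, Zn S f κ κ0 Mf R1 n (ero S.Q n ⌊κ0 * (n : ℝ)⌋) ⌊κ0 * (n : ℝ)⌋ := by
  obtain ⟨κf, hκf, hsf⟩ := exists_supp S hf.1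
  obtain ⟨Mf, hMf0, hMf⟩ := exists_bd hf.1
  obtain ⟨R1, hR1, hRn⟩ := exists_R S
  refine ⟨min κf (1 / 8), Mf, R1, by positivity, hMf0, hR1, fun κ0 hκ0 hκ0m κ hκ hκ1 hκ2 => ?_⟩
  have hκ0f : κ0 ≤ κf := hκ0m.trans (min_le_left _ _)
  have hκ08 : κ0 ≤ 1 / 8 := hκ0m.trans (min_le_right _ _)
  have hev : ∀ᶠ n : ℕ in atTop, max (4 / κ) 1 ≤ (n : ℝ) :=
    tendsto_natCast_atTop_atTop.eventually_ge_atTop _
  filter_upwards [hsf, hev] with n hsfn hn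
  have hnκ : 4 / κ ≤ n := (le_max_left _ _).trans hn
  have hn1 : (1 : ℝ) ≤ n := (le_max_right _ _).trans hn
  have hn0 : (0 : ℝ) < n := by linarith
  have hn0' : 0 < n := by exact_mod_cast hn0
  rw [div_le_iff₀ hκ] at hnκ
  have hκn : 80 * (κ * n) ≤ κ0 * n := by nlinarith
  have hκn0 : κ0 * n ≤ n / 8 := by nlinarith
  have hk1 : ((⌊κ0 * (n : ℝ)⌋ : ℤ) : ℝ) ≤ κ0 * n := Int.floor_le _
  have hk0 : 0 ≤ ⌊κ0 * (n : ℝ)⌋ := Int.floor_nonneg.2 (by positivity)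
  have hkn : 2 * ⌊κ0 * (n : ℝ)⌋ < n := by
    have : (2 * (⌊κ0 * (n : ℝ)⌋ : ℤ) : ℝ) < n := by linarith
    exact_mod_cast this
  have hcc : ∀ a ∈ S.Q, ∀ b ∈ S.Q, ReflTransGen (H436.Adj S.Q) a b :=
    fun a ha b hb => cells_conn S.poly S.enc ha hb
  refine ⟨hn1, by linarith, hκn, hk1, Int.lt_floor_add_one _, ero_sub, econ_ero hcc hk0 hkn,
    econ_enl hcc hn0', fun v hv w hw => ero_near hk0 hv hw, fun z h => ?_,
    fun z => cms_abs_le hMf hn0' z, tot_cms S hf hn0', hRn n, ?_⟩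
  · exact hsfn _ hk0 (hk1.trans (mul_le_mul_of_nonneg_right hκ0f hn0.le)) z h
  · have e : Mf / (n : ℝ) ^ 2 * (κ * n) ^ 2 = Mf * κ * κ := by field_simp
    rw [e]
    have h2 : (Mf + 1) * κ ≤ 1 / 2 := by
      have := mul_le_mul_of_nonneg_left hκ2 (by linarith : (0 : ℝ) ≤ Mf + 1)
      refine this.trans (le_of_eq ?_)
      field_simp
    have h3 : κ ≤ 1 := by linarith
    nlinarith [mul_nonneg hMf0 hκ.le]

section

variable {κ κ0 Mf R1 : ℝ} {n N : ℕ} {Z : Finset (ℤ × ℤ)} {k : ℤ} {q : ZMod N → ℤ × ℤ} {m : ℕ}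

/-- The pointwise bounds hold for the natural functional. -/
theorem Zn.ptw (H : Zn S f κ κ0 Mf R1 n Z k) (hMf : 0 ≤ Mf) (h0 : 0 < θ) (h1 : θ ≤ Real.pi / 3)
    (hβ : Real.cos (θ / 2 + β) = Real.sin θ) (hq : IsPolygon q) (hD : Encloses q (S.D n)) {M : ℝ}
    (hM2 : 2 ≤ M) (hM : (cB θ)⁻¹ ≤ M) :
    PtW (S.D n) (q 0) Z Z (cms f (1 / (n : ℝ))) (κ * n) θ M
      (wn θ β q (S.D n) m (cms f (1 / (n : ℝ)))) (wn' θ β q (S.D n) m (cms f (1 / (n : ℝ))))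
      (fun _ => False) := by
  have hpi := Real.pi_pos
  have hs : 0 < Real.sin θ := Real.sin_pos_of_pos_of_lt_pi h0 (by linarith)
  have hc : 0 < Real.cos θ := Real.cos_pos_of_mem_Ioo ⟨by linarith, by linarith⟩
  have hn1 := H.n1
  have hκn := H.κn
  have hκn2 := H.κ0n
  have hk2 := H.k2
  have hbas := H542.Q.bas_poly hq hD
  have hB : BumpsQ ({()} : Finset Unit) (S.D n) (q 0) (fun _ => Z) (fun _ => Z)
      (fun _ => cms f (1 / (n : ℝ))) (fun _ => κ * n) (fun _ => True) :=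
    bump_one H.sub Subset.rfl H.econ H.econD hbas.mem (fun ω A hA hl => XDL.W_base hq hD hA hl)
      H.supp (fun v hv w hw => H.near v hv w (by linarith)) (by positivity) H.bd H.sml H.tot
  refine ⟨hB, h0, h1, hM2, fun ω A hA hl => ?_, fun ω A hA => (abs_wn_le h0 h1 hβ hq hD hA).trans hM,
    fun ω A hA => (abs_wn'_le h0 h1 hβ hq hD hA).trans hM, fun _ _ _ _ _ _ h => h,
    fun ω A hA _ hl hV => ?_⟩
  · rw [wn_eq hq hD hs.ne' hc hβ hA]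
    unfold wB
    rw [if_pos hl]
    rfl
  · have hV' : ¬ Vz Z A := fun h => hV ⟨h, hB.strand (mem_singleton_self ()) hA hl h⟩
    rw [wn_eq hq hD hs.ne' hc hβ hA, mass_zero H.sub H.econ H.supp H.tot hV', wB_zero hs.ne' hc.ne' hβ,
      abs_one]

/-- The squares near the zone are far from the flat boundary sites. -/
theorem Zn.win (H : Zn S f κ κ0 Mf R1 n Z k) {δ : ℝ} {z : ℤ × ℤ} (hz : Fp S δ n z)
    (hδ : 1 ≤ δ * n) {R : ℤ} (hR : (R : ℝ) ≤ κ0 / 8 * n) {v : ℤ × ℤ}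
    (hv : ∃ u ∈ Z, (nm (v - u) : ℝ) ≤ 2 * (κ * n) + 1) : R < nm (v - z) := by
  obtain ⟨v0, hv0, hv0z⟩ := Fp.out hz hδ
  obtain ⟨u, hu, h⟩ := hv
  have h2 : (k : ℝ) < nm (v0 - u) := by
    by_contra hcon
    exact hv0 (H.near u hu v0 (not_lt.1 hcon))
  have h3 : (nm (v0 - z) : ℝ) ≤ 1 := by exact_mod_cast hv0z
  have h4 := nm_tri v0 z u
  have h5 := nm_tri z v u
  have h6 := nm_cm z v
  have h8 := H.κn
  have h9 := H.κ0n
  have h10 := H.k2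
  have h7 : (R : ℝ) < nm (v - z) := by linarith
  exact_mod_cast h7

theorem Zn.rad' (H : Zn S f κ κ0 Mf R1 n Z k) {v : ℤ × ℤ} (hv : v ∈ fat Z 1) :
    (nm (v - 0) : ℝ) ≤ (R1 + 1) * n := by
  obtain ⟨u, hu, h⟩ := mem_fat_iff hv
  have h2 := H.rad u (H.sub hu)
  have h3 := nm_tri v u 0
  have h4 := H.n1
  rw [sub_zero, sub_zero] at h3
  rw [sub_zero]
  linarith

end

end Vale.Agent.P167.H852.Q
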