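import Vale.Agent.P167.H852.Q.Y3
import Vale.Agent.P167.H852.Q.Mom

/-!
# P167, general `q`, block Q-TWO: zones of the parity images
-/

namespace Vale.Agent.P167.H852.Q

open Finset Filter Topology Relation Vale.Agent.P167.BR Vale.Agent.P167.FK
open Vale.Agent.P167.E6 (IsPolygon Encloses face)
open Vale.Agent.P167.H167 (tot isSeg)
open Vale.Agent.P167.H562.SML
open Vale.Agent.P167.H562.MAJ (Sm Sm_eq sum_G bigs near_site fsum_eq mem_fat_iff)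
open Vale.Agent.P167.H562.QM (BumpsQ MajA YQ YQ_mom YQ_pos Nr oneC_sub)
open Vale.Agent.P167.H135 (shE)

/-! ### translations of zones -/

/-- The zone of a neutral charge `h` in one domain. -/
structure ZG (D : Finset (ℤ × ℤ)) (h : ℤ × ℤ → ℝ) (κ κ0 Mf R1 : ℝ) (n : ℕ) (Z : Finset (ℤ × ℤ))
    (k : ℤ) : Prop where
  n1 : (1 : ℝ) ≤ n
  κn : 4 ≤ κ * n
  κ0n : 80 * (κ * n) ≤ κ0 * n
  k2 : κ0 * n < (k : ℝ) + 1
  sub : Z ⊆ D
  econ : ECon Z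
  econD : ECon D
  near : ∀ v ∈ Z, ∀ w, (nm (w - v) : ℝ) ≤ k → w ∈ D
  supp : ∀ z, h z ≠ 0 → z ∈ sites Z
  bd : ∀ z, |h z| ≤ Mf / (n : ℝ) ^ 2
  tot : tot D h = 0
  rad : ∀ v ∈ D, (nm v : ℝ) ≤ R1 * n
  sml : Mf / (n : ℝ) ^ 2 * (κ * n) ^ 2 ≤ 1 / 2

theorem Zn.zg {S : CA.Dat} {f : ℂ → ℝ} {κ κ0 Mf R1 : ℝ} {n : ℕ} {Z : Finset (ℤ × ℤ)} {k : ℤ}
    (H : Zn S f κ κ0 Mf R1 n Z k) : ZG (S.D n) (CA.cms f (1 / (n : ℝ))) κ κ0 Mf R1 n Z k :=
  ⟨H.n1, H.κn, H.κ0n, H.k2, H.sub, H.econ, H.econD, H.near, H.supp, H.bd, H.tot, H.rad, H.sml⟩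

theorem ec_tr {Z : Finset (ℤ × ℤ)} (a : ℤ × ℤ) {x y : ℤ × ℤ} (h : Ec Z x y) :
    Ec (Z.image (· + a)) (x + a) (y + a) := by
  obtain ⟨e, he, h⟩ := h
  refine ⟨shE a e, eds_sh.2 he, ?_⟩
  by_cases ha : Even (a.1 + a.2)
  · obtain ⟨h1, h2⟩ := ls_sh ha e
    rw [h1, h2]
    rcases h with ⟨rfl, rfl⟩ | ⟨rfl, rfl⟩
    · exact Or.inl ⟨rfl, rfl⟩
    · exact Or.inr ⟨rfl, rfl⟩
  · obtain ⟨h1, h2⟩ := ls_sh' ha e
    rw [h1, h2]
    rcases h with ⟨rfl, rfl⟩ | ⟨rfl, rfl⟩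
    · exact Or.inr ⟨rfl, rfl⟩
    · exact Or.inl ⟨rfl, rfl⟩

/-- Translation of a connected set. -/
theorem econ_tr {Z : Finset (ℤ × ℤ)} (hZ : ECon Z) (a : ℤ × ℤ) : ECon (Z.image (· + a)) := by
  intro s hs t ht
  rw [sites_tr] at hs ht
  rw [mem_tr'] at hs ht
  have h2 : ReflTransGen (Ec (Z.image (· + a))) (s - a + a) (t - a + a) :=
    (hZ _ hs _ ht).lift (· + a) fun x y h => ec_tr a h
  rwa [sub_add_cancel, sub_add_cancel] at h2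

/-- Translation of a zone; the charge changes its sign. -/
theorem ZG.tr {D : Finset (ℤ × ℤ)} {h : ℤ × ℤ → ℝ} {κ κ0 Mf R1 : ℝ} {n : ℕ} {Z : Finset (ℤ × ℤ)}
    {k : ℤ} (H : ZG D h κ κ0 Mf R1 n Z k) {a : ℤ × ℤ} (ha : nm a ≤ 1) :
    ZG (D.image (· + a)) (fun z => -h (z - a)) κ κ0 Mf (R1 + 1) n (Z.image (· + a)) k := by
  have hn1 := H.n1
  refine ⟨H.n1, H.κn, H.κ0n, H.k2, image_subset_image H.sub, econ_tr H.econ a, econ_tr H.econD a,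
    fun v hv w hw => ?_, fun z hz => ?_, fun z => ?_, ?_, fun v hv => ?_, H.sml⟩
  · rw [mem_tr'] at hv ⊢
    refine H.near _ hv _ ?_
    rwa [sub_sub_sub_cancel_right]
  · rw [sites_tr, mem_tr']
    exact H.supp _ fun h0 => hz (by rw [h0, neg_zero])
  · rw [abs_neg]
    exact H.bd _
  · have h1 := H.tot
    unfold H167.tot at h1 ⊢
    rw [sites_tr, sum_image fun x _ y _ hxy => add_right_cancel hxy]
    rw [← neg_zero, ← h1, ← sum_neg_distrib]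
    exact sum_congr rfl fun z _ => by rw [add_sub_cancel_right]
  · rw [mem_tr'] at hv
    have h1 := H.rad _ hv
    have h2 := nm_tri v a 0
    have h3 : (nm a : ℝ) ≤ 1 := by exact_mod_cast ha
    rw [sub_zero, sub_zero] at h2
    nlinarith

/-! ### pieces of the domain -/

theorem exists_hdD {D : Finset (ℤ × ℤ)} {ω : Cfg} {A : Finset Ed} (hA : A ∈ pcs ω D) :
    ∃ e ∈ A, hdv e ∈ D := by
  by_cases hl : IsLp D A
  · obtain ⟨e, he⟩ := pcs_nonempty hA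
    exact ⟨e, he, hl _ he⟩
  · obtain ⟨e, he, h1⟩ := exists_entry hA hl
    exact ⟨e, he, (mem_eds.1 (subset_eds hA he)).resolve_right h1⟩

theorem vz_self {D : Finset (ℤ × ℤ)} {ω : Cfg} {A : Finset Ed} (hA : A ∈ pcs ω D) : Vz D A := by
  obtain ⟨e, he⟩ := pcs_nonempty hA
  exact ⟨e, he, subset_eds hA he⟩

/-- The number of the big pieces of the domain. -/
theorem card_bigsD {D : Finset (ℤ × ℤ)} {ω : Cfg} {d : ℝ} {N : ℕ} (hN : MajA D d ω N) :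
    (bigs D D d ω).card ≤ N := by
  classical
  refine hN _ (fun γ hγ => isSeg (Finset.mem_filter.1 hγ).1) ?_ ?_
  · intro γ hγ γ' hγ' hne
    rw [Finset.disjoint_left]
    intro e he he'
    exact hne (eq_of_mem_pcs (Finset.mem_filter.1 hγ).1 (Finset.mem_filter.1 hγ').1 he he')
  · intro γ hγ
    obtain ⟨h1, -, h2⟩ := Finset.mem_filter.1 hγ
    refine ⟨exists_hdD h1, ?_⟩
    unfold Small at h2
    push Not at h2
    obtain ⟨u, hu, v, hv, h4⟩ := h2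
    obtain ⟨e1, he1, rfl⟩ := Finset.mem_image.1 hu
    obtain ⟨e2, he2, rfl⟩ := Finset.mem_image.1 hv
    exact ⟨e1, he1, e2, he2, h4⟩

/-- A square outside of the domain next to a site of the polygon. -/
theorem out_face {N : ℕ} {q : ZMod N → ℤ × ℤ} {D : Finset (ℤ × ℤ)} (hq : IsPolygon q)
    (hD : Encloses q D) (i : ZMod N) : ∃ v, v ∉ D ∧ nm (v - q i) ≤ 1 := by
  obtain ⟨r, hr⟩ := hq.2.2 i
  exact ⟨_, ((hD (q i) r).1 ⟨i, rfl, hr⟩).2, H601.LG.nm_face _ _⟩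

section

variable {D : Finset (ℤ × ℤ)} {h : ℤ × ℤ → ℝ} {κ κ0 Mf R1 : ℝ} {n N : ℕ} {Z : Finset (ℤ × ℤ)} {k : ℤ}
  {q : ZMod N → ℤ × ℤ}

/-- Boxes around the sites of the polygon are far from the zone. -/
theorem ZG.far_q (H : ZG D h κ κ0 Mf R1 n Z k) (hq : IsPolygon q) (hD : Encloses q D) {r : ℤ}
    {m : ℝ} (hrk : (r : ℝ) + m + 1 ≤ k) {i : ZMod N} {v w : ℤ × ℤ} (hv : v ∈ Z)
    (hw : w ∈ Bq (q i) r) : m < nm (w - v) := by
  obtain ⟨v0, hv0, h1⟩ := out_face hq hD i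
  have h2 : (k : ℝ) < nm (v0 - v) := by
    by_contra hcon
    exact hv0 (H.near v hv v0 (not_lt.1 hcon))
  have h3 : (nm (v0 - q i) : ℝ) ≤ 1 := by exact_mod_cast h1
  have h4 : (nm (w - q i) : ℝ) ≤ r := by exact_mod_cast H601.LG.nm_of_Bq hw
  have h5 := nm_tri v0 (q i) v
  have h6 := nm_tri (q i) w v
  have h7 := nm_cm (q i) w
  linarith

end

end Vale.Agent.P167.H852.Q
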