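import Vale.Agent.P167.H852.Q.Y5b
import Vale.Agent.P167.H760.Q.Arc

/-!
# P167, general `q`, block Q-TWO: the special points are far from the flat boundary points
-/

namespace Vale.Agent.P167.H852.Q

open Finset Filter Topology
open Vale.Agent.P167.BR Vale.Agent.P167.FK
open Vale.Agent.P167.E6 (IsPolygon Encloses face)
open Vale.Agent.P167.H542.Q (BD)
open Vale.Agent.P167.H871 (Bd)
open Vale.Agent.P167.H760.Q (Fp BaseQ JunQ side_index pb)
open Vale.Agent.P167.H601.LG (Spe)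

variable {S : CA.Dat} {θ β : ℝ}

theorem nm_sub_add (u v : ℤ × ℤ) : nm (u - (u + v)) = nm v := by
  rw [sub_add_cancel_left]
  unfold nm
  rw [Prod.fst_neg, Prod.snd_neg, abs_neg, abs_neg]

theorem nm_vec (d : ℤ) : nm (Top.vec d) ≤ 1 := by
  unfold nm Top.vec Top.dx Top.dy
  simp only
  split_ifs <;> simp

/-- **The special points are far from the flat boundary points.** -/
theorem spe_far (X : BD S θ β) {s : ℕ → ℕ} (hb : BaseQ X s) {ia : ℕ} {C₀ : ℝ} (hk : JunQ X ia C₀)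
    {δ : ℝ} (hδ : 0 < δ) : ∀ᶠ n : ℕ in X.L, ∀ z : ℤ × ℤ, Fp S δ n z → ∀ τ : ℕ → ℤ,
      Bd (S.D n : Set (ℤ × ℤ)) (X.N n) (fun i => X.q n (i : ZMod (X.N n))) τ 1 →
      ∀ j : ℕ, j < X.N n → Spe τ (X.k n) j → δ / 4 * n < nm (X.q n (j : ZMod (X.N n)) - z) := by
  have htp0 := S.tp0
  have htp1 := S.tp1
  obtain ⟨hs1, hb⟩ := hb
  have hlarge : ∀ A : ℝ, ∀ᶠ n : ℕ in X.L, A ≤ n := fun A => X.le
    ((eventually_ge_atTop ⌈A⌉₊).mono fun n hn => (Nat.le_ceil A).trans (by exact_mod_cast hn))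
  filter_upwards [X.poly, X.enc, hb, hk, hlarge ((|C₀| + 8) / (δ / 4)), hlarge 1,
    hlarge ((|C₀| + 8) / (1 - S.tp)), hlarge ((|C₀| + 8) / S.tp)] with n a1 a2 a3 a4 a5 a6 a7 a8 z hz
    τ hτ j hj hsp
  have hn' : (0 : ℝ) < n := by linarith
  have hn : 0 < n := by exact_mod_cast hn'
  rw [div_le_iff₀ (by positivity)] at a5
  rw [div_le_iff₀ (by linarith)] at a7
  rw [div_le_iff₀ htp0] at a8
  have hC0 := abs_nonneg C₀
  have hC1 := le_abs_self C₀
  obtain ⟨w, r, x, h1, h2, rfl, hx1, hx2, hx3⟩ := hz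
  obtain ⟨i, hi, -⟩ := (S.enc w r).2 ⟨h1, h2⟩
  have hl : NeZero S.l := ⟨by have := S.poly.1; omega⟩
  by_contra hcon
  push Not at hcon
  obtain ⟨m, hm⟩ : ∃ m : ℤ, m = ⌊δ / 4 * (n : ℝ)⌋ := ⟨_, rfl⟩
  have hm1 : (m : ℝ) ≤ δ / 4 * n := by rw [hm]; exact Int.floor_le _
  have hm2 : nm (X.q n (j : ZMod (X.N n)) - ((n : ℤ) • w + x • E6.dir r)) ≤ m := by
    rw [hm, Int.le_floor]
    exact hcon
  have ht1 : ((s n : ℕ) : ℝ) ≤ 1 := by exact_mod_cast hs1 n
  have ht0 : (0 : ℝ) ≤ (s n : ℕ) := Nat.cast_nonneg _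
  obtain ⟨t₀, ht₀⟩ : ∃ t₀, t₀ = ⌊S.tp * n⌋₊ + s n := ⟨_, rfl⟩
  rw [← ht₀] at a3
  have hb1 : (⌊S.tp * n⌋₊ : ℝ) ≤ S.tp * n := Nat.floor_le (by positivity)
  have hb2 : S.tp * n < ⌊S.tp * n⌋₊ + 1 := Nat.lt_floor_add_one _
  have ht2 : (t₀ : ℝ) ≤ S.tp * n + 1 := by
    rw [ht₀]; push_cast; linarith
  have ht3 : S.tp * n - 1 ≤ (t₀ : ℝ) := by
    rw [ht₀]; push_cast; linarith
  have htn : t₀ < n := by
    have : (t₀ : ℝ) < n := by nlinarith
    exact_mod_cast this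
  have hm3 : ((m + 1 : ℤ) : ℝ) < x := by push_cast; nlinarith
  have hm4 : ((x + (m + 1) : ℤ) : ℝ) < ((n : ℤ) : ℝ) := by push_cast; nlinarith
  have hm5 : m + 1 < x := by exact_mod_cast hm3
  have hm6 : x + (m + 1) < n := by exact_mod_cast hm4
  obtain ⟨⟨y, hy1, hy2, hy3⟩, hstep⟩ := side_index S hn a1 a2 htn a3 h2 (x := x) (m := m)
    (by omega) (by omega) hi hj hm2
  have hy2' : |(x : ℝ) - y| ≤ m := by exact_mod_cast hy2
  rw [abs_le] at hy2'
  have hyn : (y : ℝ) < n := by exact_mod_cast hy1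
  rcases hsp with h | h | ⟨h, h'⟩
  · -- the base
    rw [h, add_zero] at hy3
    have hy4 : t₀ = y := by
      rcases hy3 with h3 | ⟨-, h3⟩
      · rcases Nat.eq_zero_or_pos i.val with h4 | h4
        · rw [h4, zero_mul, zero_add] at h3
          exact h3
        · exfalso
          have h5 : n ≤ i.val * n := Nat.le_mul_of_pos_left n h4
          omega
      · exfalso
        have h5 : n ≤ S.l * n := Nat.le_mul_of_pos_left n (Nat.pos_of_ne_zero hl.out)
        omega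
    have hy5 : (t₀ : ℝ) = y := by exact_mod_cast hy4
    have : |(x : ℝ) - S.tp * n| ≤ δ / 4 * n + 1 := by
      rw [abs_le]
      constructor <;> linarith
    linarith
  · -- the junction
    obtain ⟨I, hI⟩ : ∃ I : ℕ, t₀ + j = I * n + y := by
      rcases hy3 with h3 | ⟨-, h3⟩
      · exact ⟨_, h3⟩
      · exact ⟨_, h3⟩
    have hI' : (t₀ : ℝ) + X.k n = I * n + y := by rw [← h]; exact_mod_cast hI
    rw [abs_le] at a4
    rcases lt_trichotomy ia I with h3 | h3 | h3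
    · have h4 : ((ia : ℝ) + 1) * n ≤ I * n :=
        mul_le_mul_of_nonneg_right (by exact_mod_cast h3) hn'.le
      linarith
    · rw [← h3] at hI'
      have : |(x : ℝ) - S.tp * n| ≤ δ / 4 * n + |C₀| + 1 := by
        rw [abs_le]
        constructor <;> linarith
      linarith
    · have h4 : ((I : ℝ) + 1) * n ≤ ia * n :=
        mul_le_mul_of_nonneg_right (by exact_mod_cast h3) hn'.le
      linarith
  · -- a corner
    have h3 : j - 1 + 1 = j := by omega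
    have e1 := hτ.step (j - 1)
    rw [h3] at e1
    have e2 := hτ.step j
    have h4 : nm (X.q n ((j - 1 : ℕ) : ZMod (X.N n)) - ((n : ℤ) • w + x • E6.dir r)) ≤ m + 1 := by
      have h5 := H601.LG.nm_tri' (X.q n ((j - 1 : ℕ) : ZMod (X.N n))) (X.q n (j : ZMod (X.N n)))
        ((n : ℤ) • w + x • E6.dir r)
      have h6 : nm (X.q n ((j - 1 : ℕ) : ZMod (X.N n)) - X.q n (j : ZMod (X.N n))) ≤ 1 := by
        have h7 : X.q n (j : ZMod (X.N n)) =
            X.q n ((j - 1 : ℕ) : ZMod (X.N n)) + Top.vec (τ (j - 1)) := e1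
        rw [h7, nm_sub_add]
        exact nm_vec _
      linarith
    obtain ⟨-, hstep'⟩ := side_index S hn a1 a2 htn a3 h2 (x := x) (m := m + 1)
      hm5 hm6 hi (j := j - 1) (by omega) h4
    rw [h3] at hstep'
    have e3 : Top.vec (τ j) = Top.vec (τ (j - 1)) := by
      have e4 : X.q n ((j - 1 : ℕ) : ZMod (X.N n)) + Top.vec (τ (j - 1)) =
          X.q n ((j - 1 : ℕ) : ZMod (X.N n)) + E6.dir r := by rw [← e1, hstep']
      have e5 : X.q n (j : ZMod (X.N n)) + Top.vec (τ j) =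
          X.q n (j : ZMod (X.N n)) + E6.dir r := by rw [← e2, hstep]
      rw [add_left_cancel e4, add_left_cancel e5]
    have h7 := Enl.vec_eq_mod e3
    have h8 := hτ.turn (j - 1)
    rw [h3, abs_le] at h8
    apply h'
    omega

end Vale.Agent.P167.H852.Q
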