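import Vale.Agent.P167.H852.Q.Y5b
import Vale.Agent.P167.H562.Q.MQ3

/-!
# P167, general `q`, block Q-TWO: the moments of the majorants of the parity images
-/

namespace Vale.Agent.P167.H852.Q

open Finset Filter Topology Relation Vale.Agent.P167.BR Vale.Agent.P167.FK
open Vale.Agent.P167.E6 (IsPolygon Encloses face)
open Vale.Agent.P167.H167 (tot isSeg)
open Vale.Agent.P167.H562.SML
open Vale.Agent.P167.H562.MAJ (Sm Sm_eq sum_G bigs near_site fsum_eq mem_fat_iff)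
open Vale.Agent.P167.H562.QM (BumpsQ MajA YQ YQ_mom YQ_pos Nr oneC_sub ex_cs)
open Vale.Agent.P167.H601.LG (Spe wJ GeoN SepL nm_of_Bq)
open Vale.Agent.P167.H975 (TX TX_loc)
open Vale.Agent.P167.H519 (IsLim)

variable {D Z : Finset (ℤ × ℤ)} {h : ℤ × ℤ → ℝ} {κ κ0 Mf R1 θ β M : ℝ} {n N m : ℕ} {k r : ℤ}
  {q : ZMod N → ℤ × ℤ} {τ : ℕ → ℤ} {ω : Cfg}

theorem ZG.sum0 (H : ZG D h κ κ0 Mf R1 n Z k) : ∑ᶠ z, h z = 0 := by
  rw [fsum_eq (F := sites D) fun z hz => sites_mono H.sub (H.supp z hz)]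
  exact H.tot

theorem ZG.bd1 (H : ZG D h κ κ0 Mf R1 n Z k) (z : ℤ × ℤ) : |h z| ≤ (Mf + 1) / (n : ℝ) ^ 2 := by
  refine (H.bd z).trans ?_
  have : (0 : ℝ) ≤ (n : ℝ) ^ 2 := by positivity
  exact div_le_div_of_nonneg_right (by linarith) this

theorem ZG.rads (H : ZG D h κ κ0 Mf R1 n Z k) {z : ℤ × ℤ} (hz : h z ≠ 0) :
    (nm (z - 0) : ℝ) ≤ (R1 + 1) * n := by
  obtain ⟨u, hu, h⟩ := near_site (H.supp z hz)
  have h1 : (nm (z - u) : ℝ) ≤ 1 := by exact_mod_cast h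
  have h2 := H.rad u (H.sub hu)
  have h3 := nm_tri z u 0
  have h4 := H.n1
  rw [sub_zero, sub_zero] at h3
  rw [sub_zero]
  linarith

theorem ZG.nbh (H : ZG D h κ κ0 Mf R1 n Z k) {z : ℤ × ℤ} (hz : h z ≠ 0)
    {v : ℤ × ℤ} (hv : (nm (v - z) : ℝ) ≤ 33 * κ * n) : v ∈ D := by
  obtain ⟨u, hu, h⟩ := near_site (H.supp z hz)
  have h1 : (nm (z - u) : ℝ) ≤ 1 := by exact_mod_cast h
  refine H.near u hu v ?_
  have h2 := nm_tri v z u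
  have h3 := H.κn
  have h4 := H.κ0n
  have h5 := H.k2
  linarith

/-- Locality of the product of the local factors. -/
theorem TPs_congr {ω ω' : Cfg} (hw : ∀ j < N, Spe τ m j → ∀ v ∈ Bq (q (j : ZMod N)) r, v ∈ D →
    ω v = ω' v) : TPs θ β q D m τ r ω = TPs θ β q D m τ r ω' := by
  classical
  unfold TPs
  refine prod_congr rfl fun j hj => ?_
  obtain ⟨h1, h2⟩ := mem_filter.1 hj
  exact TX_loc _ _ _ _ ω ω' fun v hv => hw j (mem_range.1 h1) h2 v (mem_inter.1 hv).1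
    (mem_inter.1 hv).2

/-- **The moments of the small loops**, with the factor `G`. -/
theorem sm_mom {Q : ℝ} {P : MeasureTheory.Measure Cfg} (hQ : 1 ≤ Q) (hR0 : RSW Q) (hP : IsLim Q P)
    (κ R1 Mf : ℝ) (hκ : 0 < κ) (hR : 0 ≤ R1) (hMf : 0 ≤ Mf) : ∃ C ρ0 : ℝ, 0 < C ∧ 1 ≤ ρ0 ∧
    ∀ (n : ℕ), ρ0 ≤ n → ∀ (D Z : Finset (ℤ × ℤ)) (h : ℤ × ℤ → ℝ) (κ0 : ℝ) (k : ℤ),
      ZG D h κ κ0 Mf R1 n Z k → ∀ η : Cfg, Good η → ∀ G : Cfg → ℝ, (∀ ω, 0 ≤ G ω) →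
      (∀ ω ω' : Cfg, (∀ v, ¬ (v ∈ D ∧ ∃ z, h z ≠ 0 ∧ (nm (v - z) : ℝ) ≤ 33 * κ * n) →
        ω v = ω' v) → G ω = G ω') → ∀ t : ℝ, 0 ≤ t → t ≤ 2 →
      Ex Q D η (fun ω => G ω * Real.exp (-(t * Sm h (κ * n) ω)) ^ 2) ≤ C * Ex Q D η G := by
  obtain ⟨ε, C, ρ0, hε, hC, hρ0, H⟩ := YQ_mom hQ hR0 hP κ (R1 + 1) (Mf + 1) 2 1 0 hκ
    (by linarith) (by linarith) (by norm_num) le_rfl
  refine ⟨C, ρ0, hC, hρ0, fun n hn D Z h κ0 k hZ η hη G hG0 hG t ht0 ht2 => ?_⟩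
  obtain ⟨N, -, -, hN3⟩ := H n hn 0 ∅ (fun v hv => absurd hv (by simp)) (fun i => i.elim0)
  have h3 := hN3 D η hη (fun y a ha hy => by
      obtain ⟨u, hu, -⟩ := hy y (by
        rw [H166.mem_bxx, sub_self]
        have : nm (0 : ℤ × ℤ) = 0 := by simp [nm]
        omega)
      simp at hu) h hZ.bd1 (fun z hz => hZ.rads hz)
    (fun z hz v hv => hZ.nbh hz hv) G hG0 (fun ω ω' hw => hG ω ω' fun v hv => hw v fun hv' => hv
      ⟨hv'.1, hv'.2.resolve_left (by rintro ⟨u, hu, -⟩; simp at hu)⟩) t 2 ht0 ht2 (by norm_num) le_rfl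
  rw [hZ.sum0, mul_zero, zero_mul, neg_zero, Real.exp_zero, mul_one] at h3
  refine le_trans (le_of_eq ?_) h3
  congr 1
  funext ω
  unfold YQ
  rw [one_pow, one_mul, Real.rpow_ofNat]

/-- **The moments of the majorant.** -/
theorem im_mom {Q : ℝ} {η : Cfg} {Nc : Cfg → ℕ} {t C1 C3 : ℝ} (hQ : 0 < Q) (hM : 2 ≤ M)
    (hC1 : 0 < C1) (hC3 : 0 < C3) {G : Cfg → ℝ} (hG : ∀ ω, 0 ≤ G ω)
    (h1 : Ex Q D η (fun ω => G ω * Real.exp (2 * Real.log M * (Nc ω : ℝ))) ≤ C1 * Ex Q D η G)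
    (h2 : Ex Q D η (fun ω => G ω * Real.exp (-(t * Sm h (κ * n) ω)) ^ 2) ≤ C3 * Ex Q D η G) :
    Ex Q D η (fun ω => G ω * YQ M t Nc h (κ * n) ω) ≤ Real.sqrt C1 * Real.sqrt C3 * Ex Q D η G := by
  have hE : 0 ≤ Ex Q D η G := FKA.Ex_nonneg hQ fun S _ => hG _
  have hM0 : 0 < M := by linarith
  refine ex_cs hQ hG (Real.sqrt_nonneg _) (Real.sqrt_nonneg _) hE ?_ ?_
    (F1 := fun ω => M ^ Nc ω) (F2 := fun ω => Real.exp (-(t * Sm h (κ * n) ω)))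
  · rw [Real.sq_sqrt hC1.le]
    refine le_trans (le_of_eq ?_) h1
    congr 1
    funext ω
    congr 1
    show (M ^ Nc ω) ^ 2 = _
    rw [← Real.exp_log (by positivity : 0 < M ^ Nc ω), ← Real.exp_nat_mul, Real.log_pow]
    congr 1
    push_cast
    ring
  · rw [Real.sq_sqrt hC3.le]
    exact h2

end Vale.Agent.P167.H852.Q
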